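import Vale.Agent.P159.H773.Rat12
import Vale.Agent.P159.H686.GlueT

/-!
P159 (helper773), skeleton of S: from 686's chain of levels to the relation of 552 along the chain.
-/

open MeasureTheory Filter Topology Finset

set_option linter.all false

namespace Vale.Agent.P159.H773

open Vale.Agent.P159.H552.Dx7 (kk nx)
open Vale.Agent.P159.H801 (itw)
open Vale.Agent.P159.H686 (Lcl Cmp Chain)

/-- side of the torus for the distance `R`, ratio `2^i` -/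
def sd (i R : ℕ) : ℕ := 2 ^ i * 2 ^ Nat.clog 2 R

lemma sd_ge (i R : ℕ) : 2 ^ i * R ≤ sd i R :=
  Nat.mul_le_mul_left _ (Nat.le_pow_clog (by norm_num) R)

lemma sd_lt (i : ℕ) {R : ℕ} (hR : 1 ≤ R) : sd i R < 2 ^ i * (2 * R) := by
  unfold sd
  refine Nat.mul_lt_mul_of_pos_left ?_ (by positivity)
  rcases Nat.lt_or_ge 1 R with h | h
  · have h1 := Nat.pow_pred_clog_lt_self (b := 2) (by norm_num) h
    have h2 : 0 < Nat.clog 2 R := Nat.clog_pos (by norm_num) h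
    have h3 : 2 ^ Nat.clog 2 R = 2 * 2 ^ (Nat.clog 2 R).pred := by
      rw [← pow_succ']
      congr 1
      exact (Nat.succ_pred_eq_of_pos h2).symm
    omega
  · have : R = 1 := by omega
    subst this
    simp

lemma sd_pow (i m : ℕ) : sd i (2 ^ m) = 2 ^ (i + m) := by
  unfold sd
  rw [Nat.clog_pow 2 m (by norm_num), pow_add]

/-- another pair `R` at the level of the base pair: mean `cR`, expected mean `κR` -/
def Oth {Ω X : Type} [MeasurableSpace Ω] [MeasurableSpace X] (ν : Measure Ω) (w : Ω → X)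
    (G : X → ℝ) (Λ δ q b h τ cR κR : ℝ) : Prop :=
  ∃ (ΩR : Type) (_ : MeasurableSpace ΩR) (νR : Measure ΩR) (ΨR : ΩR → ℝ) (wR : ΩR → X)
    (GdR : Set ΩR), IsProbabilityMeasure νR ∧ Lcl νR ΨR cR κR wR G GdR Λ δ q b ∧
      Cmp ν νR w wR h τ

section chain

variable {Ω Ω' X : ℕ → Type} [∀ i, MeasurableSpace (Ω i)] [∀ i, MeasurableSpace (Ω' i)]
  [∀ i, MeasurableSpace (X i)] {ν : ∀ i, Measure (Ω i)} {ν' : ∀ i, Measure (Ω' i)}
  {Ψ : ∀ i, Ω i → ℝ} {Ψ' : ∀ i, Ω' i → ℝ} {c κ : ℕ → ℝ} {wd : ∀ i, Ω i → X i}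
  {wd' : ∀ i, Ω' i → X i} {G : ∀ i, X i → ℝ} {Gd : ∀ i, Set (Ω i)} {Gd' : ∀ i, Set (Ω' i)}
  {ε δ q b Λ h τ η κP bW : ℕ → ℝ} {L e a : ℕ → ℝ} {k w : ℕ → ℕ} {n0 : ℕ}

/-- error of the relation at the `j`-th level -/
noncomputable def ej (ε h Λ : ℕ → ℝ) (j : ℕ) : ℝ :=
  2 * (7 * ε j + h j * min ((1 / 4) ^ j * Λ 0 + 184 * ε j) 3)

/-- **the relation at the levels of the chain** -/
theorem stat_of_chain
    (C : Chain Ω Ω' X ν ν' Ψ Ψ' c κ wd wd' G Gd Gd' ε δ q b Λ h τ η κP bW)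
    (hO : ∀ j R : ℕ, 2 ^ kk k (itw w n0 j) ≤ R → R ≤ 2 ^ kk k (nx w (itw w n0 j)) →
      Oth (ν j) (wd j) (G j) (Λ j) (δ j) (q j) (b j) (h j) (τ j) (Real.exp (L R))
        (Real.exp (L (2 ^ kk k (itw w n0 j)) -
          a (itw w n0 j) / 2 * (e R - e (2 ^ kk k (itw w n0 j))))))
    (j R : ℕ) (h1 : 2 ^ kk k (itw w n0 j) ≤ R) (h2 : R ≤ 2 ^ kk k (nx w (itw w n0 j))) :
    |L R - L (2 ^ kk k (itw w n0 j)) +
      a (itw w n0 j) / 2 * (e R - e (2 ^ kk k (itw w n0 j)))| ≤ ej ε h Λ j := by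
  obtain ⟨ΩR, mR, νR, ΨR, wR, GdR, pR, HR, hc⟩ := hO j R h1 h2
  have h3 := C.rel j HR hc
  rw [Real.log_exp, Real.log_exp] at h3
  have e1 : L R - L (2 ^ kk k (itw w n0 j)) +
      a (itw w n0 j) / 2 * (e R - e (2 ^ kk k (itw w n0 j))) =
      L R - (L (2 ^ kk k (itw w n0 j)) -
        a (itw w n0 j) / 2 * (e R - e (2 ^ kk k (itw w n0 j)))) := by ring
  rw [e1]
  exact h3

/-- the base pairs of the chain are the pairs `R_j` with mean `exp (L R_j)`: consistency of the chain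
with the family -/
structure Fit (c κ L e a : ℕ → ℝ) (k w : ℕ → ℕ) (n0 : ℕ) : Prop where
  c_eq : ∀ j, c j = Real.exp (L (2 ^ kk k (itw w n0 j)))
  κ_eq : ∀ j, κ j = Real.exp (L (2 ^ kk k (itw w n0 j)) - a (itw w n0 j) / 2 *
    (e (2 ^ kk k (itw w n0 (j + 1))) - e (2 ^ kk k (itw w n0 j))))

/-- the smallness of the error: enough that `ε_j ≤ y^(1+c)` and that `4^-j Λ_0 ≤ y^(1+c)` -/
lemma ej_le {y : ℕ → ℝ} {c' : ℝ} (hε0 : ∀ j, 0 ≤ ε j) (hh0 : ∀ j, 0 ≤ h j) (hh : ∀ j, h j ≤ 1 / 40)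
    (h1 : ∀ᶠ j in atTop, ε j ≤ y (itw w n0 j) ^ (1 + c') / 100)
    (h2 : ∀ᶠ j : ℕ in atTop, (1 / 4) ^ j * Λ 0 ≤ y (itw w n0 j) ^ (1 + c') / 100) :
    ∀ᶠ j in atTop, ej ε h Λ j ≤ y (itw w n0 j) ^ (1 + c') := by
  filter_upwards [h1, h2] with j g1 g2
  unfold ej
  have g3 : h j * min ((1 / 4) ^ j * Λ 0 + 184 * ε j) 3 ≤
      h j * ((1 / 4) ^ j * Λ 0 + 184 * ε j) :=
    mul_le_mul_of_nonneg_left (min_le_left _ _) (hh0 j)
  have g0 := hε0 j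
  have g5 : 0 ≤ y (itw w n0 j) ^ (1 + c') / 100 := g0.trans g1
  have g4 : h j * ((1 / 4) ^ j * Λ 0 + 184 * ε j) ≤
      h j * (y (itw w n0 j) ^ (1 + c') / 100 + 184 * (y (itw w n0 j) ^ (1 + c') / 100)) :=
    mul_le_mul_of_nonneg_left (by linarith) (hh0 j)
  have g6 : h j * (y (itw w n0 j) ^ (1 + c') / 100 + 184 * (y (itw w n0 j) ^ (1 + c') / 100)) ≤
      1 / 40 * (y (itw w n0 j) ^ (1 + c') / 100 + 184 * (y (itw w n0 j) ^ (1 + c') / 100)) :=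
    mul_le_mul_of_nonneg_right (hh j) (by linarith)
  linarith

end chain

end Vale.Agent.P159.H773
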