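import Vale.Agent.P159.H773.Shift
import Vale.Agent.P159.H817.St2
import Vale.Agent.P159.H883.Twr4

/-!
P159 (helper773): bridge. The constant `CT N b η` of the tower (883) for every integer field `η` with
the circulation and the total flux of the axis pair (`IsPath` of 817) is `cT0 (N - 2) b r`.
-/

open MeasureTheory Filter Topology
open scoped BigOperators

set_option linter.all false

namespace Vale.Agent.P159.H773

open Vale.Agent.P159 Vale.Agent.P159.TM.H331
open Vale.Agent.P159.H770 (wTD Ed)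
open Vale.Agent.P159.H353 (wI)
open Vale.Agent.P159.TM.Spec (V)

variable {M : ℕ} {b : ℝ}

/-- addition of a height function -/
def adH (f : Fin (M + 2) × Fin (M + 2) → ℤ) :
    {h : Fin (M + 2) × Fin (M + 2) → ℤ // h 0 = 0} ≃
      {h : Fin (M + 2) × Fin (M + 2) → ℤ // h 0 = 0} where
  toFun h := ⟨fun x => h.1 x + (f x - f 0), by
    show h.1 0 + (f 0 - f 0) = 0
    rw [h.2]; ring⟩
  invFun h := ⟨fun x => h.1 x - (f x - f 0), by
    show h.1 0 - (f 0 - f 0) = 0
    rw [h.2]; ring⟩
  left_inv h := by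
    apply Subtype.ext
    funext x
    show h.1 x + (f x - f 0) - (f x - f 0) = h.1 x
    ring
  right_inv h := by
    apply Subtype.ext
    funext x
    show h.1 x - (f x - f 0) + (f x - f 0) = h.1 x
    ring

/-- **gauge invariance** -/
theorem ZN_gauge {η η' : (Fin (M + 2) × Fin (M + 2)) × Bool → ℤ}
    (f : Fin (M + 2) × Fin (M + 2) → ℤ)
    (h1 : ∀ x, η' (x, false) = η (x, false) + (f (x + (1, 0)) - f x))
    (h2 : ∀ x, η' (x, true) = η (x, true) + (f (x + (0, 1)) - f x)) :
    ZN M b η' = ZN M b η := by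
  unfold ZN
  rw [← Equiv.tsum_eq (adH f) (fun h => wTD (M + 2) b η h.1)]
  refine tsum_congr fun h => ?_
  rw [wTD_prod, wTD_prod]
  refine Finset.prod_congr rfl fun c _ => ?_
  congr 1
  obtain ⟨x, c⟩ := c
  unfold cuT adH
  simp only [Equiv.coe_fn_mk]
  rw [h1, h2]
  split_ifs <;> ring

/-- sums over the lines of a closed field -/
lemma closed_sum {A B : Fin (M + 2) × Fin (M + 2) → ℤ}
    (hc : ∀ x, A x + B (x + (1, 0)) - A (x + (0, 1)) - B x = 0)
    (hA : ∑ x, A x = 0) : ∑ i : Fin (M + 2), A (i, 0) = 0 := by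
  have h1 : ∀ j : Fin (M + 2), ∑ i : Fin (M + 2), A (i, j + 1) = ∑ i : Fin (M + 2), A (i, j) := by
    intro j
    have h2 : ∑ i : Fin (M + 2), (A (i, j) + B (i + 1, j) - A (i, j + 1) - B (i, j)) = 0 := by
      refine Finset.sum_eq_zero fun i _ => ?_
      have := hc (i, j)
      simpa using this
    rw [Finset.sum_sub_distrib, Finset.sum_sub_distrib, Finset.sum_add_distrib] at h2
    have h3 : ∑ i : Fin (M + 2), B (i + 1, j) = ∑ i : Fin (M + 2), B (i, j) :=
      Equiv.sum_comp (Equiv.addRight (1 : Fin (M + 2))) fun i => B (i, j)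
    rw [h3] at h2
    linarith
  have h2 : ∀ j : Fin (M + 2), ∑ i : Fin (M + 2), A (i, j) = ∑ i : Fin (M + 2), A (i, 0) := by
    intro j
    induction j using Fin.induction with
    | zero => rfl
    | succ j ih => rw [succ_eq, h1, ih]
  have h3 : ∑ x, A x = ((M + 2 : ℕ) : ℤ) * ∑ i : Fin (M + 2), A (i, 0) := by
    rw [Fintype.sum_prod_type, Finset.sum_comm]
    rw [Finset.sum_congr rfl fun j _ => h2 j, Finset.sum_const, Finset.card_univ, Fintype.card_fin,
      nsmul_eq_mul]
  rw [hA] at h3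
  rcases mul_eq_zero.1 h3.symm with h4 | h4
  · exact absurd h4 (by positivity)
  · exact h4

/-- the partition function depends on the circulation and on the total flux only -/
theorem ZN_class {η η' : (Fin (M + 2) × Fin (M + 2)) × Bool → ℤ}
    (hc : ∀ v, curl η' v = curl η v)
    (h1 : ∑ x : Fin (M + 2) × Fin (M + 2), η' (x, false) =
      ∑ x : Fin (M + 2) × Fin (M + 2), η (x, false))
    (h2 : ∑ x : Fin (M + 2) × Fin (M + 2), η' (x, true) =
      ∑ x : Fin (M + 2) × Fin (M + 2), η (x, true)) :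
    ZN M b η' = ZN M b η := by
  set A : Fin (M + 2) × Fin (M + 2) → ℤ := fun x => η' (x, false) - η (x, false) with hA
  set B : Fin (M + 2) × Fin (M + 2) → ℤ := fun x => η' (x, true) - η (x, true) with hB
  have hcl : ∀ x, A x + B (x + (1, 0)) - A (x + (0, 1)) - B x = 0 := by
    intro x
    have := hc x
    unfold curl at this
    simp only [hA, hB]
    linarith
  have hAs : ∑ x, A x = 0 := by
    simp only [hA]
    rw [Finset.sum_sub_distrib, h1, sub_self]
  have hBs : ∑ x, B x = 0 := by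
    simp only [hB]
    rw [Finset.sum_sub_distrib, h2, sub_self]
  have hA0 := closed_sum hcl hAs
  have hB0 : ∑ j : Fin (M + 2), B (0, j) = 0 := by
    have h3 := closed_sum (A := fun x => B (x.2, x.1)) (B := fun x => A (x.2, x.1))
      (fun x => by
        have h4 := hcl (x.2, x.1)
        show B (x.2, x.1) + A ((x + (1, 0)).2, (x + (1, 0)).1) -
          B ((x + (0, 1)).2, (x + (0, 1)).1) - A (x.2, x.1) = 0
        have e1 : ((x + (1, 0)).2, (x + (1, 0)).1) = ((x.2, x.1) : Fin (M + 2) × Fin (M + 2)) +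
            (0, 1) := by ext <;> simp
        have e2 : ((x + (0, 1)).2, (x + (0, 1)).1) = ((x.2, x.1) : Fin (M + 2) × Fin (M + 2)) +
            (1, 0) := by ext <;> simp
        rw [e1, e2]
        linarith)
      (by
        rw [← hBs]
        exact Equiv.sum_comp (Equiv.prodComm (Fin (M + 2)) (Fin (M + 2))) B)
    exact h3
  obtain ⟨f, hf⟩ := fin_pot A B hcl hA0 hB0
  refine ZN_gauge f (fun x => ?_) (fun x => ?_)
  · have := (hf x).1
    simp only [hA] at this
    linarith
  · have := (hf x).2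
    simp only [hB] at this
    linarith

/-- the constant of the tower -/
theorem CT_eq_ZN (η : (Fin (M + 2) × Fin (M + 2)) × Bool → ℤ) :
    H883.CT (M + 2) b η = ZN M b η / ZN M b 0 := by
  unfold H883.CT
  rw [H883.Zp_eq, H883.Zp_eq]
  rfl

/-- the constant of the tower for an integer field with the circulation and the flux of the pair -/
theorem CT_eq_cT0 (hb : 0 ≤ b) {r : ℕ} (hr : r < M + 2)
    {η : (Fin (M + 2) × Fin (M + 2)) × Bool → ℤ}
    (hc : ∀ v, curl η v = src (0, 0) (⟨r, hr⟩, 0) v)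
    (h1 : ∑ x : Fin (M + 2) × Fin (M + 2), η (x, false) = 0)
    (h2 : ∑ x : Fin (M + 2) × Fin (M + 2), η (x, true) = r) :
    H883.CT (M + 2) b η = cT0 M b r := by
  rw [CT_eq_ZN, cT0_eq hb hr]
  congr 1
  refine ZN_class (fun v => ?_) ?_ ?_
  · rw [hc, (pth_dsl _ _).curl]
  · rw [h1, sum_pth_false]
    simp
  · rw [h2, sum_pth_true]
    simp

/-- **bridge with 817's paths** -/
theorem CT_path (hb : 0 ≤ b) {r L : ℕ} (hr : r < M + 2) {η : V (M + 2) × Bool → ℤ}
    (h : H817.IsPath (N := M + 2) (0 : V (M + 2)) (((r : ℕ) : ZMod (M + 2)), 0) r 0 L η) :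
    H883.CT (M + 2) b η = cT0 M b r := by
  have e : (((r : ℕ) : ZMod (M + 2)) : Fin (M + 2)) = ⟨r, hr⟩ :=
    Fin.ext (ZMod.val_cast_of_lt hr)
  refine CT_eq_cT0 hb hr (fun v => ?_) ?_ ?_
  · have h1 := h.cu v
    unfold curl src
    have h2 : ((η (v, false) + η (v + (1, 0), true) - η (v + (0, 1), false) - η (v, true) : ℤ) : ℝ)
        = (((if v = (0, 0) then 1 else 0) - (if v = (⟨r, hr⟩, 0) then 1 else 0) : ℤ) : ℝ) := by
      push_cast
      rw [← e]
      exact h1
    exact_mod_cast h2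
  · have h1 := h.hor
    rw [Int.cast_zero, neg_zero] at h1
    have h2 : ((∑ x : V (M + 2), η (x, false) : ℤ) : ℝ) = ((0 : ℤ) : ℝ) := by
      push_cast
      exact h1
    exact_mod_cast h2
  · have h1 := h.ver
    have h2 : ((∑ x : V (M + 2), η (x, true) : ℤ) : ℝ) = ((r : ℤ) : ℝ) := by
      push_cast
      exact h1
    exact_mod_cast h2

end Vale.Agent.P159.H773
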