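import Vale.Agent.P159.H773.Rat10
import Vale.Agent.P159.H552.Dx7d

/-!
P159 (helper773), fixed ratio transfer, part 11: **the amplitude theorem of the plane** from the flow
`T3` (801) and the raw inputs `RawF` (552) of the fixed families of neutral massless tori of side
`M(R) + 2 ≥ 2^i R`, one family for every large `i`.
-/

open MeasureTheory Filter Topology Finset
open scoped BigOperators

set_option linter.all false

namespace Vale.Agent.P159.H773

open Vale.Agent.P159 Vale.Agent.P159.TM.H331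
open Vale.Agent.P159.H770 (wTD)
open Vale.Agent.P159.H552.Dx7 (lp_pos log_sub mF invS RawF S_convF)
open Vale.Agent.P159.H801 (T3)
open Vale.Agent.P159.H264 (kap)

variable {b : ℝ}

theorem ZN_pos {M : ℕ} (hb : 0 < b) {η : (Fin (M + 2) × Fin (M + 2)) × Bool → ℤ} {p q : St M}
    (hη : Dsl η p q) : 0 < ZN M b η := by
  unfold ZN
  exact (tor_dual hb.le hη).summable.tsum_pos
    (fun h => (Vale.Agent.P159.H770.wTD_pos (N := M + 2) hb η h.1).le) ⟨0, rfl⟩
    (Vale.Agent.P159.H770.wTD_pos (N := M + 2) hb η 0)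

theorem dsl_zero {M : ℕ} (p : St M) : Dsl (M := M) 0 p p := by
  refine ⟨fun v => ?_, ?_, ?_⟩
  · simp [curl, src]
  · simp
  · simp

theorem cT0_pos (hb : 0 < b) {M r : ℕ} (h : r < M + 2) : 0 < cT0 M b r := by
  rw [cT0_eq hb.le h]
  exact div_pos (ZN_pos hb (pth_dsl _ _)) (ZN_pos hb (dsl_zero (0, 0)))

/-- the deterministic part is doubling -/
lemma mtd_dbl {A : ℕ → ℝ} {i0 : ℕ} (hA : ∀ i, i0 ≤ i → A i ≤ 2 * Real.pi) {s r : ℕ}
    (hs : 2 ^ i0 ≤ s) (hr : s ≤ r) :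
    (s : ℝ) * Real.exp (-Vale.Agent.P159.H552.Dx7.mt A s) ≤ 4 * (r * Real.exp (-Vale.Agent.P159.H552.Dx7.mt A r)) := by
  have hs1 : 1 ≤ s := Nat.one_le_two_pow.trans hs
  have hs0 : (0 : ℝ) < s := by exact_mod_cast hs1
  have hr0 : (0 : ℝ) < r := by exact_mod_cast (hs1.trans hr)
  have hl : Nat.log 2 s ≤ Nat.log 2 r := Nat.log_mono_right hr
  have hi : i0 ≤ Nat.log 2 s := by
    have := Nat.log_mono_right (b := 2) hs
    rwa [Nat.log_pow (by norm_num)] at this
  have h1 := log_sub s hs1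
  have h2 := log_sub r (hs1.trans hr)
  have hl2 : 0 < Real.log 2 := Real.log_pos (by norm_num)
  have h3 : Vale.Agent.P159.H552.Dx7.lp * ∑ i ∈ Ico (Nat.log 2 s) (Nat.log 2 r), A i ≤
      ((Nat.log 2 r : ℝ) - Nat.log 2 s) * Real.log 2 := by
    have h4 : ∑ i ∈ Ico (Nat.log 2 s) (Nat.log 2 r), A i ≤
        ((Nat.log 2 r : ℝ) - Nat.log 2 s) * (2 * Real.pi) := by
      refine (sum_le_card_nsmul _ _ _ fun i hi' => hA i (hi.trans (mem_Ico.1 hi').1)).trans ?_
      rw [nsmul_eq_mul, Nat.card_Ico, Nat.cast_sub hl]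
    have h5 := mul_le_mul_of_nonneg_left h4 lp_pos.le
    refine h5.trans (le_of_eq ?_)
    unfold Vale.Agent.P159.H552.Dx7.lp
    have := Real.pi_pos
    field_simp
  have h4 := sum_range_add_sum_Ico A hl
  have h5 : Vale.Agent.P159.H552.Dx7.mt A r - Vale.Agent.P159.H552.Dx7.mt A s ≤ Real.log r - Real.log s + Real.log 4 := by
    have h6 : Real.log 4 = 2 * Real.log 2 := by
      rw [show (4 : ℝ) = 2 ^ 2 by norm_num, Real.log_pow]
      norm_num
    unfold Vale.Agent.P159.H552.Dx7.mt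
    rw [← h4, mul_add, h6]
    linarith
  have h6 : Real.exp (-Vale.Agent.P159.H552.Dx7.mt A s) = Real.exp (Vale.Agent.P159.H552.Dx7.mt A r - Vale.Agent.P159.H552.Dx7.mt A s) * Real.exp (-Vale.Agent.P159.H552.Dx7.mt A r) := by
    rw [← Real.exp_add]
    congr 1
    ring
  rw [h6]
  have h7 : Real.exp (Vale.Agent.P159.H552.Dx7.mt A r - Vale.Agent.P159.H552.Dx7.mt A s) ≤ r / s * 4 := by
    refine (Real.exp_le_exp.2 h5).trans (le_of_eq ?_)
    rw [Real.exp_add, Real.exp_sub, Real.exp_log hr0, Real.exp_log hs0,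
      Real.exp_log (by norm_num)]
  have h8 : (s : ℝ) * (Real.exp (Vale.Agent.P159.H552.Dx7.mt A r - Vale.Agent.P159.H552.Dx7.mt A s) * Real.exp (-Vale.Agent.P159.H552.Dx7.mt A r)) ≤
      s * (r / s * 4 * Real.exp (-Vale.Agent.P159.H552.Dx7.mt A r)) :=
    mul_le_mul_of_nonneg_left (mul_le_mul_of_nonneg_right h7 (Real.exp_pos _).le) hs0.le
  refine h8.trans (le_of_eq ?_)
  field_simp

/-- **THE AMPLITUDE THEOREM OF THE PLANE** -/
theorem xy_amp_of (hb : 0 < b) {x y : ℕ → ℝ} {κ : ℝ} {δ : ℕ → ℝ} (hδ : Tendsto δ atTop (𝓝 0))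
    {i1 : ℕ}
    (hF : ∀ i, i1 ≤ i → ∃ (c r q B A : ℝ) (w : ℕ → ℕ) (N : ℕ) (E : ℕ → ℕ → ℝ) (e a t : ℕ → ℝ)
      (k : ℕ → ℕ) (c' C0 : ℝ) (M : ℕ → ℕ), T3 x y kap c r q B A w N ∧
      RawF E e a x y (fun R => Real.log (cT0 (M R) b R)) t k w c' C0 ∧
      ∀ᶠ R : ℕ in atTop, (2 : ℝ) ^ i * R ≤ M R + 2 ∧
        |e R - 1 / Real.pi * Real.log R - κ| ≤ δ i) :
    ∃ a : ℝ, 0 < a ∧ Tendsto (fun r : ℕ => corrInf b ((r : ℤ), 0) /
      ((r : ℝ) ^ (-(1 / 4) : ℝ) * Real.log r ^ (1 / 8 : ℝ))) atTop (𝓝 a) := by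
  obtain ⟨c, r, q, B, A, w, N, E, e, a, t, k, c', C0, M, hT, -⟩ := hF i1 le_rfl
  have hx0 : Tendsto x atTop (𝓝 0) := hT.fl.xt
  have hinv : Tendsto (invS x) atTop (𝓝 (1 / (2 / Real.pi + 0))) := by
    unfold invS
    refine Tendsto.div tendsto_const_nhds (tendsto_const_nhds.add hx0) ?_
    have := Real.pi_pos
    positivity
  have hA : ∀ᶠ i in atTop, invS x i ≤ 2 * Real.pi := by
    have hpi := Real.pi_pos
    have h1 : 1 / (2 / Real.pi + 0) < 2 * Real.pi := by
      rw [add_zero, one_div_div]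
      linarith
    exact (hinv.eventually (Iio_mem_nhds h1)).mono fun i hi => le_of_lt hi
  obtain ⟨i0, hi0⟩ := eventually_atTop.1 hA
  have hδ' : Tendsto (fun i : ℕ => 1 / ((i : ℝ) + 1) + Real.pi / 4 * δ i) atTop (𝓝 0) := by
    have h1 := tendsto_one_div_add_atTop_nhds_zero_nat (𝕜 := ℝ)
    have h2 := hδ.const_mul (Real.pi / 4)
    simpa using h1.add h2
  obtain ⟨hC, l, hl⟩ := ratio_lim hb.le (Λ := Vale.Agent.P159.H552.Dx7.mt (invS x)) (DΛ := 4) (s0 := 2 ^ i0)
    (fun s r hs hr => mtd_dbl hi0 hs hr) hδ' (i1 := max i1 1) (fun i hi => by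
      obtain ⟨c, r, q, B, A, w, N, E, e, a, t, k, c', C0, M, hT, hR, hev⟩ :=
        hF i ((le_max_left _ _).trans hi)
      have hi1 : 1 ≤ i := (le_max_right _ _).trans hi
      obtain ⟨l, hl⟩ := S_convF hT hR
      refine ⟨M, l - Real.pi / 4 * κ, ?_⟩
      have hi' : (0 : ℝ) < 1 / ((i : ℝ) + 1) := by positivity
      have h1 := (Metric.tendsto_nhds.1 hl) _ hi'
      filter_upwards [h1, hev, eventually_ge_atTop 1] with R h2 h3 hR1
      have hR' : (0 : ℝ) < R := by exact_mod_cast hR1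
      have h4 : (2 : ℝ) ≤ 2 ^ i := by
        calc (2 : ℝ) = 2 ^ 1 := (pow_one 2).symm
          _ ≤ 2 ^ i := pow_le_pow_right₀ (by norm_num) hi1
      refine ⟨h3.1, ?_, ?_⟩
      · refine cT0_pos hb ?_
        have h5 : (R : ℝ) < M R + 2 := by
          have := h3.1
          nlinarith
        exact_mod_cast h5
      · rw [Real.dist_eq] at h2
        have hpi := Real.pi_pos
        have h5 : Real.log (cT0 (M R) b R) + Vale.Agent.P159.H552.Dx7.mt (invS x) R - (l - Real.pi / 4 * κ) =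
            (Real.log (cT0 (M R) b R) + mF e (invS x) R - l) -
              Real.pi / 4 * (e R - 1 / Real.pi * Real.log R - κ) := by
          unfold Vale.Agent.P159.H552.Dx7.mt mF
          field_simp
          ring
        rw [h5]
        refine (abs_sub _ _).trans ?_
        rw [abs_mul, abs_of_pos (by positivity : 0 < Real.pi / 4)]
        have h6 := mul_le_mul_of_nonneg_left h3.2 (by positivity : 0 ≤ Real.pi / 4)
        linarith)
  have h1 := hT.amp (p := x) (by simp) (C := fun r : ℕ => XY.C b ((r : ℤ), 0)) hC (c' := l)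
    (hl.congr fun R => by
      unfold Vale.Agent.P159.H552.Dx7.mt Vale.Agent.P159.H552.Dx7.lp invS
      ring)
  obtain ⟨a', ha', ha⟩ := h1
  refine ⟨a', ha', ha.congr fun r => ?_⟩
  rw [XY.corrInf_eq hb.le]

end Vale.Agent.P159.H773
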