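import Vale.Agent.P159.H773.Rat5

/-!
P159 (helper773), fixed ratio transfer, part 6: the charge two correlation of a wired region.
-/

open MeasureTheory Filter Topology
open scoped BigOperators

set_option linter.all false

namespace Vale.Agent.P159.H773

open Vale.Agent.P159 Vale.Agent.P159.H353 Vale.Agent.P159.T1.H42 Vale.Agent.P159.TM.H389
open Vale.Agent.P159.TM.H331

variable {b : ℝ}

/-- magnetization at the centre of the wired box of radius `ρ` -/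
noncomputable def mm (b : ℝ) (ρ : ℕ) : ℝ := EW b (box ρ) fun ω => cosT (ω 0)

lemma mm_tr (b : ℝ) (ρ : ℕ) (p : ℤ × ℤ) :
    EW b (tr (box ρ) p) (fun ω => cosT (ω p)) = mm b ρ := by
  have h := EW_tr1 b (box ρ) p 0
  rwa [zero_add] at h

lemma zero_mem_box' (ρ : ℕ) : (0 : ℤ × ℤ) ∈ box ρ := XY.zero_mem_box ρ

lemma mem_tr_box {ρ : ℕ} (p : ℤ × ℤ) : p ∈ tr (box ρ) p := by
  rw [mem_tr, sub_self]
  exact zero_mem_box' ρ

theorem EW_mono1 (hb : 0 ≤ b) {Λ Λ' : Finset (ℤ × ℤ)} (h : Λ ⊆ Λ') {p : ℤ × ℤ} (hp : p ∈ Λ') :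
    EW b Λ' (fun ω => cosT (ω p)) ≤ EW b Λ fun ω => cosT (ω p) := by
  have h1 := EW_mono (b := b) hb h hp hp 0
  simpa only [zero_zsmul, add_zero] using h1

lemma mm_nonneg (hb : 0 ≤ b) (ρ : ℕ) : 0 ≤ mm b ρ := by
  have h1 := EW_nonneg (b := b) hb (zero_mem_box' ρ) (zero_mem_box' ρ) 0
  simp only [zero_zsmul, add_zero] at h1
  exact h1

lemma mm_anti (hb : 0 ≤ b) : Antitone (mm b) := by
  intro ρ ρ' h
  exact EW_mono1 hb (XY.box_mono h) (zero_mem_box' ρ')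

lemma sep_box {ρ : ℕ} {p q : ℤ × ℤ} (h : 2 * ρ + 2 ≤ XY.nm (p - q)) :
    Sep (tr (box ρ) p) (tr (box ρ) q) := by
  intro u hu v hv
  rw [mem_tr, XY.mem_box_iff_nm] at hu hv
  have h1 := XY.nm_add_le (p - u) ((u - v) + (v - q))
  have h2 := XY.nm_add_le (u - v) (v - q)
  have h3 : p - u + (u - v + (v - q)) = p - q := by abel
  rw [h3] at h1
  rw [nm_sub_comm] at hu
  omega

/-- **charge two in a wired region** -/
theorem two_charge (hb : 0 ≤ b) {Λ : Finset (ℤ × ℤ)} {z : ℤ × ℤ} {R d ρ : ℕ} {p q : ℤ × ℤ}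
    (hR : 1 ≤ R) (hd : 1 ≤ d) (hΛ : tr (inner (R + 2 * d)) z ⊆ Λ)
    (hp : tr (box ρ) p ⊆ tr (inner R) (z + ((d : ℤ), (d : ℤ))))
    (hq : tr (box ρ) q ⊆ tr (inner R) (z + ((d : ℤ), (d : ℤ))))
    (hs : 2 * ρ + 2 ≤ XY.nm (p - q)) :
    EW b Λ (fun ω => cosT (ω p + ω q)) ≤
      Real.exp (1 / (16 * b + 1) / 2) * (((R : ℝ) + d) / R) ^ (-(1 / (16 * b + 1)) : ℝ) *
        mm b ρ ^ 2 := by
  set Λ1 := tr (inner (R + 2 * d)) z with hΛ1
  set Λ2 := tr (inner R) (z + ((d : ℤ), (d : ℤ))) with hΛ2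
  have h21 : Λ2 ⊆ Λ1 := by
    intro v hv
    rw [hΛ2, mem_tr, mem_inner_iff] at hv
    rw [hΛ1, mem_tr, mem_inner_iff]
    simp only [Prod.fst_sub, Prod.snd_sub, Prod.fst_add, Prod.snd_add] at hv ⊢
    push_cast
    omega
  have hp2 : p ∈ Λ2 := hp (mem_tr_box p)
  have hq2 : q ∈ Λ2 := hq (mem_tr_box q)
  -- first step
  have s1 := EW_mono (b := b) hb hΛ (hΛ (h21 hp2)) (hΛ (h21 hq2)) 1
  simp only [one_zsmul] at s1
  -- second step
  have hM : R + 2 * d = (R + 2 * d - 1) + 1 := by omega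
  have e0 : tr Λ1 (-z) = inner ((R + 2 * d - 1) + 1) := by
    rw [hΛ1, tr_tr, add_neg_cancel, tr_zero, ← hM]
  have e1 : tr Λ2 (-z) = tr (inner R) ((d : ℤ), (d : ℤ)) := by
    rw [hΛ2, tr_tr]
    congr 1
    abel
  have hp3 : p - z ∈ tr (inner R) ((d : ℤ), (d : ℤ)) := by
    rw [← e1, mem_tr]
    simpa using hp2
  have hq3 : q - z ∈ tr (inner R) ((d : ℤ), (d : ℤ)) := by
    rw [← e1, mem_tr]
    simpa using hq2
  have s2 := charge_two_box (M := R + 2 * d - 1) (P := d) (Q := d) (R := R) (d := d) hb hR hd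
    le_rfl le_rfl (by omega) (by omega) hp3 hq3
  have t1 := EW_tr2 b Λ1 (-z) p q 1
  have t2 := EW_tr2 b Λ2 (-z) p q 1
  simp only [one_zsmul, ← sub_eq_add_neg] at t1 t2
  rw [← e0, ← e1, t1, t2] at s2
  -- third step
  have s3 := EW_mono (b := b) hb (Finset.union_subset hp hq) hp2 hq2 1
  simp only [one_zsmul] at s3
  have s4 := EW_two (b := b) (sep_box hs) (mem_tr_box p) (mem_tr_box q)
  rw [mm_tr, mm_tr, ← pow_two] at s4
  rw [s4] at s3
  refine s1.trans (s2.trans ?_)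
  refine mul_le_mul_of_nonneg_left s3 ?_
  positivity

/-- the two point function of the neutral torus of side `M + 2` at the distance `r` -/
noncomputable def cTp (M : ℕ) (b : ℝ) (a r : ℕ) : ℝ :=
  if h : a + r < M + 2 then cT M b (⟨a, by omega⟩, ⟨a, by omega⟩) (⟨a + r, h⟩, ⟨a, by omega⟩)
  else 0

/-- **plane versus neutral torus**, on the axis -/
theorem C_sub_cTp (hb : 0 ≤ b) {M r : ℕ} (hr : 4 ≤ r) (hM : 4 * r + 2 ≤ M) :
    |XY.C b ((r : ℤ), 0) - cTp M b ((M + 1 - 4 * r) / 2 + r) r| ≤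
      Real.exp (1 / (16 * b + 1) / 2) *
        (((4 * r : ℕ) + (((M + 1 - 4 * r) / 2 : ℕ) : ℝ)) / (4 * r : ℕ)) ^
          (-(1 / (16 * b + 1)) : ℝ) * mm b (r / 4) ^ 2 := by
  set d : ℕ := (M + 1 - 4 * r) / 2 with hd
  have hd1 : 1 ≤ d := by omega
  set p : ℤ × ℤ := (((d + r : ℕ) : ℤ), ((d + r : ℕ) : ℤ)) with hp
  set q : ℤ × ℤ := (((d + r + r : ℕ) : ℤ), ((d + r : ℕ) : ℤ)) with hq
  have hpi : p ∈ inner (M + 1) := by
    rw [mem_inner_iff, hp]
    push_cast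
    omega
  have hqi : q ∈ inner (M + 1) := by
    rw [mem_inner_iff, hq]
    push_cast
    omega
  have h1 := C_sub_abs (M := M) hb ⟨p, hpi⟩ ⟨q, hqi⟩
  have e1 : q - p = ((r : ℤ), 0) := by
    rw [hp, hq]
    ext
    · simp
    · simp
  have e2 : cT M b (ci ⟨p, hpi⟩) (ci ⟨q, hqi⟩) = cTp M b (d + r) r := by
    unfold cTp
    rw [dif_pos (by omega)]
    rfl
  have e3 : expect (blockEnergy (M + 1) b)
      (fun θ : inner (M + 1) → T => cosT (θ ⟨p, hpi⟩ + θ ⟨q, hqi⟩)) =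
      EW b (inner (M + 1)) fun ω => cosT (ω p + ω q) := by
    rw [EW_block]
    congr 1
    funext φ
    rw [ext_on _ hpi, ext_on _ hqi]
  rw [e2, e3] at h1
  simp only at h1
  rw [e1] at h1
  refine h1.trans ?_
  refine two_charge (b := b) (z := 0) (R := 4 * r) (d := d) (ρ := r / 4) hb (by omega) hd1 ?_ ?_ ?_ ?_
  · rw [tr_zero]
    intro v hv
    rw [mem_inner_iff] at hv ⊢
    push_cast at hv ⊢
    omega
  · intro v hv
    rw [mem_tr, XY.mem_box] at hv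
    rw [mem_tr, mem_inner_iff]
    simp only [hp, Prod.fst_sub, Prod.snd_sub, zero_add] at hv ⊢
    push_cast at hv ⊢
    omega
  · intro v hv
    rw [mem_tr, XY.mem_box] at hv
    rw [mem_tr, mem_inner_iff]
    simp only [hq, Prod.fst_sub, Prod.snd_sub, zero_add] at hv ⊢
    push_cast at hv ⊢
    omega
  · rw [nm_sub_comm, e1]
    unfold XY.nm
    simp only [Int.natAbs_natCast, Int.natAbs_zero]
    omega

end Vale.Agent.P159.H773
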