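import Vale.Agent.P159.H773.Rat1

/-!
P159 (helper773), fixed ratio transfer, part 2: wired states of finite regions of the plane.
-/

open MeasureTheory Filter Topology
open scoped BigOperators

set_option linter.all false

namespace Vale.Agent.P159.H773

open Vale.Agent.P159 Vale.Agent.P159.H353 Vale.Agent.P159.T1.H42 Vale.Agent.P159.TM.H389
open Vale.Agent.P159.TM.H331

variable {M : ℕ} {b : ℝ}

/-- energy of a configuration (relative to the constant configuration) -/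
noncomputable def EL (b : ℝ) (ω : ℤ × ℤ → T) : ℝ :=
  ∑' e : (ℤ × ℤ) × (ℤ × ℤ), nn b e.1 e.2 * (cosT (ω e.1 - ω e.2) - 1)

lemma nn_add (b : ℝ) (u v z : ℤ × ℤ) : nn b (u + z) (v + z) = nn b u v := by
  unfold nn
  have e1 : v + z = u + z + (1, 0) ↔ v = u + (1, 0) := by
    rw [add_right_comm, add_left_inj]
  have e2 : v + z = u + z + (0, 1) ↔ v = u + (0, 1) := by
    rw [add_right_comm, add_left_inj]
  exact if_congr (or_congr e1 e2) rfl rfl

lemma EL_shift (b : ℝ) (ω : ℤ × ℤ → T) (z : ℤ × ℤ) :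
    EL b (fun v => ω (v + z)) = EL b ω := by
  unfold EL
  rw [← Equiv.tsum_eq ((Equiv.addRight z).prodCongr (Equiv.addRight z))
    (fun e : (ℤ × ℤ) × (ℤ × ℤ) => nn b e.1 e.2 * (cosT (ω e.1 - ω e.2) - 1))]
  refine tsum_congr fun e => ?_
  show _ = nn b (e.1 + z) (e.2 + z) * (cosT (ω (e.1 + z) - ω (e.2 + z)) - 1)
  rw [nn_add]

lemma EL_sum (b : ℝ) {ω : ℤ × ℤ → T} (h0 : ∀ z, z ∉ inner (M + 1) → ω z = 0) :
    EL b ω = ∑ u : St M, ∑ v : St M, nn b (cv u) (cv v) * (cosT (ω (cv u) - ω (cv v)) - 1) := by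
  unfold EL
  rw [tsum_eq_sum (s := QQ M ×ˢ QQ M), Finset.sum_product]
  · unfold QQ
    rw [Finset.sum_image fun x _ y _ h => cv_inj h]
    refine Finset.sum_congr rfl fun u _ => ?_
    rw [Finset.sum_image fun x _ y _ h => cv_inj h]
  · intro e he
    rw [Finset.mem_product, not_and_or] at he
    exact cos_term_zero b ω h0 he

/-- the energy in the box -/
lemma EL_St (b : ℝ) {ω : ℤ × ℤ → T} (h0 : ∀ z, z ∉ inner (M + 1) → ω z = 0) :
    EN (fun _ : Bd M => b) bs bt (fun v => ω (cv v)) = EL b ω + ∑ e : Bd M, b := by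
  rw [EL_sum b h0, sum_nn_St b (fun u v => cosT (ω (cv u) - ω (cv v)) - 1), EN_apply,
    ← Finset.sum_add_distrib]
  exact Finset.sum_congr rfl fun e _ => by ring

/-- wired expectation in the region `Λ` -/
noncomputable def EW (b : ℝ) (Λ : Finset (ℤ × ℤ)) (f : (ℤ × ℤ → T) → ℝ) : ℝ :=
  (∫ φ, Real.exp (EL b (ext φ)) * f (ext φ) ∂(torusHaar Λ)) /
    ∫ φ, Real.exp (EL b (ext φ)) ∂(torusHaar Λ)

lemma ext_off {Λ : Finset (ℤ × ℤ)} (φ : Λ → T) {z : ℤ × ℤ} (h : z ∉ Λ) : ext φ z = 0 := by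
  unfold ext
  rw [dif_neg h]

lemma ext_on {Λ : Finset (ℤ × ℤ)} (φ : Λ → T) {z : ℤ × ℤ} (h : z ∈ Λ) : ext φ z = φ ⟨z, h⟩ := by
  unfold ext
  rw [dif_pos h]

/-- sites of the box off `Λ` -/
def off (M : ℕ) (Λ : Finset (ℤ × ℤ)) : Set (St M) := {v | cv v ∉ Λ}

/-- integrals over the box with the spins off `Λ` pinned -/
lemma int_pin_St {Λ : Finset (ℤ × ℤ)} (hΛ : Λ ⊆ inner (M + 1)) {f : (St M → T) → ℝ}
    (hf : Continuous f) :
    ∫ θ, f (pin (off M Λ) 0 θ) ∂(torusHaar (St M)) =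
      ∫ φ, f (fun v => ext φ (cv v)) ∂(torusHaar Λ) := by
  have hc : Continuous fun φ : Λ → T => (fun v : St M => ext φ (cv v)) :=
    continuous_pi fun v => (continuous_apply (cv v)).comp (ext_cont _)
  have hinj : Function.Injective (fun w : Λ => ci (M := M) ⟨w.1, hΛ w.2⟩) := by
    intro w w' hw
    have := ci_inj hw
    apply Subtype.ext
    simpa using this
  have h1 := integral_relabel (fun w : Λ => ci (M := M) ⟨w.1, hΛ w.2⟩) hinj
    (torusHaar (St M)) (torusHaar Λ) (f := fun φ => f (fun v => ext φ (cv v)))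
    (hf.comp hc)
  rw [← h1]
  refine integral_congr_ae (Eventually.of_forall fun θ => ?_)
  show f _ = f _
  congr 1
  funext v
  by_cases hv : cv v ∈ Λ
  · have hv' : v ∉ off M Λ := fun h2 => absurd hv (show cv v ∉ Λ from h2)
    rw [pin_notMem hv', ext_on _ hv]
    show θ v = θ (ci ⟨cv v, hΛ hv⟩)
    rw [ci_cv]
  · rw [pin_mem (show v ∈ off M Λ from hv), ext_off _ hv]
    rfl

/-- the character `p + s q` -/
noncomputable def ch2 {V : Type*} (p q : V) (s : ℤ) : Chr (V → T) where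
  c θ := cosT (θ p + s • θ q)
  s θ := sinT (θ p + s • θ q)
  cont_c := cont_cos.comp ((continuous_apply p).add ((continuous_apply q).zsmul s))
  cont_s := cont_sin.comp ((continuous_apply p).add ((continuous_apply q).zsmul s))
  c_add x y := by
    have : (x + y) p + s • (x + y) q = (x p + s • x q) + (y p + s • y q) := by
      simp only [Pi.add_apply, smul_add]; abel
    rw [this]
    exact Real.Angle.cos_add _ _
  s_add x y := by
    have : (x + y) p + s • (x + y) q = (x p + s • x q) + (y p + s • y q) := by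
      simp only [Pi.add_apply, smul_add]; abel
    rw [this]
    exact Real.Angle.sin_add _ _
  norm_sq x := Real.Angle.cos_sq_add_sin_sq _

lemma WF_EL (b : ℝ) {Λ : Finset (ℤ × ℤ)} (hΛ : Λ ⊆ inner (M + 1)) (φ : Λ → T) :
    WF M b (fun v => ext φ (cv v)) = Real.exp (EL b (ext φ)) * Real.exp (∑ e : Bd M, b) := by
  show Real.exp (EN (fun _ : Bd M => b) bs bt (fun v => ext φ (cv v))) = _
  rw [EL_St b (fun z hz => ext_off φ fun h => hz (hΛ h)), Real.exp_add]

/-- wired expectations as expectations with pinned spins in the box -/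
theorem eP_eq_EW {Λ : Finset (ℤ × ℤ)} (hΛ : Λ ⊆ inner (M + 1)) {F : (St M → T) → ℝ}
    (hF : Continuous F) {f : (ℤ × ℤ → T) → ℝ}
    (h : ∀ φ : Λ → T, F (fun v => ext φ (cv v)) = f (ext φ)) :
    eP (WF M b) (off M Λ) F = EW b Λ f := by
  unfold eP EW
  have e1 := int_pin_St (M := M) hΛ (f := fun θ => WF M b θ * F θ)
    ((WF M b).continuous.mul hF)
  have e2 := int_pin_St (M := M) hΛ (f := fun θ => WF M b θ) (WF M b).continuous
  have e3 : ∫ φ : Λ → T, WF M b (fun v => ext φ (cv v)) * F (fun v => ext φ (cv v))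
      ∂(torusHaar Λ) = (∫ φ, Real.exp (EL b (ext φ)) * f (ext φ) ∂(torusHaar Λ)) *
        Real.exp (∑ e : Bd M, b) := by
    rw [← integral_mul_const]
    refine integral_congr_ae (Eventually.of_forall fun φ => ?_)
    show WF M b (fun v => ext φ (cv v)) * F (fun v => ext φ (cv v)) = _
    rw [WF_EL b hΛ, h]
    ring
  have e4 : ∫ φ : Λ → T, WF M b (fun v => ext φ (cv v)) ∂(torusHaar Λ) =
      (∫ φ, Real.exp (EL b (ext φ)) ∂(torusHaar Λ)) * Real.exp (∑ e : Bd M, b) := by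
    rw [← integral_mul_const]
    refine integral_congr_ae (Eventually.of_forall fun φ => ?_)
    exact WF_EL b hΛ φ
  rw [e1, e2, e3, e4, mul_div_mul_right _ _ (Real.exp_pos _).ne']

theorem eP_ch2 {Λ : Finset (ℤ × ℤ)} (hΛ : Λ ⊆ inner (M + 1)) (p q : St M) (s : ℤ) :
    eP (WF M b) (off M Λ) (cc (ch2 p q s)) =
      EW b Λ fun ω => cosT (ω (cv p) + s • ω (cv q)) :=
  eP_eq_EW hΛ (cc (ch2 p q s)).continuous fun φ => rfl

/-! ### translations -/

/-- translated region -/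
noncomputable def tr (Λ : Finset (ℤ × ℤ)) (z : ℤ × ℤ) : Finset (ℤ × ℤ) :=
  Λ.map (Equiv.addRight z).toEmbedding

lemma mem_tr {Λ : Finset (ℤ × ℤ)} {z v : ℤ × ℤ} : v ∈ tr Λ z ↔ v - z ∈ Λ := by
  unfold tr
  rw [Finset.mem_map]
  constructor
  · rintro ⟨w, hw, rfl⟩
    simpa using hw
  · intro h
    exact ⟨v - z, h, by simp⟩

lemma tr_zero (Λ : Finset (ℤ × ℤ)) : tr Λ 0 = Λ := by
  ext v
  rw [mem_tr, sub_zero]

lemma tr_tr (Λ : Finset (ℤ × ℤ)) (z z' : ℤ × ℤ) : tr (tr Λ z) z' = tr Λ (z + z') := by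
  ext v
  rw [mem_tr, mem_tr, mem_tr, sub_sub, add_comm z' z]

lemma tr_mono {Λ Λ' : Finset (ℤ × ℤ)} (h : Λ ⊆ Λ') (z : ℤ × ℤ) : tr Λ z ⊆ tr Λ' z := by
  intro v hv
  rw [mem_tr] at *
  exact h hv

lemma exists_inner (Λ : Finset (ℤ × ℤ)) : ∃ (M : ℕ) (z : ℤ × ℤ), tr Λ z ⊆ inner (M + 1) := by
  obtain ⟨R, hR⟩ := XY.exists_box Λ
  refine ⟨2 * R + 1, ((R : ℤ) + 1, (R : ℤ) + 1), fun v hv => ?_⟩
  rw [mem_tr] at hv
  have h := XY.mem_box.1 (hR hv)
  rw [mem_inner_iff]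
  simp only [Prod.fst_sub, Prod.snd_sub] at h
  push_cast
  omega

/-- integrals over translated regions -/
lemma int_tr (Λ : Finset (ℤ × ℤ)) (z : ℤ × ℤ) {f : (ℤ × ℤ → T) → ℝ}
    (hf : Continuous fun φ : Λ → T => f (fun v => ext φ (v - z))) :
    ∫ φ, f (ext φ) ∂(torusHaar (tr Λ z)) =
      ∫ φ, f (fun v => ext φ (v - z)) ∂(torusHaar Λ) := by
  have hm : ∀ w : Λ, w.1 + z ∈ tr Λ z := fun w => by
    rw [mem_tr, add_sub_cancel_right]
    exact w.2
  have hinj : Function.Injective (fun w : Λ => (⟨w.1 + z, hm w⟩ : tr Λ z)) := by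
    intro w w' hw
    apply Subtype.ext
    simpa using hw
  have h1 := integral_relabel (fun w : Λ => (⟨w.1 + z, hm w⟩ : tr Λ z)) hinj
    (torusHaar (tr Λ z)) (torusHaar Λ) (f := fun φ => f (fun v => ext φ (v - z))) hf
  rw [← h1]
  refine integral_congr_ae (Eventually.of_forall fun θ => ?_)
  show f _ = f _
  congr 1
  funext v
  by_cases hv : v ∈ tr Λ z
  · have hv' : v - z ∈ Λ := mem_tr.1 hv
    rw [ext_on _ hv, ext_on _ hv']
    show θ ⟨v, hv⟩ = θ ⟨v - z + z, hm ⟨v - z, hv'⟩⟩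
    congr 1
    apply Subtype.ext
    simp
  · have hv' : v - z ∉ Λ := fun h => hv (mem_tr.2 h)
    rw [ext_off _ hv, ext_off _ hv']

lemma EL_cont (b : ℝ) (Λ : Finset (ℤ × ℤ)) : Continuous fun φ : Λ → T => EL b (ext φ) := by
  obtain ⟨M, z, hM⟩ := exists_inner Λ
  have h0 : ∀ φ : Λ → T, ∀ v, v ∉ inner (M + 1) → (fun v => ext φ (v - z)) v = 0 := by
    intro φ v hv
    refine ext_off φ fun h => hv (hM ?_)
    rw [mem_tr]
    exact h
  have e : (fun φ : Λ → T => EL b (ext φ)) = fun φ : Λ → T =>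
      EN (fun _ : Bd M => b) bs bt (fun v => ext φ (cv v - z)) - ∑ e : Bd M, b := by
    funext φ
    have h1 := EL_St (M := M) b (ω := fun v => ext φ (v - z)) (h0 φ)
    have h2 := EL_shift b (ext φ) (-z)
    have h3 : (fun v => ext φ (v + -z)) = fun v => ext φ (v - z) := by
      funext v
      rw [sub_eq_add_neg]
    rw [h3] at h2
    rw [h2] at h1
    linarith
  rw [e]
  have hc : Continuous fun φ : Λ → T => (fun v : St M => ext φ (cv v - z)) :=
    continuous_pi fun v => (continuous_apply (cv v - z)).comp (ext_cont _)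
  exact ((EN (fun _ : Bd M => b) bs bt).continuous.comp hc).sub continuous_const

lemma ext_shift_cont (Λ : Finset (ℤ × ℤ)) (z : ℤ × ℤ) :
    Continuous fun φ : Λ → T => (fun v : ℤ × ℤ => ext φ (v - z)) :=
  continuous_pi fun v => (continuous_apply (v - z)).comp (ext_cont _)

theorem EW_tr (b : ℝ) (Λ : Finset (ℤ × ℤ)) (z : ℤ × ℤ) {f : (ℤ × ℤ → T) → ℝ}
    (hf : Continuous f) :
    EW b (tr Λ z) f = EW b Λ fun ω => f (fun v => ω (v - z)) := by
  have hEL : ∀ φ : Λ → T, EL b (fun v => ext φ (v - z)) = EL b (ext φ) := by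
    intro φ
    have h := EL_shift b (ext φ) (-z)
    simpa [sub_eq_add_neg] using h
  have hc := ext_shift_cont Λ z
  have c1 : Continuous fun φ : Λ → T => Real.exp (EL b (fun v => ext φ (v - z))) := by
    simp_rw [hEL]
    exact Real.continuous_exp.comp (EL_cont b Λ)
  unfold EW
  rw [int_tr Λ z (f := fun ω => Real.exp (EL b ω) * f ω) (c1.mul (hf.comp hc)),
    int_tr Λ z (f := fun ω => Real.exp (EL b ω)) c1]
  simp_rw [hEL]

/-- continuous trigonometric functions of two spins -/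
lemma cos2_cont (p q : ℤ × ℤ) (s : ℤ) :
    Continuous fun ω : ℤ × ℤ → T => cosT (ω p + s • ω q) :=
  cont_cos.comp ((continuous_apply p).add ((continuous_apply q).zsmul s))

theorem EW_tr2 (b : ℝ) (Λ : Finset (ℤ × ℤ)) (z p q : ℤ × ℤ) (s : ℤ) :
    EW b (tr Λ z) (fun ω => cosT (ω (p + z) + s • ω (q + z))) =
      EW b Λ fun ω => cosT (ω p + s • ω q) := by
  rw [EW_tr b Λ z (cos2_cont _ _ s)]
  simp only [add_sub_cancel_right]

/-! ### monotonicity -/

lemma off_mono {Λ Λ' : Finset (ℤ × ℤ)} (h : Λ ⊆ Λ') : off M Λ' ⊆ off M Λ := by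
  intro v hv hv'
  exact hv (h hv')

lemma EW_mono' (hb : 0 ≤ b) {Λ Λ' : Finset (ℤ × ℤ)} (h : Λ ⊆ Λ')
    (hΛ : Λ' ⊆ inner (M + 1)) {p q : ℤ × ℤ} (hp : p ∈ Λ') (hq : q ∈ Λ') (s : ℤ) :
    EW b Λ' (fun ω => cosT (ω p + s • ω q)) ≤ EW b Λ fun ω => cosT (ω p + s • ω q) := by
  have e1 : cv (ci (M := M) ⟨p, hΛ hp⟩) = p := cv_ci _
  have e2 : cv (ci (M := M) ⟨q, hΛ hq⟩) = q := cv_ci _
  have h1 := eP_ch2 (b := b) (M := M) hΛ (ci ⟨p, hΛ hp⟩) (ci ⟨q, hΛ hq⟩) s
  have h2 := eP_ch2 (b := b) (M := M) (h.trans hΛ) (ci ⟨p, hΛ hp⟩) (ci ⟨q, hΛ hq⟩) s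
  rw [e1, e2] at h1 h2
  rw [← h1, ← h2]
  exact eP_mono (WF_fer hb).wt (WF_fer hb).pos (PG_cos _) (off_mono h)

/-- wired expectations decrease with the region -/
theorem EW_mono (hb : 0 ≤ b) {Λ Λ' : Finset (ℤ × ℤ)} (h : Λ ⊆ Λ') {p q : ℤ × ℤ}
    (hp : p ∈ Λ') (hq : q ∈ Λ') (s : ℤ) :
    EW b Λ' (fun ω => cosT (ω p + s • ω q)) ≤ EW b Λ fun ω => cosT (ω p + s • ω q) := by
  obtain ⟨M, z, hM⟩ := exists_inner Λ'
  have h1 := EW_mono' (b := b) hb (tr_mono h z) hM (p := p + z) (q := q + z)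
    (by rw [mem_tr]; simpa using hp) (by rw [mem_tr]; simpa using hq) s
  rwa [EW_tr2, EW_tr2] at h1

/-- the wired block -/
theorem EW_block (b : ℝ) (f : (ℤ × ℤ → T) → ℝ) :
    EW b (inner (M + 1)) f = expect (blockEnergy (M + 1) b) fun φ => f (ext φ) := by
  have h : ∀ φ : inner (M + 1) → T, EL b (ext φ) =
      blockEnergy (M + 1) b φ + (2 * b * (M + 1) - ∑ e : Bd M, b) := by
    intro φ
    have h0 : ∀ z, z ∉ inner (M + 1) → ext φ z = 0 := fun z hz => ext_off φ hz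
    have h1 := EL_St (M := M) b h0
    have h2 := EN_block (M := M) b (ext φ) h0
    rw [h1] at h2
    unfold blockEnergy
    linarith
  unfold EW expect
  simp_rw [h, Real.exp_add]
  have e1 : ∀ φ : inner (M + 1) → T, Real.exp (blockEnergy (M + 1) b φ) *
      Real.exp (2 * b * (M + 1) - ∑ e : Bd M, b) * f (ext φ) =
      (f (ext φ) * Real.exp (blockEnergy (M + 1) b φ)) *
        Real.exp (2 * b * (M + 1) - ∑ e : Bd M, b) := fun φ => by ring
  simp_rw [e1]
  rw [integral_mul_const, integral_mul_const, mul_div_mul_right _ _ (Real.exp_pos _).ne']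

end Vale.Agent.P159.H773
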