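import Vale.Agent.P159.H773.Rat11
import Vale.Agent.P159.H773.Brg
import Vale.Agent.P159.H817.Ang11
import Vale.Agent.P159.H552.Dx7e

/-!
P159 (helper773), fixed ratio transfer, part 12: the amplitude theorem with the exact energies `eD`
of 817.
-/

open MeasureTheory Filter Topology Finset
open scoped BigOperators

set_option linter.all false

namespace Vale.Agent.P159.H773

open Vale.Agent.P159 Vale.Agent.P159.TM.H331
open Vale.Agent.P159.H552.Dx7 (RawF RawC)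
open Vale.Agent.P159.H801 (T3)
open Vale.Agent.P159.H264 (kap)
open Vale.Agent.P159.H817 (eD)

variable {b : ℝ}

/-- error of the energy at the ratio `2^i` -/
noncomputable def de (i : ℕ) : ℝ :=
  (1 / 2) ^ i + 1400000 * √((1 / 2 : ℝ) ^ i) + ((1 / 2 : ℝ) ^ i) ^ 2

lemma de_lim : Tendsto de atTop (𝓝 0) := by
  have h : Tendsto (fun i : ℕ => (1 / 2 : ℝ) ^ i) atTop (𝓝 0) :=
    tendsto_pow_atTop_nhds_zero_of_lt_one (by norm_num) (by norm_num)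
  have h1 := (h.add ((h.sqrt).const_mul 1400000)).add (h.pow 2)
  rw [Real.sqrt_zero, mul_zero, add_zero, zero_pow two_ne_zero, add_zero] at h1
  exact h1

/-- the energies of the axis pairs at the ratio `2^i` -/
theorem eD_fam : ∃ κ : ℝ, ∀ i : ℕ, 1 ≤ i → ∀ N : ℕ → ℕ,
    (∀ᶠ R : ℕ in atTop, (2 : ℝ) ^ i * R ≤ N R) →
    ∀ᶠ R : ℕ in atTop, |eD (N R) R - 1 / Real.pi * Real.log R - κ| ≤ de i := by
  obtain ⟨κ, hκ⟩ := H817.eD_log
  refine ⟨κ, fun i hi N hN => ?_⟩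
  have h2i : (2 : ℝ) ≤ 2 ^ i := by
    calc (2 : ℝ) = 2 ^ 1 := (pow_one 2).symm
      _ ≤ 2 ^ i := pow_le_pow_right₀ (by norm_num) hi
  have hlim : Tendsto (fun R : ℕ => 40000 / (R : ℝ)) atTop (𝓝 0) :=
    tendsto_const_div_atTop_nhds_zero_nat 40000
  have hp : (0 : ℝ) < (1 / 2) ^ i := by positivity
  filter_upwards [hN, eventually_ge_atTop 1, hlim.eventually (Iio_mem_nhds hp)] with R h1 h2 h3
  have hR : (0 : ℝ) < R := by exact_mod_cast h2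
  have h4 : 2 * R ≤ N R := by
    have : (2 : ℝ) * R ≤ N R := (mul_le_mul_of_nonneg_right h2i hR.le).trans h1
    exact_mod_cast this
  have h5 := hκ (N R) R h2 h4
  have hNR : (0 : ℝ) < N R := by
    have : (2 : ℝ) * R ≤ N R := (mul_le_mul_of_nonneg_right h2i hR.le).trans h1
    linarith
  have h6 : (R : ℝ) / N R ≤ (1 / 2) ^ i := by
    rw [div_le_iff₀ hNR, one_div, inv_pow]
    have : (2 : ℝ) ^ i ≠ 0 := by positivity
    calc (R : ℝ) = (2 ^ i)⁻¹ * (2 ^ i * R) := by field_simp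
      _ ≤ _ := mul_le_mul_of_nonneg_left h1 (by positivity)
  have h7 : √((R : ℝ) / N R) ≤ √((1 / 2 : ℝ) ^ i) := Real.sqrt_le_sqrt h6
  have h8 : ((R : ℝ) / N R) ^ 2 ≤ ((1 / 2 : ℝ) ^ i) ^ 2 := pow_le_pow_left₀ (by positivity) h6 2
  have e : 1 / Real.pi * Real.log R = Real.log R / Real.pi := by ring
  rw [e]
  refine h5.trans ?_
  unfold de
  have h9 : 40000 / (R : ℝ) < (1 / 2) ^ i := h3
  linarith

/-- the field `en` of `RawF` -/
theorem eD_en {N : ℕ → ℕ} (hN : ∀ᶠ R : ℕ in atTop, 2 * R ≤ N R) :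
    ∃ C0 : ℝ, ∀ᶠ R : ℕ in atTop, |eD (N R) R - 1 / Real.pi * Real.log R| ≤ C0 := by
  obtain ⟨κ, hκ⟩ := eD_fam
  refine ⟨de 1 + |κ|, ?_⟩
  filter_upwards [hκ 1 le_rfl N (hN.mono fun R h => by
    have : ((2 * R : ℕ) : ℝ) ≤ N R := by exact_mod_cast h
    push_cast at this
    simpa using this)] with R h
  calc |eD (N R) R - 1 / Real.pi * Real.log R| =
        |(eD (N R) R - 1 / Real.pi * Real.log R - κ) + κ| := by ring_nf
    _ ≤ _ := (abs_add_le _ _).trans (add_le_add h le_rfl)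

/-- **THE AMPLITUDE THEOREM**, exact energies -/
theorem xy_amp_eD (hb : 0 < b) {x y : ℕ → ℝ} {i1 : ℕ}
    (hF : ∀ i, i1 ≤ i → ∃ (c r q B A : ℝ) (w : ℕ → ℕ) (n0 : ℕ) (E : ℕ → ℕ → ℝ) (a t : ℕ → ℝ)
      (k : ℕ → ℕ) (c' C0 : ℝ) (N : ℕ → ℕ), T3 x y kap c r q B A w n0 ∧
      (∀ᶠ R : ℕ in atTop, (2 : ℝ) ^ i * R ≤ N R) ∧
      RawF E (fun R => eD (N R) R) a x y (fun R => Real.log (cT0 (N R - 2) b R)) t k w c' C0) :
    ∃ a : ℝ, 0 < a ∧ Tendsto (fun r : ℕ => corrInf b ((r : ℤ), 0) /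
      ((r : ℝ) ^ (-(1 / 4) : ℝ) * Real.log r ^ (1 / 8 : ℝ))) atTop (𝓝 a) := by
  obtain ⟨κ, hκ⟩ := eD_fam
  refine xy_amp_of hb (x := x) (y := y) (κ := κ) de_lim (i1 := max i1 1) fun i hi => ?_
  obtain ⟨c, r, q, B, A, w, n0, E, a, t, k, c', C0, N, hT, hN, hR⟩ :=
    hF i ((le_max_left _ _).trans hi)
  refine ⟨c, r, q, B, A, w, n0, E, _, a, t, k, c', C0, fun R => N R - 2, hT, hR, ?_⟩
  filter_upwards [hN, hκ i ((le_max_right _ _).trans hi) N hN] with R h1 h2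
  refine ⟨h1.trans ?_, h2⟩
  have h3 : N R ≤ N R - 2 + 2 := by omega
  exact_mod_cast h3

/-- **THE AMPLITUDE THEOREM**, level free form: for every large ratio `2^i` a family of neutral
massless tori of side `N(R) ≥ 2^i R` with 552's `RawC` for `L R = log C_{N(R)}(R)` -/
theorem xy_amp_C (hb : 0 < b) {x y : ℕ → ℝ} {i1 : ℕ}
    (hF : ∀ i, i1 ≤ i → ∃ (c r q B A : ℝ) (w : ℕ → ℕ) (n0 : ℕ) (a : ℕ → ℝ)
      (k : ℕ → ℕ) (c' C0 : ℝ) (N : ℕ → ℕ), T3 x y kap c r q B A w n0 ∧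
      (∀ᶠ R : ℕ in atTop, (2 : ℝ) ^ i * R ≤ N R) ∧
      RawC (fun R => Real.log (cT0 (N R - 2) b R)) (fun R => eD (N R) R) a x y k w c' C0) :
    ∃ a : ℝ, 0 < a ∧ Tendsto (fun r : ℕ => corrInf b ((r : ℤ), 0) /
      ((r : ℝ) ^ (-(1 / 4) : ℝ) * Real.log r ^ (1 / 8 : ℝ))) atTop (𝓝 a) := by
  refine xy_amp_eD hb (x := x) (y := y) (i1 := i1) fun i hi => ?_
  obtain ⟨c, r, q, B, A, w, n0, a, k, c', C0, N, hT, hN, hR⟩ := hF i hi
  exact ⟨c, r, q, B, A, w, n0, _, a, _, k, c', C0, N, hT, hN, hR.rawF hT.fl.y0⟩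

end Vale.Agent.P159.H773
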