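import Vale.Agent.P159.H773.Mem10
import Vale.Agent.P159.H686.Pla4
import Vale.Agent.P159.H801.FinR

/-!
P159 / helper773: **the four remaining fields of the pairs from the field `cut` alone**: helper773's
`mem_fin`, helper686's `pla_ev`, helper770's `st_fin` in helper801's `SRest`; question 1 from `cut`.
-/

set_option linter.all false

namespace Vale.Agent.P159.H773

open Filter Topology Finset
open Vale.Agent.P159.H972 (Par)
open Vale.Agent.P159.TM.Spec (V)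
open Vale.Agent.P159.H770 (Ed)
open Vale.Agent.P159.H801 (Ev SFlow SRest Q1)
open Vale.Agent.P159.H145.Sp (AxP Four RestF CutW MemW)
open Vale.Agent.P159.H37.Sf (kf)

noncomputable section

/-- **the field `cut`**, family form at the critical point -/
def CutEv (b1 b2 : ℝ) (Q : ℕ) : Prop :=
  Ev b1 b2 (9 / 10) Q fun P c1 =>
    ∀ {σ c q2 qx : ℝ} {a y ε xs : ℕ → ℝ} {c' r q A : ℝ} {N : ℕ},
    SFlow P bCrit σ c c1 q2 qx a y ε xs c' r q A N → 0 ≤ σ → σ ≤ 1 / 6 → 0 ≤ c → c < 3 / 16 →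
    ∀ c4 : ℝ, c4 ≤ 1 / 16 →
    ∀ (β C2 A0 : ℝ) (Am : ℕ), 1 / 4 ≤ β → β < 1 / 2 → 1 ≤ C2 → 1 ≤ Am →
    ∃ i0 : ℕ, ∀ i, i0 ≤ i → A0 ≤ 2 ^ i →
    ∀ (η : ∀ R, Ed (sd i R) → ℤ) (φ : ∀ R, V (sd i R) → ℝ), AxP i η φ →
      Four P bCrit β C2 A0 Am i c1 a y ε η φ → CutW P bCrit β C2 A0 Am i c1 c4 a y ε η φ

/-- **THE REST FROM THE FIELD `cut`** -/
theorem srest_of_cut {b1 b2 qx β c : ℝ} {Q Am : ℕ} (hb1 : 0 < b1) (h1 : b1 ≤ bCrit)
    (h2 : bCrit ≤ b2) (hqx : 0 < qx) (hqx1 : qx ≤ 18 / 25) (hc : 0 < c) (hc1 : c ≤ 1 / 80)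
    (hβ : 1 / 4 ≤ β) (hβ2 : β < 1 / 2) (hAm : 2 ≤ Am) (hCut : CutEv b1 b2 Q) :
    SRest b1 b2 qx β c Q Am := by
  have hL := H692.lkS_crit hb1 h1 h2 hqx hqx1 (H801.vfam_all hb1 h1 h2 hqx Q)
  refine ((hCut.and (mem_fin (b2 := b2) hb1 h1 (by norm_num) Q)).and
    ((H686.Pla.pla_ev (b2 := b2) hb1 h1 le_rfl (TM.Frame.thmA6 hb1) Q H145.Sp.hel_pos.1
      H145.Sp.hel_pos.2 H145.Sp.stiff_crit hL).and (H37.Sf.ev_cS b1 b2 (9 / 10) Q))).mono
    fun P c1 _ hT => ?_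
  obtain ⟨⟨g1, hc0, -, g2⟩, g3, -, -, hthp0, -, hth0, h4096, -⟩ := hT
  intro q2 a y ε xs c' r q A N h
  refine ⟨1 / 16, by norm_num, fun A0 C2 hA0 hC2 => ?_⟩
  obtain ⟨i1, k1⟩ := g1 h (by norm_num) (by norm_num) hc.le (by linarith) (1 / 16) le_rfl β C2 A0 Am
    hβ hβ2 hC2 (by omega)
  have hm := g2 h (by norm_num) (by norm_num) hc.le (by linarith) (P.thp / 4) (by linarith)
    (by linarith) (by linarith)
  obtain ⟨i2, k2⟩ := g3 h (by norm_num) (by norm_num) hc.le (by linarith) (1 / 16) le_rfl β C2 A0 Am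
    hβ hβ2 hC2 hAm 1 (fun n => 4 ^ (kf (P.thp / 4) y n / 16) * y n ^ (-(4 * c1)))
    (fun n => y n ^ (9 / 8 : ℝ)) zero_le_one
    (by
      filter_upwards [eventually_ge_atTop N] with n hn
      have hy := h.fl.y0 n
      have h3 : 0 < y n ^ (-(4 * c1)) := Real.rpow_pos_of_pos hy _
      exact ⟨by positivity, by rw [one_mul]⟩)
    (Eventually.of_forall fun n => le_rfl)
  refine ⟨max (max i1 i2) 6, fun i hi hA η φ hx hF => ?_⟩
  have j1 : i1 ≤ i := ((le_max_left _ _).trans (le_max_left _ _)).trans hi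
  have j2 : i2 ≤ i := ((le_max_right _ _).trans (le_max_left _ _)).trans hi
  have j6 : 6 ≤ i := (le_max_right _ _).trans hi
  have m5 := hm i j6 (c1 / 2) (by linarith) (by linarith) 5 β C2 A0 Am
  have m4 := hm i j6 (c1 / 2) (by linarith) (by linarith) 4 β C2 A0 Am
  obtain ⟨p1, p2⟩ := k2 i j2 η φ hx m5
  exact ⟨k1 i j1 hA η φ hx hF, p1, clsF P i bCrit (P.thp / 4) c1 y ε,
    clsF P i bCrit (P.thp / 4) c1 y ε, m4, p2⟩

/-- **QUESTION 1 FROM THE FIELD `cut`** -/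
theorem q1_of_cut {b1 b2 : ℝ} {Q : ℕ} (hb1 : 0 < b1) (h1 : b1 ≤ bCrit) (h2 : bCrit ≤ b2)
    (hCut : CutEv b1 b2 Q) : Q1 :=
  H801.q1_of_rest (qx := 1 / 2) (β := 2 / 5) (c := 1 / 80) (Am := 4) hb1 h1 h2 (by norm_num)
    (by norm_num) (by norm_num) le_rfl (by norm_num) (by norm_num) (by norm_num)
    (srest_of_cut hb1 h1 h2 (by norm_num) (by norm_num) (by norm_num) le_rfl (by norm_num)
      (by norm_num) (by norm_num) hCut)

end

end Vale.Agent.P159.H773
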