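import Vale.Agent.P159.H773.Skel
import Vale.Agent.P159.H773.Brg
import Vale.Agent.P159.H552.Dx7g
import Vale.Agent.P159.H883.Brg7
import Vale.Agent.P159.H708.Wl4

/-!
P159 (helper773), S skeleton, part 2: the chain of 686 in the letters of 883 (`nuM`, `Psi`) and 708
(`wd`): from level-wise inputs (`Lvl`) to the relation along the chain, and to the amplitude theorem.
-/

open MeasureTheory Filter Topology Finset Matrix

set_option linter.all false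

namespace Vale.Agent.P159.H773

open Vale.Agent.P159.TM.Spec (V)
open Vale.Agent.P159.TM.SpecC (wT)
open Vale.Agent.P159.H552.Dx7 (kk nx RawCc xy_amp_Cc)
open Vale.Agent.P159.H801 (itw T3)
open Vale.Agent.P159.H264 (kap)
open Vale.Agent.P159.H686 (Lcl Cmp Stp Sml Chain al)
open Vale.Agent.P159.H883 (nuM Psi BW Zp CT)
open Vale.Agent.P159.H708 (Bx wd)
open Vale.Agent.P159.H770 (wTD Ed)
open Vale.Agent.P159.H817 (eD)

noncomputable section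

instance sd_ne (i R : ℕ) : NeZero (sd i R) := ⟨by unfold sd; positivity⟩

/-- the site `(R, 0)` of the torus -/
def ax0 (N R : ℕ) [NeZero N] : V N := (((R : ℕ) : ZMod N), 0)

section fam

variable (b : ℝ) (Nf : ℕ → ℕ) [∀ R, NeZero (Nf R)]

/-- the law of the field at mass `t` on the torus of the distance `R` -/
def nuF (t : ℝ) (R : ℕ) : Measure (V (Nf R) → ℝ) :=
  nuM (wT b (Nf R)) (t • (1 : Matrix (V (Nf R)) (V (Nf R)) ℝ)) 0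

/-- the dislocation functional at mass `t` of the pair `R` -/
def PsF (wD : ∀ R, (V (Nf R) → ℤ) → ℝ) (φ : ∀ R, V (Nf R) → ℝ) (t : ℝ) (R : ℕ) :
    (V (Nf R) → ℝ) → ℝ :=
  Psi (wT b (Nf R)) (wD R) (t • (1 : Matrix (V (Nf R)) (V (Nf R)) ℝ)) (φ R)

/-- the massless mean of the pair `R` -/
def cMn (wD : ∀ R, (V (Nf R) → ℤ) → ℝ) (R : ℕ) : ℝ := Zp (wD R) 0 / Zp (wT b (Nf R)) 0

/-- the window data of the pair `R` -/
def wdF (D R : ℕ) : (V (Nf R) → ℝ) → Bx D ⊕ Bx D → ℝ := wd D (0 : V (Nf R)) (ax0 (Nf R) R)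

/-- **inputs of one level**, masses `t` (level) and `t'` (next level), distances `R0 ≤ R ≤ R1` -/
structure Lvl (wD : ∀ R, (V (Nf R) → ℤ) → ℝ) (φ : ∀ R, V (Nf R) → ℝ) (e : ℕ → ℝ)
    (t t' a : ℝ) (R0 R1 D : ℕ) (G : (Bx D ⊕ Bx D → ℝ) → ℝ)
    (δ q bb Λ h τ η κP bW : ℝ) : Prop where
  loc : ∀ R, R0 ≤ R → R ≤ R1 → ∃ Gd : Set (V (Nf R) → ℝ),
    Lcl (nuF b Nf t R) (PsF b Nf wD φ t R) (cMn b Nf wD R)
      (cMn b Nf wD R0 * Real.exp (-(a / 2 * (e R - e R0)))) (wdF Nf D R) G Gd Λ δ q bb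
  cmp : ∀ R, R0 ≤ R → R ≤ R1 →
    Cmp (nuF b Nf t R0) (nuF b Nf t R) (wdF Nf D R0) (wdF Nf D R) h τ
  stp : Stp (nuF b Nf t R1) (nuF b Nf t' R1) (PsF b Nf wD φ t R1) (PsF b Nf wD φ t' R1)
    (cMn b Nf wD R1) (wdF Nf D R1) κP η bW

end fam

section chain

variable {b : ℝ} {Nf : ℕ → ℕ} [∀ R, NeZero (Nf R)]
variable {wD : ∀ R, (V (Nf R) → ℤ) → ℝ} {φ : ∀ R, V (Nf R) → ℝ} {e a : ℕ → ℝ}
variable {k w : ℕ → ℕ} {n0 : ℕ} {t : ℕ → ℝ} {D : ℕ → ℕ}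
variable {G : ∀ j, (Bx (D j) ⊕ Bx (D j) → ℝ) → ℝ} {ε δ q bb Λ h τ η κP bW : ℕ → ℝ}

lemma cMn_pos (hb : 0 < b) (hD : ∀ R, BW (wD R)) (R : ℕ) : 0 < cMn b Nf wD R :=
  div_pos ((hD R).Zp_pos 0) ((H883.bw_wT hb).Zp_pos 0)

/-- **the relation at every level of the chain, from level-wise inputs** -/
theorem stat_of_lvl (hb : 0 < b) (ht : ∀ j, 0 < t j) (hD : ∀ R, BW (wD R))
    (hmono : ∀ j, 2 ^ kk k (itw w n0 j) ≤ 2 ^ kk k (itw w n0 (j + 1)))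
    (hL : ∀ j, Lvl b Nf wD φ e (t j) (t (j + 1)) (a (itw w n0 j)) (2 ^ kk k (itw w n0 j))
      (2 ^ kk k (itw w n0 (j + 1))) (D j) (G j) (δ j) (q j) (bb j) (Λ j) (h j) (τ j) (η j)
      (κP j) (bW j))
    (sml : ∀ i, Sml (ε i) (δ i) (q i) (bb i) (Λ i) (h i) (τ i) (η i) (κP i) (bW i)
      (Λ (i + 1)) (bb (i + 1)))
    (alp : ∀ i, 5 * al (κP i) (η i) + 4 * ε i ≤ 1 / 4)
    (slow : ∀ i, ε i ≤ 2 * ε (i + 1))
    (j R : ℕ) (h1 : 2 ^ kk k (itw w n0 j) ≤ R) (h2 : R ≤ 2 ^ kk k (itw w n0 (j + 1))) :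
    |Real.log (cMn b Nf wD R) - Real.log (cMn b Nf wD (2 ^ kk k (itw w n0 j))) +
      a (itw w n0 j) / 2 * (e R - e (2 ^ kk k (itw w n0 j)))| ≤ ej ε h Λ j := by
  classical
  have hpr : ∀ (s : ℝ), 0 < s → ∀ R, IsProbabilityMeasure (nuF b Nf s R) := fun s hs R =>
    H883.prob_nuM (H963.gw_wT hb.le) (H883.bw_wT hb) (H883.mf_scalar hs) 0
  set Rj : ℕ → ℕ := fun j => 2 ^ kk k (itw w n0 j) with hRj
  have hcp := cMn_pos (Nf := Nf) hb hD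
  choose Gd hGd using fun j R h1 h2 => (hL j).loc R h1 h2
  have C : Chain (fun j => V (Nf (Rj j)) → ℝ) (fun j => V (Nf (Rj (j + 1))) → ℝ)
      (fun j => Bx (D j) ⊕ Bx (D j) → ℝ) (fun j => nuF b Nf (t j) (Rj j))
      (fun j => nuF b Nf (t j) (Rj (j + 1))) (fun j => PsF b Nf wD φ (t j) (Rj j))
      (fun j => PsF b Nf wD φ (t j) (Rj (j + 1))) (fun j => cMn b Nf wD (Rj j))
      (fun j => cMn b Nf wD (Rj j) *
        Real.exp (-(a (itw w n0 j) / 2 * (e (Rj (j + 1)) - e (Rj j)))))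
      (fun j => wdF Nf (D j) (Rj j)) (fun j => wdF Nf (D j) (Rj (j + 1))) G
      (fun j => Gd j (Rj j) le_rfl (hmono j)) (fun j => Gd j (Rj (j + 1)) (hmono j) le_rfl)
      ε δ q bb Λ h τ η κP bW := by
    refine ⟨fun i => hpr _ (ht i) _, fun i => hpr _ (ht i) _, fun i => ?_, fun i => ?_,
      fun i => ?_, fun i => ?_, sml, alp, slow⟩
    · have h3 := hGd i (Rj i) le_rfl (hmono i)
      have e1 : cMn b Nf wD (2 ^ kk k (itw w n0 i)) * Real.exp (-(a (itw w n0 i) / 2 *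
          (e (Rj i) - e (2 ^ kk k (itw w n0 i))))) = cMn b Nf wD (Rj i) := by
        simp [hRj]
      rw [e1] at h3
      exact h3
    · exact hGd i (Rj (i + 1)) (hmono i) le_rfl
    · exact (hL i).cmp (Rj (i + 1)) (hmono i) le_rfl
    · exact (hL i).stp
  have HR := hGd j R h1 h2
  have hc := (hL j).cmp R h1 h2
  haveI := hpr (t j) (ht j) R
  have h3 := C.rel j HR hc
  rw [Real.log_mul (hcp _).ne' (Real.exp_pos _).ne', Real.log_exp] at h3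
  have e1 : Real.log (cMn b Nf wD R) - Real.log (cMn b Nf wD (2 ^ kk k (itw w n0 j))) +
      a (itw w n0 j) / 2 * (e R - e (2 ^ kk k (itw w n0 j))) =
      Real.log (cMn b Nf wD R) - (Real.log (cMn b Nf wD (2 ^ kk k (itw w n0 j))) +
        -(a (itw w n0 j) / 2 * (e R - e (2 ^ kk k (itw w n0 j))))) := by ring
  rw [e1]
  exact h3

/-- the smallness along the chain -/
structure Sma (y : ℕ → ℝ) (w : ℕ → ℕ) (n0 : ℕ) (c' : ℝ) (ε h Λ : ℕ → ℝ) : Prop where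
  ε0 : ∀ j, 0 ≤ ε j
  h0 : ∀ j, 0 ≤ h j
  h1 : ∀ j, h j ≤ 1 / 40
  εy : ∀ᶠ j in atTop, ε j ≤ y (itw w n0 j) ^ (1 + c') / 100
  Λy : ∀ᶠ j : ℕ in atTop, (1 / 4) ^ j * Λ 0 ≤ y (itw w n0 j) ^ (1 + c') / 100

/-- **all inputs of S at one ratio** -/
structure SIn (b : ℝ) (Nf : ℕ → ℕ) [∀ R, NeZero (Nf R)] (wD : ∀ R, (V (Nf R) → ℤ) → ℝ)
    (φ : ∀ R, V (Nf R) → ℝ) (e x y a : ℕ → ℝ) (k w : ℕ → ℕ) (n0 : ℕ) (c' : ℝ) : Prop where
  ex : ∃ (t : ℕ → ℝ) (D : ℕ → ℕ) (G : ∀ j, (Bx (D j) ⊕ Bx (D j) → ℝ) → ℝ)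
    (ε δ q bb Λ h τ η κP bW : ℕ → ℝ), (∀ j, 0 < t j) ∧
    (∀ j, Lvl b Nf wD φ e (t j) (t (j + 1)) (a (itw w n0 j)) (2 ^ kk k (itw w n0 j))
      (2 ^ kk k (itw w n0 (j + 1))) (D j) (G j) (δ j) (q j) (bb j) (Λ j) (h j) (τ j) (η j)
      (κP j) (bW j)) ∧
    (∀ i, Sml (ε i) (δ i) (q i) (bb i) (Λ i) (h i) (τ i) (η i) (κP i) (bW i)
      (Λ (i + 1)) (bb (i + 1))) ∧
    (∀ i, 5 * al (κP i) (η i) + 4 * ε i ≤ 1 / 4) ∧ (∀ i, ε i ≤ 2 * ε (i + 1)) ∧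
    Sma y w n0 c' ε h Λ
  bw : ∀ R, BW (wD R)
  c0 : 0 < c'
  mono : ∀ j, 2 ^ kk k (itw w n0 j) ≤ 2 ^ kk k (itw w n0 (j + 1))
  kw : ∀ᶠ j in atTop, k (nx w (itw w n0 j)) ≤ 3 * w (itw w n0 j)
  av : ∀ᶠ n in atTop, |a n - H552.Dx7.invS x n| ≤ y n ^ (1 + c')

/-- **the level free inputs of 552 from `SIn`** -/
theorem SIn.raw (hb : 0 < b) {x y : ℕ → ℝ} {c' C0 : ℝ}
    (H : SIn b Nf wD φ e x y a k w n0 c')
    (en : ∀ᶠ R : ℕ in atTop, |e R - 1 / Real.pi * Real.log R| ≤ C0) :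
    RawCc (fun R => Real.log (cMn b Nf wD R)) e a x y k w n0 c' C0 := by
  obtain ⟨t, D, G, ε, δ, q, bb, Λ, h, τ, η, κP, bW, ht, hL, sml, alp, slow, hS⟩ := H.ex
  have hst := stat_of_lvl hb ht H.bw H.mono hL sml alp slow
  refine ⟨H.c0, H.kw, Eventually.of_forall fun j => ?_, H.av, en, ?_⟩
  · have h1 := H.mono j
    rw [H801.itw_succ] at h1
    exact (Nat.pow_le_pow_iff_right (by norm_num)).1 h1
  · filter_upwards [ej_le hS.ε0 hS.h0 hS.h1 hS.εy hS.Λy] with j hj R h1 h2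
    refine (hst j R h1 ?_).trans hj
    rw [H801.itw_succ]
    exact h2

end chain

/-! ### point cores -/

section point

variable {b : ℝ}

/-- the mean of the point pair on the torus of side `N ≥ 2` -/
lemma CT_path' (hb : 0 ≤ b) {N r L : ℕ} [NeZero N] (hN : 2 ≤ N) (hr : r < N)
    {η : V N × Bool → ℤ}
    (h : H817.IsPath (N := N) (0 : V N) (((r : ℕ) : ZMod N), 0) r 0 L η) :
    CT N b η = cT0 (N - 2) b r := by
  obtain ⟨M, rfl⟩ : ∃ M, N = M + 2 := ⟨N - 2, by omega⟩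
  have h1 := CT_path hb hr h
  simpa using h1

/-- the paths of the family of side `sd i R` -/
def Pth (i : ℕ) (η : ∀ R, Ed (sd i R) → ℤ) : Prop :=
  ∀ R, 1 ≤ R → ∃ L, H817.IsPath (N := sd i R) (0 : V (sd i R)) (ax0 (sd i R) R) R 0 L (η R)

lemma cMn_pt (hb : 0 ≤ b) {i : ℕ} (hi : 1 ≤ i) {η : ∀ R, Ed (sd i R) → ℤ} (hη : Pth i η)
    {R : ℕ} (hR : 1 ≤ R) :
    cMn b (sd i) (fun R => wTD (sd i R) b (η R)) R = cT0 (sd i R - 2) b R := by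
  obtain ⟨L, hL⟩ := hη R hR
  have h2 : 2 ^ i * R ≤ sd i R := sd_ge i R
  have h3 : 2 ^ 1 ≤ 2 ^ i := Nat.pow_le_pow_right (by norm_num) hi
  have h4 : 2 * R ≤ sd i R := (Nat.mul_le_mul_right R (by simpa using h3)).trans h2
  have h5 := CT_path' hb (by omega : 2 ≤ sd i R) (by omega : R < sd i R) hL
  rw [← h5]
  unfold cMn CT
  rw [H770.wTD_zero]

/-- **THE AMPLITUDE THEOREM FROM THE LEVEL-WISE INPUTS** (point cores) -/
theorem xy_amp_SIn (hb : 0 < b) {x y : ℕ → ℝ} {i1 : ℕ}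
    (hF : ∀ i, i1 ≤ i → ∃ (c r q B A : ℝ) (w : ℕ → ℕ) (n1 n0 : ℕ) (a : ℕ → ℝ) (k : ℕ → ℕ)
      (c' : ℝ) (η : ∀ R, Ed (sd i R) → ℤ) (φ : ∀ R, V (sd i R) → ℝ),
      T3 x y kap c r q B A w n1 ∧ n1 ≤ n0 ∧ Pth i η ∧
      SIn b (sd i) (fun R => wTD (sd i R) b (η R)) φ (fun R => eD (sd i R) R) x y a k w n0 c') :
    ∃ a : ℝ, 0 < a ∧ Tendsto (fun r : ℕ => corrInf b ((r : ℤ), 0) /
      ((r : ℝ) ^ (-(1 / 4) : ℝ) * Real.log r ^ (1 / 8 : ℝ))) atTop (𝓝 a) := by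
  refine xy_amp_Cc hb (x := x) (y := y) (i1 := max i1 1) fun i hi => ?_
  obtain ⟨c, r, q, B, A, w, n1, n0, a, k, c', η, φ, hT, h01, hη, hS⟩ :=
    hF i ((le_max_left _ _).trans hi)
  have hi1 : 1 ≤ i := (le_max_right _ _).trans hi
  have hN : ∀ᶠ R : ℕ in atTop, 2 * R ≤ sd i R := Eventually.of_forall fun R => by
    have h3 : 2 ^ 1 ≤ 2 ^ i := Nat.pow_le_pow_right (by norm_num) hi1
    exact (Nat.mul_le_mul_right R (by simpa using h3)).trans (sd_ge i R)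
  obtain ⟨C0, hC0⟩ := eD_en hN
  have hR := hS.raw hb hC0
  refine ⟨c, r, q, B, A, w, n1, n0, a, k, c', C0, sd i, hT, h01,
    Eventually.of_forall fun R => by exact_mod_cast sd_ge i R, ?_⟩
  refine ⟨hR.c0, hR.kw, hR.k1, hR.av, hR.en, ?_⟩
  filter_upwards [hR.stat] with j hj R h1 h2
  have h0 : 1 ≤ 2 ^ kk k (itw w n0 j) := Nat.one_le_two_pow
  have h3 := hj R h1 h2
  rw [cMn_pt hb.le hi1 hη (h0.trans h1), cMn_pt hb.le hi1 hη h0] at h3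
  exact h3

end point

end

end Vale.Agent.P159.H773
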