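import Vale.Agent.P159.H773.Rw3

/-!
P159 / helper773, module MEM1: the class `DD` of decorations (any torus free class `E`, and the
remainders on all the tori of the window), its closure, and its probability at a pair.
-/

open MeasureTheory Finset Matrix

set_option linter.all false

namespace Vale.Agent.P159.H773

open Vale.Agent.P159.TM.Spec (V)
open Vale.Agent.P159.H963.Core (RF nS)
open Vale.Agent.P159.H686 (Cmp)
open Vale.Agent.P159.H817 (Dec dec rfl2 SuppD RealT)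

noncomputable section

/-- **the class of decorations**: supports, the torus free class `E` for the decoration and its
reflection, the remainders on the tori `sd i (2^k)`, `k0 ≤ k ≤ k1` -/
def DD (i : ℕ) (b t r1 : ℝ) (l0 k0 k1 : ℕ) (E : Dec) : Dec :=
  {F | SuppD l0 F ∧ SuppD l0 (rfl2 F) ∧ F ∈ E ∧ rfl2 F ∈ E ∧
    ∀ k, k0 ≤ k → k ≤ k1 → RF (sd i (2 ^ k)) b t ((3 : ℝ) • dec F (0 : V (sd i (2 ^ k)))) ≤ r1}

section cls

variable {i : ℕ} {b t r1 : ℝ} {l0 k0 k1 : ℕ} {E : Dec}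

lemma rfl2_neg (F : ℤ → ℤ → ℝ) : rfl2 (fun u v => -F u v) = fun u v => -rfl2 F u v := rfl

/-- the remainder of the reflected decoration -/
lemma RF_rfl2 {N : ℕ} [NeZero N] (hb : 0 < b) (ht : 0 < t) {l : ℕ} {F : ℤ → ℤ → ℝ}
    (h : SuppD l F) (h' : SuppD l (rfl2 F)) (hl : 2 * l + 4 < N) (s : ℝ) :
    RF N b t (s • dec (rfl2 F) (0 : V N)) = RF N b t (s • dec F (0 : V N)) := by
  have e := dec_rfl2 (N := N) h h' hl
  rw [← H817.RF_dec hb ht (rfl2 F) (H817.sF (0 : V N)), e]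
  have e1 : s • (dec F (0 : V N) ∘ (H817.sRe : V N ≃ V N)) =
      (s • dec F (0 : V N)) ∘ (H817.sRe : V N ≃ V N) := rfl
  rw [e1, RF_sR]

lemma DD_supp {F : ℤ → ℤ → ℝ} (h : F ∈ DD i b t r1 l0 k0 k1 E) : SuppD l0 F := h.1

lemma DD_neg (hb : 0 < b) (ht : 0 < t) (hE : ∀ F ∈ E, (fun u v => -F u v) ∈ E)
    {F : ℤ → ℤ → ℝ} (h : F ∈ DD i b t r1 l0 k0 k1 E) :
    (fun u v => -F u v) ∈ DD i b t r1 l0 k0 k1 E := by
  obtain ⟨h1, h2, h3, h4, h5⟩ := h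
  refine ⟨SuppD_neg h1, SuppD_neg h2, hE F h3, hE _ h4, fun k a0 a1 => ?_⟩
  rw [dec_neg, smul_neg]
  exact (H817.RF_neg hb ht _).le.trans (h5 k a0 a1)

lemma DD_rfl2 (hb : 0 < b) (ht : 0 < t) (hl : 2 * l0 + 4 < 2 ^ (i + k0)) {F : ℤ → ℤ → ℝ}
    (h : F ∈ DD i b t r1 l0 k0 k1 E) : rfl2 F ∈ DD i b t r1 l0 k0 k1 E := by
  obtain ⟨h1, h2, h3, h4, h5⟩ := h
  refine ⟨h2, by rwa [rfl2_rfl2], h4, by rwa [rfl2_rfl2], fun k a0 a1 => ?_⟩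
  rw [RF_rfl2 hb ht h1 h2 ?_]
  · exact h5 k a0 a1
  · rw [sd_pow]
    exact hl.trans_le (Nat.pow_le_pow_right (by norm_num) (by omega))

/-- the field `rfl1` of `SysI` -/
lemma DD_nrfl (hb : 0 < b) (ht : 0 < t) (hE : ∀ F ∈ E, (fun u v => -F u v) ∈ E)
    (hl : 2 * l0 + 4 < 2 ^ (i + k0)) {F : ℤ → ℤ → ℝ} (h : F ∈ DD i b t r1 l0 k0 k1 E) :
    (fun u v => -rfl2 F u v) ∈ DD i b t r1 l0 k0 k1 E :=
  DD_neg hb ht hE (DD_rfl2 hb ht hl h)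

/-- 817's `RealT`, `D0 = D1 = DD` -/
lemma DD_realT {a η B1 : ℝ} {k : ℕ} (hk0 : k0 ≤ k) (hk1 : k ≤ k1)
    (hP : ∀ q : V (sd i (2 ^ k)), q ≠ 0 → |H963.Pin (sd i (2 ^ k)) b t q - a * TM.H764.EE q| ≤
      η * TM.H764.EE q * (1 + TM.H764.EE q / t))
    (hn : ∀ F ∈ DD i b t r1 l0 k0 k1 E, nS a t (dec F (0 : V (sd i (2 ^ k)))) ≤ B1) :
    RealT (sd i (2 ^ k)) b t a η (DD i b t r1 l0 k0 k1 E) (DD i b t r1 l0 k0 k1 E) r1 B1 :=
  ⟨hP, fun F hF => by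
    rcases hF with h | h
    · exact h.2.2.2.2 k hk0 hk1
    · exact h.2.2.2.2 k hk0 hk1, fun F hF => by
    rcases hF with h | h
    · exact hn F h
    · exact hn F h⟩

end cls

section prob

variable {b t : ℝ}

lemma meas_RFT {N : ℕ} [NeZero N] (hb : 0 < b) (ht : 0 < t) {r1 : ℝ} {X : Type*}
    [MeasurableSpace X] {T : X → ℤ → ℤ → ℝ} (hT : ∀ u v, Measurable fun z => T z u v) :
    MeasurableSet {z | r1 < RF N b t ((3 : ℝ) • dec (T z) (0 : V N))} := by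
  have h1 := meas_decT (N := N) hT 0
  have h2 : Measurable fun z => RF N b t ((3 : ℝ) • dec (T z) (0 : V N)) :=
    ((cont_RF hb ht).comp (continuous_const_smul (3 : ℝ))).measurable.comp h1
  exact measurableSet_lt measurable_const h2

/-- **MEMBERSHIP AT A PAIR** -/
theorem mem_pair {i k0 k1 l0 : ℕ} (hb : 0 < b) (ht : 0 < t) {h τ p p' r1 : ℝ} {E : Dec}
    {X : Type*} [MeasurableSpace X] {W : ∀ R, (V (sd i R) → ℝ) → X} (hh : h ≤ 1 / 40)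
    (hW : ∀ R, Measurable (W R))
    (hc : ∀ R, 2 ^ k0 ≤ R → R ≤ 2 ^ k1 → Cmp (nuF b (sd i) t (2 ^ k0)) (nuF b (sd i) t R)
      (W (2 ^ k0)) (W R) h τ) {T0 T1 : X → ℤ → ℤ → ℝ}
    (m0 : ∀ u v, Measurable fun z => T0 z u v) (m1 : ∀ u v, Measurable fun z => T1 z u v)
    (s0 : ∀ z, SuppD l0 (T0 z)) (s0' : ∀ z, SuppD l0 (rfl2 (T0 z)))
    (s1 : ∀ z, SuppD l0 (T1 z)) (s1' : ∀ z, SuppD l0 (rfl2 (T1 z)))
    (own0 : ∀ k, k0 ≤ k → k ≤ k1 → (nuF b (sd i) t (2 ^ k)).real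
      {F | r1 < RF (sd i (2 ^ k)) b t
        ((3 : ℝ) • dec (T0 (W (2 ^ k) F)) (0 : V (sd i (2 ^ k))))} ≤ p)
    (own1 : ∀ k, k0 ≤ k → k ≤ k1 → (nuF b (sd i) t (2 ^ k)).real
      {F | r1 < RF (sd i (2 ^ k)) b t
        ((3 : ℝ) • dec (T1 (W (2 ^ k) F)) (0 : V (sd i (2 ^ k))))} ≤ p)
    {R : ℕ} (h0 : 2 ^ k0 ≤ R) (h1 : R ≤ 2 ^ k1) {C3 : Set (V (sd i R) → ℝ)}
    (mC : MeasurableSet C3) (hC : (nuF b (sd i) t R).real C3ᶜ ≤ p')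
    (hE : ∀ F ∈ C3, T0 (W R F) ∈ E ∧ rfl2 (T0 (W R F)) ∈ E ∧ T1 (W R F) ∈ E ∧
      rfl2 (T1 (W R F)) ∈ E) :
    ∃ G : Set (V (sd i R) → ℝ), MeasurableSet G ∧
      (nuF b (sd i) t R).real Gᶜ ≤ ((k1 : ℝ) - k0 + 1) * (4 * p + 4 * τ) + p' ∧
      ∀ F ∈ G, T0 (W R F) ∈ DD i b t r1 l0 k0 k1 E ∧ T1 (W R F) ∈ DD i b t r1 l0 k0 k1 E := by
  set S : ℕ → Set X := fun k =>
    {z | r1 < RF (sd i (2 ^ k)) b t ((3 : ℝ) • dec (T0 z) (0 : V (sd i (2 ^ k))))} ∪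
    {z | r1 < RF (sd i (2 ^ k)) b t ((3 : ℝ) • dec (T1 z) (0 : V (sd i (2 ^ k))))} with hS
  have mS : ∀ k, MeasurableSet (S k) := fun k => (meas_RFT hb ht m0).union (meas_RFT hb ht m1)
  have own : ∀ k, k0 ≤ k → k ≤ k1 →
      (nuF b (sd i) t (2 ^ k)).real (W (2 ^ k) ⁻¹' S k) ≤ 2 * p := by
    intro k a0 a1
    have e : W (2 ^ k) ⁻¹' S k = {F | r1 < RF (sd i (2 ^ k)) b t
        ((3 : ℝ) • dec (T0 (W (2 ^ k) F)) (0 : V (sd i (2 ^ k))))} ∪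
        {F | r1 < RF (sd i (2 ^ k)) b t
        ((3 : ℝ) • dec (T1 (W (2 ^ k) F)) (0 : V (sd i (2 ^ k))))} := rfl
    rw [e]
    refine (measureReal_union_le _ _).trans ?_
    have := own0 k a0 a1
    have := own1 k a0 a1
    linarith
  have key := ev_win_all hh hW hc mS own h0 h1
  set U : Set (V (sd i R) → ℝ) := ⋃ k ∈ Finset.Icc k0 k1, W R ⁻¹' S k with hU
  have mU : MeasurableSet U := Finset.measurableSet_biUnion _ fun k _ => hW R (mS k)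
  refine ⟨C3 ∩ Uᶜ, mC.inter mU.compl, ?_, ?_⟩
  · rw [Set.compl_inter, compl_compl]
    refine (measureReal_union_le _ _).trans ?_
    have e : ((k1 : ℝ) - k0 + 1) * (2 * (2 * p) + 4 * τ) =
      ((k1 : ℝ) - k0 + 1) * (4 * p + 4 * τ) := by ring
    rw [e] at key
    linarith
  · rintro F ⟨h3, h4⟩
    obtain ⟨e1, e2, e3, e4⟩ := hE F h3
    have h5 : ∀ k, k0 ≤ k → k ≤ k1 → W R F ∉ S k := by
      intro k a0 a1 a2
      apply h4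
      simp only [hU, Set.mem_iUnion, Finset.mem_Icc, Set.mem_preimage, exists_prop]
      exact ⟨k, ⟨a0, a1⟩, a2⟩
    refine ⟨⟨s0 _, s0' _, e1, e2, fun k a0 a1 => ?_⟩, ⟨s1 _, s1' _, e3, e4, fun k a0 a1 => ?_⟩⟩
    · by_contra hcon
      exact h5 k a0 a1 (Or.inl (not_le.1 hcon))
    · by_contra hcon
      exact h5 k a0 a1 (Or.inr (not_le.1 hcon))

end prob

end

end Vale.Agent.P159.H773
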