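import Vale.Agent.P159.TM.H331.Dict

/-!
P159 (helper773): the two point function of a finite graph with a modified weight as a sum over
currents with sources.
-/

open MeasureTheory Filter Topology
open scoped BigOperators

set_option linter.all false

namespace Vale.Agent.P159.H773

open Vale.Agent.P159 Vale.Agent.P159.H353 Vale.Agent.P159.T1.H42 Vale.Agent.P159.TM.H389
open Vale.Agent.P159.TM.H331

variable {V ι : Type} [Fintype V] [DecidableEq V] [Fintype ι]

/-- `δ_p - δ_q` -/
def src (p q v : V) : ℤ := (if v = p then 1 else 0) - (if v = q then 1 else 0)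

lemma int_ph_univ (s t : ι → V) (n : ι → ℤ) :
    ∫ θ, cosT (ph s t n θ) ∂(torusHaar V) = if ∀ v, dvg s t n v = 0 then 1 else 0 := by
  classical
  have h := int_ph s t n (∅ : Set V)
  simp only [pin_empty, Set.mem_empty_iff_false, not_false_eq_true, forall_true_left] at h
  rw [h]

omit [Fintype V] [DecidableEq V] in
lemma ph_option (s t : ι → V) (p q : V) (n : ι → ℤ) (k : ℤ) (θ : V → T) :
    ph (Sum.elim s fun _ : Unit => p) (Sum.elim t fun _ => q) (Sum.elim n fun _ => k) θ =
      ph s t n θ + k • (θ p - θ q) := by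
  unfold ph
  rw [Fintype.sum_sum_type]
  simp

omit [Fintype V] in
lemma dvg_option (s t : ι → V) (p q : V) (n : ι → ℤ) (k : ℤ) (v : V) :
    dvg (Sum.elim s fun _ : Unit => p) (Sum.elim t fun _ => q) (Sum.elim n fun _ => k) v =
      dvg s t n v + k * src p q v := by
  unfold dvg src
  rw [Fintype.sum_sum_type]
  congr 1
  show ∑ _u : Unit, ((if p = v then k else 0) - (if q = v then k else 0)) = _
  rw [Finset.univ_unique, Finset.sum_singleton]
  by_cases h1 : p = v <;> by_cases h2 : q = v
  · rw [if_pos h1, if_pos h2, if_pos h1.symm, if_pos h2.symm]; ring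
  · rw [if_pos h1, if_neg h2, if_pos h1.symm, if_neg (Ne.symm h2)]; ring
  · rw [if_neg h1, if_pos h2, if_neg (Ne.symm h1), if_pos h2.symm]; ring
  · rw [if_neg h1, if_neg h2, if_neg (Ne.symm h1), if_neg (Ne.symm h2)]; ring

lemma int_cos_ph (s t : ι → V) (p q : V) (n : ι → ℤ) :
    ∫ θ, cosT (θ p - θ q) * cosT (ph s t n θ) ∂(torusHaar V) =
      ((if ∀ v, dvg s t n v = src p q v then 1 else 0) +
        (if ∀ v, dvg s t (-n) v = src p q v then 1 else 0)) / 2 := by
  have e1 : ∀ θ : V → T, cosT (θ p - θ q) * cosT (ph s t n θ) =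
      (cosT (ph (Sum.elim s fun _ : Unit => p) (Sum.elim t fun _ => q)
        (Sum.elim n fun _ => (-1 : ℤ)) θ) +
      cosT (ph (Sum.elim s fun _ : Unit => p) (Sum.elim t fun _ => q)
        (Sum.elim n fun _ => (1 : ℤ)) θ)) / 2 := by
    intro θ
    rw [ph_option, ph_option, one_smul, neg_one_zsmul]
    set a := ph s t n θ
    set c := θ p - θ q
    have h1 : cosT (a + c) = cosT a * cosT c - sinT a * sinT c := Real.Angle.cos_add _ _
    have h3 : cosT (a + -c) = cosT a * cosT (-c) - sinT a * sinT (-c) := Real.Angle.cos_add _ _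
    have h4 : cosT (-c) = cosT c := Real.Angle.cos_neg _
    have h5 : sinT (-c) = -sinT c := Real.Angle.sin_neg _
    rw [h3, h1, h4, h5]
    ring
  simp_rw [e1]
  have hi : ∀ k : ℤ, Integrable (fun θ : V → T =>
      cosT (ph (Sum.elim s fun _ : Unit => p) (Sum.elim t fun _ => q)
        (Sum.elim n fun _ => k) θ)) (torusHaar V) := fun k =>
    cint (cont_cos.comp (ph_cont _ _ _))
  rw [integral_div, integral_add (hi _) (hi _), int_ph_univ, int_ph_univ]
  have c1 : (∀ v, dvg (Sum.elim s fun _ : Unit => p) (Sum.elim t fun _ => q)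
      (Sum.elim n fun _ => (-1 : ℤ)) v = 0) ↔ ∀ v, dvg s t n v = src p q v := by
    refine forall_congr' fun v => ?_
    rw [dvg_option]
    constructor <;> intro h <;> linarith
  have c2 : (∀ v, dvg (Sum.elim s fun _ : Unit => p) (Sum.elim t fun _ => q)
      (Sum.elim n fun _ => (1 : ℤ)) v = 0) ↔ ∀ v, dvg s t (-n) v = src p q v := by
    refine forall_congr' fun v => ?_
    rw [dvg_option]
    have h1 : dvg s t (-n) v = -dvg s t n v := by
      unfold dvg
      rw [← Finset.sum_neg_distrib]
      refine Finset.sum_congr rfl fun i _ => ?_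
      simp only [Pi.neg_apply]
      split_ifs <;> ring
    rw [h1]
    constructor <;> intro h <;> linarith
  congr 2
  · exact if_congr c1 rfl rfl
  · exact if_congr c2 rfl rfl

/-- **the two point function of a modified weight** -/
theorem UU_int_cos (s t : ι → V) {J : ι → ℝ} (hJ : ∀ i, 0 ≤ J i) {Φ : (ι → ℤ) → ℝ} {C : ℝ}
    (hΦ : ∀ n, |Φ n| ≤ C) (he : ∀ n, Φ (-n) = Φ n) (p q : V) :
    HasSum (fun n : ι → ℤ => if ∀ v, dvg s t n v = src p q v then wJ J n * Φ n else 0)
      (∫ θ, cosT (θ p - θ q) * UU s t J Φ θ ∂(torusHaar V)) := by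
  have hcc : Continuous fun θ : V → T => cosT (θ p - θ q) :=
    cont_cos.comp ((continuous_apply p).sub (continuous_apply q))
  have hcont : Continuous fun f : C(V → T, ℝ) =>
      ∫ θ, cosT (θ p - θ q) * f θ ∂(torusHaar V) := by
    have h1 : Continuous fun f : C(V → T, ℝ) =>
        (⟨fun θ => cosT (θ p - θ q), hcc⟩ : C(V → T, ℝ)) * f := continuous_const.mul continuous_id
    exact (continuous_int (torusHaar V)).comp h1
  set L : C(V → T, ℝ) →+ ℝ :=
    { toFun := fun f => ∫ θ, cosT (θ p - θ q) * f θ ∂(torusHaar V)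
      map_zero' := by simp
      map_add' := by
        intro f g
        have e : ∀ θ, cosT (θ p - θ q) * (f + g) θ =
            cosT (θ p - θ q) * f θ + cosT (θ p - θ q) * g θ := fun θ => by
          rw [ContinuousMap.add_apply, mul_add]
        simp_rw [e]
        exact integral_add (cint (hcc.mul f.continuous)) (cint (hcc.mul g.continuous)) } with hL
  have h := (UU_hasSum s t hJ hΦ).map L hcont
  have e : ∀ n : ι → ℤ, (L ∘ fun n : ι → ℤ =>
      ContinuousMap.const (V → T) (wJ J n * Φ n) * cc (chN s t n)) n =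
      (if ∀ v, dvg s t n v = src p q v then wJ J n * Φ n else 0) / 2 +
        (if ∀ v, dvg s t (-n) v = src p q v then wJ J n * Φ n else 0) / 2 := by
    intro n
    show ∫ θ, cosT (θ p - θ q) * ((wJ J n * Φ n) * cosT (ph s t n θ)) ∂(torusHaar V) = _
    have e2 : ∀ θ : V → T, cosT (θ p - θ q) * ((wJ J n * Φ n) * cosT (ph s t n θ)) =
        (wJ J n * Φ n) * (cosT (θ p - θ q) * cosT (ph s t n θ)) := fun θ => by ring
    simp_rw [e2]
    rw [integral_const_mul, int_cos_ph]
    split_ifs <;> ring
  rw [funext e] at h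
  -- the two halves are equal
  have hab : Summable fun n : ι → ℤ => |wJ J n * Φ n| := wJΦ_summable hJ hΦ
  have s1 : Summable fun n : ι → ℤ =>
      if ∀ v, dvg s t n v = src p q v then wJ J n * Φ n else 0 := by
    refine Summable.of_norm_bounded hab fun n => ?_
    split_ifs
    · exact le_of_eq (Real.norm_eq_abs _)
    · rw [norm_zero]
      exact abs_nonneg _
  obtain ⟨a, ha⟩ := s1
  have ha' : HasSum (fun n : ι → ℤ =>
      if ∀ v, dvg s t (-n) v = src p q v then wJ J n * Φ n else 0) a := by
    have h1 := (Equiv.neg (ι → ℤ)).hasSum_iff.2 ha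
    convert h1 using 1
    funext n
    simp only [Function.comp_apply, Equiv.neg_apply]
    have e3 : wJ J (-n) = wJ J n := by
      unfold wJ
      exact Finset.prod_congr rfl fun i _ => by rw [Pi.neg_apply, wI_neg]
    rw [e3, he]
  have h2 : L (UU s t J Φ) = a := by
    have h3 := h.unique ((ha.div_const 2).add (ha'.div_const 2))
    rw [h3]
    ring
  have h4 : ∫ θ, cosT (θ p - θ q) * UU s t J Φ θ ∂(torusHaar V) = a := h2
  rw [h4]
  exact ha

end Vale.Agent.P159.H773
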