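import Vale.Agent.P159.H773.TorDual
import Vale.Agent.P159.Bdl.B9

/-!
P159 (helper773): free box ≤ neutral torus ≤ wired block, and the wired block in the letters of
`Defs`.
-/

open MeasureTheory Filter Topology
open scoped BigOperators

set_option linter.all false

namespace Vale.Agent.P159.H773

open Vale.Agent.P159 Vale.Agent.P159.H353 Vale.Agent.P159.T1.H42 Vale.Agent.P159.TM.H389
open Vale.Agent.P159.TM.H331

section gen

variable {V : Type} [Fintype V]

/-- pinning increases the expectation of positive definite functions -/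
theorem pin_le {w U : C(V → T, ℝ)} (hw : pl w * mi w ∈ (PG (V → T)).S)
    (hU : U ∈ (PG (V → T)).cosS) (S : Set V) :
    (∫ θ, w θ * U θ ∂(torusHaar V)) * (∫ θ, w (pin S 0 θ) ∂(torusHaar V)) ≤
      (∫ θ, w (pin S 0 θ) * U (pin S 0 θ) ∂(torusHaar V)) * ∫ θ, w θ ∂(torusHaar V) := by
  classical
  set F : Finset V := Finset.univ.filter (fun v => v ∈ S) with hF
  have hFS : (F : Set V) = S := by ext v; simp [hF]
  have hps : ∀ n : ℕ, PK n F (0 : V → T) ∈ (PG (V → T)).cosS := by
    intro n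
    refine Pos.cexp_cosS _ (Subsemiring.mul_mem _ (Pos.cosS_const _ _ (Nat.cast_nonneg n)) ?_)
    have e : ps F (0 : V → T) = ∑ v ∈ F, cc (sp v) := by
      ext θ
      rw [ContinuousMap.coe_sum, Finset.sum_apply, ps_apply]
      refine Finset.sum_congr rfl fun v _ => ?_
      show cosT (θ v - 0) = cosT (θ v)
      rw [sub_zero]
    rw [e]
    exact Subsemiring.sum_mem _ fun v _ => PG_cos _
  have key : ∀ n, (∫ θ, w θ * U θ ∂(torusHaar V)) * (∫ θ, PK n F 0 θ * w θ ∂(torusHaar V)) ≤
      (∫ θ, PK n F 0 θ * (w θ * U θ) ∂(torusHaar V)) * ∫ θ, w θ ∂(torusHaar V) := by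
    intro n
    have h := inflV (w := w) (A := 1) (B := PK n F 0) (C := 1) (D := U) hw
      (Lew_one_iff.2 (hps n)) (Lew_one_iff.2 hU)
    refine le_trans (le_of_eq ?_) (h.trans (le_of_eq ?_))
    · congr 1
      · refine integral_congr_ae (Eventually.of_forall fun θ => ?_)
        show _ = w θ * (1 * U θ)
        ring
      · refine integral_congr_ae (Eventually.of_forall fun θ => ?_)
        show _ = w θ * (PK n F 0 θ * 1)
        ring
    · congr 1
      · refine integral_congr_ae (Eventually.of_forall fun θ => ?_)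
        show w θ * (PK n F 0 θ * U θ) = _
        ring
      · refine integral_congr_ae (Eventually.of_forall fun θ => ?_)
        show w θ * (1 * 1) = _
        ring
  have l1 := peak F (0 : V → T) w.continuous
  have l2 := peak F (0 : V → T) (Φ := fun θ => w θ * U θ) (by fun_prop)
  rw [hFS] at l1 l2
  refine le_of_tendsto_of_tendsto' (l1.const_mul (∫ θ, w θ * U θ ∂(torusHaar V)))
    (l2.mul_const (∫ θ, w θ ∂(torusHaar V))) fun n => ?_
  have q1 := NN_pos n F (0 : V → T)
  calc _ = (NN n F 0)⁻¹ * ((∫ θ, w θ * U θ ∂(torusHaar V)) *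
        (∫ θ, PK n F 0 θ * w θ ∂(torusHaar V))) := by ring
    _ ≤ (NN n F 0)⁻¹ * ((∫ θ, PK n F 0 θ * (w θ * U θ) ∂(torusHaar V)) *
        ∫ θ, w θ ∂(torusHaar V)) := mul_le_mul_of_nonneg_left (key n) (inv_nonneg.2 q1.le)
    _ = _ := by ring

/-- the cosine of the difference of two spins -/
noncomputable def cd (p q : V) : C(V → T, ℝ) := cc (grad p q)

lemma cd_apply (p q : V) (θ : V → T) : cd p q θ = cosT (θ p - θ q) := rfl

lemma cd_cos (p q : V) : cd p q ∈ (PG (V → T)).cosS := PG_cos _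

/-- more ferromagnetic weight increases the correlation -/
theorem weight_le {w D : C(V → T, ℝ)} (hw : pl w * mi w ∈ (PG (V → T)).S)
    (hD : D ∈ (PG (V → T)).cosS) (p q : V) :
    (∫ θ, cd p q θ * w θ ∂(torusHaar V)) * (∫ θ, D θ * w θ ∂(torusHaar V)) ≤
      (∫ θ, cd p q θ * (D θ * w θ) ∂(torusHaar V)) * ∫ θ, w θ ∂(torusHaar V) := by
  have h := inflV (w := w) (A := 1) (B := D) (C := 1) (D := cd p q) hw
    (Lew_one_iff.2 hD) (Lew_one_iff.2 (cd_cos p q))
  refine le_trans (le_of_eq ?_) (h.trans (le_of_eq ?_))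
  · congr 1
    · refine integral_congr_ae (Eventually.of_forall fun θ => ?_)
      show _ = w θ * (1 * cd p q θ)
      ring
    · refine integral_congr_ae (Eventually.of_forall fun θ => ?_)
      show _ = w θ * (D θ * 1)
      ring
  · congr 1
    · refine integral_congr_ae (Eventually.of_forall fun θ => ?_)
      show w θ * (D θ * cd p q θ) = _
      ring
    · refine integral_congr_ae (Eventually.of_forall fun θ => ?_)
      show w θ * (1 * 1) = _
      ring

end gen

/-! ### the torus -/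

variable {M : ℕ} {b : ℝ}

/-- weight of the box with free boundary -/
noncomputable def WF (M : ℕ) (b : ℝ) : C(St M → T, ℝ) := cexp (EN (fun _ => b) (bs (N := M)) bt)

lemma WF_fer (hb : 0 ≤ b) : Fer (WF M b) := Fer.EN (fun _ => hb) bs bt

/-- the neutral seam -/
noncomputable def WS (M : ℕ) (b : ℝ) : C(St M → T, ℝ) :=
  DT (fun _ => b) (ws (M := M)) wt wu

lemma WS_fer (hb : 0 ≤ b) : Fer (WS M b) := DT_fer (fun _ => hb) ws wt wu

lemma WT_mul (M : ℕ) (b : ℝ) : WT M b = WS M b * WF M b := rfl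

lemma WT_fer (hb : 0 ≤ b) : Fer (WT M b) := (WS_fer hb).mul (WF_fer hb)

lemma WS_dep (M : ℕ) (b : ℝ) : Dep (ringS M) (WS M b) := by
  have h := DT_dep (fun _ => b) (ws (M := M)) wt wu
  intro θ θ' h1
  refine h θ θ' fun v hv => h1 v ?_
  obtain ⟨i, hi⟩ := hv
  unfold ringS
  rcases i with j | i
  · rcases hi with hi | hi
    · rw [hi]; exact Or.inr (Or.inl rfl)
    · rw [hi]; exact Or.inl rfl
  · rcases hi with hi | hi
    · rw [hi]; exact Or.inr (Or.inr (Or.inr rfl))
    · rw [hi]; exact Or.inr (Or.inr (Or.inl rfl))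

/-- two point function of the free box -/
noncomputable def cF (M : ℕ) (b : ℝ) (p q : St M) : ℝ :=
  (∫ θ, cd p q θ * WF M b θ ∂(torusHaar (St M))) / ∫ θ, WF M b θ ∂(torusHaar (St M))

/-- two point function of the neutral torus -/
noncomputable def cT (M : ℕ) (b : ℝ) (p q : St M) : ℝ :=
  (∫ θ, cd p q θ * WT M b θ ∂(torusHaar (St M))) / ∫ θ, WT M b θ ∂(torusHaar (St M))

/-- two point function of the box with the boundary spins equal to `0` -/
noncomputable def cW (M : ℕ) (b : ℝ) (p q : St M) : ℝ :=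
  (∫ θ, cd p q (pin (ringS M) 0 θ) * WF M b (pin (ringS M) 0 θ) ∂(torusHaar (St M))) /
    ∫ θ, WF M b (pin (ringS M) 0 θ) ∂(torusHaar (St M))

/-- **free ≤ neutral torus** -/
theorem cF_le_cT (hb : 0 ≤ b) (p q : St M) : cF M b p q ≤ cT M b p q := by
  have h := weight_le (WF_fer (M := M) hb).wt (WS_fer (M := M) hb).cos p q
  have p1 : 0 < ∫ θ, WF M b θ ∂(torusHaar (St M)) :=
    ipos (WF M b).continuous (WF_fer hb).pos
  have p2 : 0 < ∫ θ, WT M b θ ∂(torusHaar (St M)) :=
    ipos (WT M b).continuous (WT_fer hb).pos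
  unfold cF cT
  rw [div_le_div_iff₀ p1 p2]
  exact h

/-- **neutral torus ≤ wired** -/
theorem cT_le_cW (hb : 0 ≤ b) (p q : St M) : cT M b p q ≤ cW M b p q := by
  have h := pin_le (WT_fer (M := M) hb).wt (cd_cos p q) (ringS M)
  have hS : ∀ θ, WS M b (pin (ringS M) 0 θ) = WS M b 0 := fun θ =>
    WS_dep M b _ _ fun v hv => pin_mem hv
  have e1 : ∫ θ, WT M b (pin (ringS M) 0 θ) ∂(torusHaar (St M)) =
      WS M b 0 * ∫ θ, WF M b (pin (ringS M) 0 θ) ∂(torusHaar (St M)) := by
    rw [← integral_const_mul]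
    refine integral_congr_ae (Eventually.of_forall fun θ => ?_)
    show WS M b (pin (ringS M) 0 θ) * WF M b (pin (ringS M) 0 θ) = _
    rw [hS]
  have e2 : ∫ θ, WT M b (pin (ringS M) 0 θ) * cd p q (pin (ringS M) 0 θ) ∂(torusHaar (St M)) =
      WS M b 0 * ∫ θ, cd p q (pin (ringS M) 0 θ) * WF M b (pin (ringS M) 0 θ)
        ∂(torusHaar (St M)) := by
    rw [← integral_const_mul]
    refine integral_congr_ae (Eventually.of_forall fun θ => ?_)
    show WS M b (pin (ringS M) 0 θ) * WF M b (pin (ringS M) 0 θ) * _ = _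
    rw [hS]
    ring
  have e3 : ∫ θ, WT M b θ * cd p q θ ∂(torusHaar (St M)) =
      ∫ θ, cd p q θ * WT M b θ ∂(torusHaar (St M)) := by
    refine integral_congr_ae (Eventually.of_forall fun θ => ?_)
    show _ * _ = _ * _
    ring
  rw [e1, e2, e3] at h
  have p0 : 0 < WS M b 0 := (WS_fer hb).pos 0
  have p1 : 0 < ∫ θ, WT M b θ ∂(torusHaar (St M)) :=
    ipos (WT M b).continuous (WT_fer hb).pos
  have p2 : 0 < ∫ θ, WF M b (pin (ringS M) 0 θ) ∂(torusHaar (St M)) :=
    ipos ((WF M b).continuous.comp (pin_cont _ 0)) fun θ => (WF_fer hb).pos _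
  unfold cT cW
  rw [div_le_div_iff₀ p1 p2]
  refine le_of_mul_le_mul_left ?_ p0
  calc _ = (∫ θ, cd p q θ * WT M b θ ∂(torusHaar (St M))) *
        (WS M b 0 * ∫ θ, WF M b (pin (ringS M) 0 θ) ∂(torusHaar (St M))) := by ring
    _ ≤ _ := h
    _ = _ := by ring

end Vale.Agent.P159.H773
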