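import Vale.Agent.P159.H883.Lin2

/-!
P159 / helper773, module JN1: **tails of averages of linear functionals of the field, without union
bound** (Jensen for `cosh`): if every `u i` has energy at most `V` then
`ν {A < ∑ w i |⟨u i, F⟩|} ≤ 2 exp (- A² / (2 V))`.
-/

set_option linter.all false

namespace Vale.Agent.P159.H773

open Finset Matrix MeasureTheory
open Vale.Agent.P159.H770 (Ed eS eT)
open Vale.Agent.P159.TM.SpecC (Tor wT)
open Vale.Agent.P159.H883 (nuM FlJ lin_int prob_nuM bw_wT mf_scalar)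

noncomputable section

variable {N : ℕ} [NeZero N] {b t : ℝ}

/-- the exponential moment at a small parameter -/
lemma lin_cosh (hb : 0 < b) (ht : 0 < t) (x₀ : Tor N) {u : Tor N → ℝ} {j : Ed N → ℝ}
    (h : FlJ u j) {s V : ℝ} (h1 : (∑ y, u y ^ 2) / t + 2 * b * ∑ e, j e ^ 2 ≤ V)
    (h2 : ∀ e, |s * j e| ≤ 1) :
    Integrable (fun F : Tor N → ℝ => Real.cosh (s * ∑ x, u x * F x))
      (nuM (wT b N) (t • (1 : Matrix (Tor N) (Tor N) ℝ)) x₀) ∧
    ∫ F, Real.cosh (s * ∑ x, u x * F x) ∂(nuM (wT b N) (t • (1 : Matrix (Tor N) (Tor N) ℝ)) x₀) ≤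
      Real.exp (s ^ 2 * V / 2) := by
  have key : ∀ r : ℝ, r ^ 2 = s ^ 2 → (∀ e, |r * j e| ≤ 1) →
      Integrable (fun F : Tor N → ℝ => Real.exp (r * ∑ x, u x * F x))
        (nuM (wT b N) (t • (1 : Matrix (Tor N) (Tor N) ℝ)) x₀) ∧
      ∫ F, Real.exp (r * ∑ x, u x * F x) ∂(nuM (wT b N) (t • (1 : Matrix (Tor N) (Tor N) ℝ)) x₀) ≤
      Real.exp (s ^ 2 * V / 2) := by
    intro r hr hj
    obtain ⟨a1, a2⟩ := lin_int hb ht x₀ (h.smul r)
    have e1 : ∀ F : Tor N → ℝ, ∑ x, (r • u) x * F x = r * ∑ x, u x * F x := fun F => by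
      rw [Finset.mul_sum]
      exact Finset.sum_congr rfl fun x _ => by simp only [Pi.smul_apply, smul_eq_mul]; ring
    simp only [e1] at a1 a2
    refine ⟨a1, a2.trans (Real.exp_le_exp.2 ?_)⟩
    have e2 : ∑ y, (r • u) y ^ 2 = s ^ 2 * ∑ y, u y ^ 2 := by
      rw [Finset.mul_sum, ← hr]
      exact Finset.sum_congr rfl fun x _ => by simp only [Pi.smul_apply, smul_eq_mul]; ring
    have e3 : ∑ e, (Real.cosh ((r • j) e) - 1) ≤ s ^ 2 * ∑ e, j e ^ 2 := by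
      rw [Finset.mul_sum, ← hr]
      refine Finset.sum_le_sum fun e _ => ?_
      have h5 := H513.cosh_sub_le_sq (hj e)
      have e4 : (r * j e) ^ 2 = r ^ 2 * j e ^ 2 := by ring
      rw [e4] at h5
      exact h5
    rw [e2]
    have h6 : b * ∑ e, (Real.cosh ((r • j) e) - 1) ≤ b * (s ^ 2 * ∑ e, j e ^ 2) :=
      mul_le_mul_of_nonneg_left e3 hb.le
    have h7 : s ^ 2 * ∑ y, u y ^ 2 = s ^ 2 * (∑ y, u y ^ 2) := rfl
    have h8 := mul_le_mul_of_nonneg_left h1 (show 0 ≤ s ^ 2 / 2 by positivity)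
    have e5 : s ^ 2 / 2 * ((∑ y, u y ^ 2) / t + 2 * b * ∑ e, j e ^ 2) =
        s ^ 2 * (∑ y, u y ^ 2) / (2 * t) + b * (s ^ 2 * ∑ e, j e ^ 2) := by
      field_simp
    rw [e5] at h8
    linarith
  obtain ⟨a1, a2⟩ := key s rfl h2
  obtain ⟨b1, b2⟩ := key (-s) (by ring) (fun e => by rw [neg_mul, abs_neg]; exact h2 e)
  have e : ∀ F : Tor N → ℝ, Real.cosh (s * ∑ x, u x * F x) =
      (Real.exp (s * ∑ x, u x * F x) + Real.exp (-s * ∑ x, u x * F x)) / 2 := fun F => by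
    rw [Real.cosh_eq, neg_mul]
  simp only [e]
  refine ⟨(a1.add b1).div_const 2, ?_⟩
  rw [integral_div, integral_add a1 b1]
  linarith

/-- **tail of an average of linear functionals** -/
theorem avg_tail (hb : 0 < b) (ht : 0 < t) (x₀ : Tor N) {ι : Type*} {I : Finset ι} {w : ι → ℝ}
    (w0 : ∀ i ∈ I, 0 ≤ w i) (w1 : ∑ i ∈ I, w i = 1) {u : ι → Tor N → ℝ} {j : ι → Ed N → ℝ}
    (h : ∀ i ∈ I, FlJ (u i) (j i)) {A V : ℝ} (hA : 0 ≤ A) (hV : 0 < V)
    (h1 : ∀ i ∈ I, (∑ y, u i y ^ 2) / t + 2 * b * ∑ e, j i e ^ 2 ≤ V)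
    (h2 : ∀ i ∈ I, ∀ e, A * |j i e| ≤ V) :
    (nuM (wT b N) (t • (1 : Matrix (Tor N) (Tor N) ℝ)) x₀).real
      {F | A < ∑ i ∈ I, w i * |∑ y, u i y * F y|} ≤ 2 * Real.exp (-(A ^ 2 / (2 * V))) := by
  classical
  have := prob_nuM (H963.gw_wT (N := N) hb.le) (bw_wT hb) (mf_scalar ht) x₀
  obtain ⟨ν, hν⟩ : ∃ ν, ν = nuM (wT b N) (t • (1 : Matrix (Tor N) (Tor N) ℝ)) x₀ := ⟨_, rfl⟩
  set s : ℝ := A / V with hs
  have hs0 : 0 ≤ s := div_nonneg hA hV.le
  have hsj : ∀ i ∈ I, ∀ e, |s * j i e| ≤ 1 := fun i hi e => by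
    rw [abs_mul, abs_of_nonneg hs0, hs, div_mul_eq_mul_div, div_le_one hV]
    exact h2 i hi e
  set Φ : (Tor N → ℝ) → ℝ := fun F => ∑ i ∈ I, w i * Real.cosh (s * ∑ y, u i y * F y) with hΦ
  have hc : ∀ i ∈ I, Integrable (fun F : Tor N → ℝ => w i * Real.cosh (s * ∑ x, u i x * F x))
      (nuM (wT b N) (t • (1 : Matrix (Tor N) (Tor N) ℝ)) x₀) := fun i hi =>
    (lin_cosh hb ht x₀ (h i hi) (h1 i hi) (hsj i hi)).1.const_mul _
  have hi : Integrable Φ (nuM (wT b N) (t • (1 : Matrix (Tor N) (Tor N) ℝ)) x₀) :=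
    integrable_finset_sum _ hc
  have hE : ∫ F, Φ F ∂(nuM (wT b N) (t • (1 : Matrix (Tor N) (Tor N) ℝ)) x₀) ≤
      Real.exp (s ^ 2 * V / 2) := by
    rw [integral_finset_sum _ hc]
    calc ∑ i ∈ I, ∫ F, w i * Real.cosh (s * ∑ x, u i x * F x)
          ∂(nuM (wT b N) (t • (1 : Matrix (Tor N) (Tor N) ℝ)) x₀)
        ≤ ∑ i ∈ I, w i * Real.exp (s ^ 2 * V / 2) := by
          refine Finset.sum_le_sum fun i hi => ?_
          rw [integral_const_mul]
          exact mul_le_mul_of_nonneg_left (lin_cosh hb ht x₀ (h i hi) (h1 i hi) (hsj i hi)).2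
            (w0 i hi)
      _ = Real.exp (s ^ 2 * V / 2) := by rw [← Finset.sum_mul, w1, one_mul]
  -- Jensen
  have hJ : ∀ F : Tor N → ℝ, A < ∑ i ∈ I, w i * |∑ y, u i y * F y| →
      Real.exp (s * A) / 2 ≤ Φ F := by
    intro F hF
    have hconv : ConvexOn ℝ Set.univ Real.exp := convexOn_exp
    have j1 := hconv.map_sum_le (t := I) (w := w) (p := fun i => s * |∑ y, u i y * F y|) w0 w1
      (fun _ _ => Set.mem_univ _)
    simp only [smul_eq_mul] at j1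
    have j2 : Real.exp (s * A) ≤ Real.exp (∑ i ∈ I, w i * (s * |∑ y, u i y * F y|)) := by
      refine Real.exp_le_exp.2 ?_
      have : ∑ i ∈ I, w i * (s * |∑ y, u i y * F y|) = s * ∑ i ∈ I, w i * |∑ y, u i y * F y| := by
        rw [Finset.mul_sum]
        exact Finset.sum_congr rfl fun i _ => by ring
      rw [this]
      exact mul_le_mul_of_nonneg_left hF.le hs0
    have j3 : ∑ i ∈ I, w i * Real.exp (s * |∑ y, u i y * F y|) ≤ 2 * Φ F := by
      rw [hΦ, Finset.mul_sum]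
      refine Finset.sum_le_sum fun i hi => ?_
      have k1 : Real.exp (s * |∑ y, u i y * F y|) ≤ 2 * Real.cosh (s * ∑ y, u i y * F y) := by
        have k2 : s * |∑ y, u i y * F y| = |s * ∑ y, u i y * F y| := by
          rw [abs_mul, abs_of_nonneg hs0]
        rw [k2, ← Real.cosh_abs (s * _), Real.cosh_eq]
        have := Real.exp_pos (-|s * ∑ y, u i y * F y|)
        linarith
      have := mul_le_mul_of_nonneg_left k1 (w0 i hi)
      linarith
    linarith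
  have h3 := mul_meas_ge_le_integral_of_nonneg
    (μ := nuM (wT b N) (t • (1 : Matrix (Tor N) (Tor N) ℝ)) x₀) (f := Φ)
    (Filter.Eventually.of_forall fun F => Finset.sum_nonneg fun i hi =>
      mul_nonneg (w0 i hi) (Real.cosh_pos _).le) hi (Real.exp (s * A) / 2)
  have h4 : (nuM (wT b N) (t • (1 : Matrix (Tor N) (Tor N) ℝ)) x₀).real
      {F | A < ∑ i ∈ I, w i * |∑ y, u i y * F y|} ≤
      (nuM (wT b N) (t • (1 : Matrix (Tor N) (Tor N) ℝ)) x₀).real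
      {F | Real.exp (s * A) / 2 ≤ Φ F} :=
    measureReal_mono (fun F hF => hJ F hF) (measure_ne_top _ _)
  have h5 : Real.exp (s * A) / 2 * (nuM (wT b N) (t • (1 : Matrix (Tor N) (Tor N) ℝ)) x₀).real
      {F | A < ∑ i ∈ I, w i * |∑ y, u i y * F y|} ≤ Real.exp (s ^ 2 * V / 2) :=
    (mul_le_mul_of_nonneg_left h4 (by positivity)).trans (h3.trans hE)
  have h6 : 0 < Real.exp (s * A) / 2 := by positivity
  rw [← le_div_iff₀' h6] at h5
  refine h5.trans (le_of_eq ?_)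
  have e1 : s * A = A ^ 2 / V := by rw [hs]; ring
  have e2 : s ^ 2 * V / 2 = A ^ 2 / (2 * V) := by rw [hs]; field_simp
  have e3 : A ^ 2 / (2 * V) = A ^ 2 / V - A ^ 2 / (2 * V) + 0 := by field_simp; ring
  rw [e1, e2, div_div_eq_mul_div, div_eq_iff (Real.exp_pos _).ne', mul_comm (Real.exp _) 2,
    mul_assoc, ← Real.exp_add]
  congr 2
  field_simp
  ring

end

end Vale.Agent.P159.H773
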