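import Vale.Agent.P159.H773.Gin
import Vale.Agent.P159.TM.H331.Wired

/-!
P159 (helper773): the box with pinned boundary is the wired block of `Defs`; height form of the
neutral torus; lower bound of the correlations of the plane by those of the neutral torus.
-/

open MeasureTheory Filter Topology
open scoped BigOperators

set_option linter.all false

namespace Vale.Agent.P159.H773

open Vale.Agent.P159 Vale.Agent.P159.H353 Vale.Agent.P159.T1.H42 Vale.Agent.P159.TM.H389
open Vale.Agent.P159.TM.H331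
open Vale.Agent.P159.H770 (wTD Ed)

variable {M : ℕ} {b : ℝ}

/-- coordinates of a site of the box -/
def cv (v : St M) : ℤ × ℤ := (((v.1.1 : ℕ) : ℤ), ((v.2.1 : ℕ) : ℤ))

lemma cv_inj : Function.Injective (cv : St M → ℤ × ℤ) := by
  intro v w h
  obtain ⟨⟨a, ha⟩, ⟨c, hc⟩⟩ := v
  obtain ⟨⟨a', ha'⟩, ⟨c', hc'⟩⟩ := w
  simp only [cv, Prod.mk.injEq, Nat.cast_inj] at h
  obtain ⟨h1, h2⟩ := h
  subst h1 h2
  rfl

lemma mem_inner_iff {l : ℕ} {z : ℤ × ℤ} :
    z ∈ inner l ↔ (1 ≤ z.1 ∧ 1 ≤ z.2) ∧ (z.1 ≤ (l : ℤ) - 1 ∧ z.2 ≤ (l : ℤ) - 1) := by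
  unfold inner
  rw [Finset.mem_Icc, Prod.le_def, Prod.le_def]

/-- an inner site as a site of the box -/
def ci (w : inner (M + 1)) : St M :=
  (⟨w.1.1.toNat, by
    have h := mem_inner_iff.1 w.2
    push_cast at h
    omega⟩, ⟨w.1.2.toNat, by
    have h := mem_inner_iff.1 w.2
    push_cast at h
    omega⟩)

lemma cv_ci (w : inner (M + 1)) : cv (ci w) = w.1 := by
  have h := mem_inner_iff.1 w.2
  unfold cv ci
  ext
  · simp only; omega
  · simp only; omega

lemma ci_inj : Function.Injective (ci : inner (M + 1) → St M) := by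
  intro w w' h
  apply Subtype.ext
  rw [← cv_ci w, ← cv_ci w', h]

lemma ci_cv (v : St M) (h : cv v ∈ inner (M + 1)) : ci ⟨cv v, h⟩ = v := by
  apply cv_inj
  rw [cv_ci]

/-- integrals with pinned boundary -/
lemma int_pin_ring {f : (St M → T) → ℝ} (hf : Continuous f) :
    ∫ θ, f (pin (ringS M) 0 θ) ∂(torusHaar (St M)) =
      ∫ φ, f (fun v => ext φ (cv v)) ∂(torusHaar (inner (M + 1))) := by
  have hc : Continuous fun φ : inner (M + 1) → T => (fun v : St M => ext φ (cv v)) :=
    continuous_pi fun v => (continuous_apply (cv v)).comp (ext_cont _)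
  have h := integral_relabel (ci : inner (M + 1) → St M) ci_inj (torusHaar (St M))
    (torusHaar (inner (M + 1))) (f := fun φ => f (fun v => ext φ (cv v))) (hf.comp hc)
  rw [← h]
  refine integral_congr_ae (Eventually.of_forall fun θ => ?_)
  show f _ = f _
  congr 1
  funext v
  by_cases hv : v ∈ ringS M
  · rw [pin_mem hv]
    have h1 : cv v ∉ inner (M + 1) := fun h2 => ((ringS_iff v).2 h2) hv
    unfold ext
    rw [dif_neg h1]
    rfl
  · rw [pin_notMem hv]
    have h1 : cv v ∈ inner (M + 1) := (ringS_iff v).1 hv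
    unfold ext
    rw [dif_pos h1]
    show θ v = θ (ci ⟨cv v, h1⟩)
    rw [ci_cv]

/-- a sum over the lines of the box in terms of the squares -/
lemma sum_half (l : ℕ) (g : ℕ → ℝ) :
    ∑ j ∈ Finset.range (l + 1), g j =
      (∑ j ∈ Finset.range l, (g j + g (j + 1))) / 2 + (g 0 + g l) / 2 := by
  rw [Finset.sum_add_distrib]
  have h1 := Finset.sum_range_succ g l
  have h2 := Finset.sum_range_succ' g l
  linarith

/-- the energies differ by a constant -/
lemma EN_block (b : ℝ) (ω : ℤ × ℤ → T) (h0 : ∀ z, z ∉ inner (M + 1) → ω z = 0) :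
    EN (fun _ : Bd M => b) bs bt (fun v => ω (cv v)) =
      horiz (M + 1) b cosT ω + vert (M + 1) b cosT ω + 2 * b * (M + 1) := by
  rw [EN_apply, Fintype.sum_sum_type]
  have hz : ∀ i j : ℕ, (i = 0 ∨ i = M + 1 ∨ j = 0 ∨ j = M + 1) →
      ω ((i : ℤ), (j : ℤ)) = 0 := by
    intro i j hij
    refine h0 _ fun h => ?_
    have h1 := mem_inner_iff.1 h
    push_cast at h1
    omega
  have e1 : ∑ a : Fin (M + 1) × Fin (M + 2), b *
      cosT (ω (cv (bs (Sum.inl a : Bd M))) - ω (cv (bt (Sum.inl a : Bd M)))) =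
      horiz (M + 1) b cosT ω + b * (M + 1) := by
    rw [Fintype.sum_prod_type]
    have h1 : ∀ i : Fin (M + 1), ∑ j : Fin (M + 2), b *
        cosT (ω (cv (bs (Sum.inl (i, j) : Bd M))) - ω (cv (bt (Sum.inl (i, j) : Bd M)))) =
        ∑ j ∈ Finset.range (M + 2), b *
          cosT (ω ((i.1 : ℤ), (j : ℤ)) - ω ((i.1 : ℤ) + 1, (j : ℤ))) := by
      intro i
      rw [Finset.sum_range]
      refine Finset.sum_congr rfl fun j _ => ?_
      congr 3
    rw [Finset.sum_congr rfl fun i _ => h1 i]
    unfold horiz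
    rw [Finset.sum_range]
    have h2 : b * ((M : ℝ) + 1) = ∑ i : Fin (M + 1), b := by
      rw [Finset.sum_const, Finset.card_univ, Fintype.card_fin, nsmul_eq_mul]
      push_cast
      ring
    rw [h2, ← Finset.sum_add_distrib]
    refine Finset.sum_congr rfl fun i _ => ?_
    rw [sum_half (M + 1) fun j => b *
          cosT (ω ((i.1 : ℤ), (j : ℤ)) - ω ((i.1 : ℤ) + 1, (j : ℤ)))]
    have z1 := hz i.1 0 (by omega)
    have z2 := hz (i.1 + 1) 0 (by omega)
    have z3 := hz i.1 (M + 1) (by omega)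
    have z4 := hz (i.1 + 1) (M + 1) (by omega)
    push_cast at z1 z2 z3 z4
    push_cast
    rw [z1, z2, z3, z4, sub_zero, cosT_zero, Finset.sum_div]
    have h3 : (b * 1 + b * 1) / 2 = b := by ring
    rw [h3]
    congr 1
    refine Finset.sum_congr rfl fun j _ => ?_
    ring
  have e2 : ∑ a : Fin (M + 2) × Fin (M + 1), b *
      cosT (ω (cv (bs (Sum.inr a : Bd M))) - ω (cv (bt (Sum.inr a : Bd M)))) =
      vert (M + 1) b cosT ω + b * (M + 1) := by
    rw [Fintype.sum_prod_type, Finset.sum_comm]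
    have h1 : ∀ j : Fin (M + 1), ∑ i : Fin (M + 2), b *
        cosT (ω (cv (bs (Sum.inr (i, j) : Bd M))) - ω (cv (bt (Sum.inr (i, j) : Bd M)))) =
        ∑ i ∈ Finset.range (M + 2), b *
          cosT (ω ((i : ℤ), (j.1 : ℤ)) - ω ((i : ℤ), (j.1 : ℤ) + 1)) := by
      intro i
      rw [Finset.sum_range]
      refine Finset.sum_congr rfl fun j _ => ?_
      congr 3
    have hv : vert (M + 1) b cosT ω = ∑ j ∈ Finset.range (M + 1), ∑ i ∈ Finset.range (M + 1),
        b / 2 * (cosT (ω ((i : ℤ), (j : ℤ)) - ω ((i : ℤ), (j : ℤ) + 1)) +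
          cosT (ω ((i : ℤ) + 1, (j : ℤ)) - ω ((i : ℤ) + 1, (j : ℤ) + 1))) := by
      unfold vert
      exact Finset.sum_comm
    rw [Finset.sum_congr rfl fun i _ => h1 i, hv, Finset.sum_range]
    have h2 : b * ((M : ℝ) + 1) = ∑ i : Fin (M + 1), b := by
      rw [Finset.sum_const, Finset.card_univ, Fintype.card_fin, nsmul_eq_mul]
      push_cast
      ring
    rw [h2, ← Finset.sum_add_distrib]
    refine Finset.sum_congr rfl fun j _ => ?_
    rw [sum_half (M + 1) fun i => b *
          cosT (ω ((i : ℤ), (j.1 : ℤ)) - ω ((i : ℤ), (j.1 : ℤ) + 1))]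
    have z1 := hz 0 j.1 (by omega)
    have z2 := hz 0 (j.1 + 1) (by omega)
    have z3 := hz (M + 1) j.1 (by omega)
    have z4 := hz (M + 1) (j.1 + 1) (by omega)
    push_cast at z1 z2 z3 z4
    push_cast
    rw [z1, z2, z3, z4, sub_zero, cosT_zero, Finset.sum_div]
    have h3 : (b * 1 + b * 1) / 2 = b := by ring
    rw [h3]
    congr 1
    refine Finset.sum_congr rfl fun i _ => ?_
    ring
  rw [e1, e2]
  ring

lemma ext_cont' (φ0 : St M → ℤ × ℤ) :
    Continuous fun φ : inner (M + 1) → T => (fun v : St M => ext φ (φ0 v)) :=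
  continuous_pi fun v => (continuous_apply (φ0 v)).comp (ext_cont _)

/-- the weight with pinned boundary -/
lemma WF_ext (b : ℝ) (φ : inner (M + 1) → T) :
    WF M b (fun v => ext φ (cv v)) =
      Real.exp (blockEnergy (M + 1) b φ) * Real.exp (2 * b * (M + 1)) := by
  show Real.exp (EN (fun _ : Bd M => b) bs bt (fun v => ext φ (cv v))) = _
  rw [EN_block b (ext φ) (fun z hz => by unfold ext; rw [dif_neg hz]), Real.exp_add]
  rfl

lemma ext_ci (φ : inner (M + 1) → T) (p : inner (M + 1)) : ext φ (cv (ci p)) = φ p := by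
  rw [cv_ci]
  unfold ext
  rw [dif_pos p.2]

/-- **the pinned box is the wired block** -/
theorem cW_eq (b : ℝ) (p q : inner (M + 1)) :
    cW M b (ci p) (ci q) = expect (blockEnergy (M + 1) b) fun θ => cosT (θ p - θ q) := by
  unfold cW expect
  have h1 := int_pin_ring (M := M) (f := fun θ => cd (ci p) (ci q) θ * WF M b θ)
    ((cd _ _).continuous.mul (WF M b).continuous)
  have h2 := int_pin_ring (M := M) (f := fun θ => WF M b θ) (WF M b).continuous
  have e1 : ∫ θ, cd (ci p) (ci q) (pin (ringS M) 0 θ) * WF M b (pin (ringS M) 0 θ)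
      ∂(torusHaar (St M)) =
      (∫ θ, cosT (θ p - θ q) * Real.exp (blockEnergy (M + 1) b θ)
        ∂(torusHaar (inner (M + 1)))) * Real.exp (2 * b * (M + 1)) := by
    rw [← integral_mul_const]
    refine h1.trans (integral_congr_ae (Eventually.of_forall fun φ => ?_))
    show cd (ci p) (ci q) (fun v => ext φ (cv v)) * WF M b (fun v => ext φ (cv v)) = _
    rw [WF_ext, cd_apply, ext_ci, ext_ci]
    ring
  have e2 : ∫ θ, WF M b (pin (ringS M) 0 θ) ∂(torusHaar (St M)) =
      (∫ θ, Real.exp (blockEnergy (M + 1) b θ) ∂(torusHaar (inner (M + 1)))) *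
        Real.exp (2 * b * (M + 1)) := by
    rw [← integral_mul_const]
    refine h2.trans (integral_congr_ae (Eventually.of_forall fun φ => ?_))
    show WF M b (fun v => ext φ (cv v)) = _
    rw [WF_ext]
  rw [e1, e2, mul_div_mul_right _ _ (Real.exp_pos _).ne']

lemma blockEnergy_cont (l : ℕ) (b : ℝ) : Continuous (blockEnergy l b) :=
  (blockE_cont l b).comp (ext_cont _)

/-- `cos (p - q) = cos (p + q) + 2 sin p sin q` in the wired block -/
lemma expect_cos_sub (l : ℕ) (b : ℝ) (p q : inner l) :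
    expect (blockEnergy l b) (fun θ => cosT (θ p - θ q)) =
      expect (blockEnergy l b) (fun θ => cosT (θ p + θ q)) +
        2 * expect (blockEnergy l b) fun θ => sinT (θ p) * sinT (θ q) := by
  have hE := blockEnergy_cont l b
  have c1 : Continuous fun θ : inner l → T => cosT (θ p + θ q) * Real.exp (blockEnergy l b θ) :=
    (cont_cos.comp ((continuous_apply p).add (continuous_apply q))).mul
      (Real.continuous_exp.comp hE)
  have c2 : Continuous fun θ : inner l → T =>
      (sinT (θ p) * sinT (θ q)) * Real.exp (blockEnergy l b θ) :=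
    ((cont_sin.comp (continuous_apply p)).mul (cont_sin.comp (continuous_apply q))).mul
      (Real.continuous_exp.comp hE)
  unfold expect
  have e : ∫ θ, cosT (θ p - θ q) * Real.exp (blockEnergy l b θ) ∂(torusHaar (inner l)) =
      (∫ θ, cosT (θ p + θ q) * Real.exp (blockEnergy l b θ) ∂(torusHaar (inner l))) +
        2 * ∫ θ, (sinT (θ p) * sinT (θ q)) * Real.exp (blockEnergy l b θ)
          ∂(torusHaar (inner l)) := by
    have c3 : Continuous fun θ : inner l → T =>
        2 * ((sinT (θ p) * sinT (θ q)) * Real.exp (blockEnergy l b θ)) := continuous_const.mul c2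
    rw [← integral_const_mul, ← integral_add (cint c1) (cint c3)]
    refine integral_congr_ae (Eventually.of_forall fun θ => ?_)
    show cosT (θ p - θ q) * Real.exp (blockEnergy l b θ) =
      cosT (θ p + θ q) * Real.exp (blockEnergy l b θ) +
        2 * ((sinT (θ p) * sinT (θ q)) * Real.exp (blockEnergy l b θ))
    have h1 : cosT (θ p + θ q) = cosT (θ p) * cosT (θ q) - sinT (θ p) * sinT (θ q) :=
      Real.Angle.cos_add _ _
    have h2 : cosT (θ p - θ q) = cosT (θ p) * cosT (θ q) + sinT (θ p) * sinT (θ q) := by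
      rw [sub_eq_add_neg]
      have h3 : cosT (θ p + -θ q) = cosT (θ p) * cosT (-θ q) - sinT (θ p) * sinT (-θ q) :=
        Real.Angle.cos_add _ _
      rw [h3, cosT_neg, sinT_neg]
      ring
    rw [h1, h2]
    ring
  rw [e]
  ring

/-- **lower bound of the correlations of the plane by those of the neutral torus** -/
theorem C_ge (hb : 0 ≤ b) (p q : inner (M + 1)) :
    cT M b (ci p) (ci q) - expect (blockEnergy (M + 1) b) (fun θ => cosT (θ p + θ q)) ≤
      XY.C b ((q : ℤ × ℤ) - p) := by
  have h1 := cT_le_cW (M := M) hb (ci p) (ci q)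
  rw [cW_eq, expect_cos_sub] at h1
  have h2 := wired_bound (M + 1) hb p q
  linarith

/-! ### heights -/

/-- partition function of the neutral massless torus with a dislocation -/
noncomputable def ZN (M : ℕ) (b : ℝ) (η : (Fin (M + 2) × Fin (M + 2)) × Bool → ℤ) : ℝ :=
  ∑' h : {h : Fin (M + 2) × Fin (M + 2) → ℤ // h 0 = 0}, wTD (M + 2) b η h.1

/-- **height form of the two point function of the neutral torus** -/
theorem cT_heights (hb : 0 ≤ b) {η : (Fin (M + 2) × Fin (M + 2)) × Bool → ℤ} {p q : St M}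
    (hη : Dsl η p q) : cT M b p q = ZN M b η / ZN M b 0 := by
  have h1 := (tor_dual hb hη).tsum_eq
  have h0 : Dsl (M := M) 0 p p := by
    refine ⟨fun v => ?_, ?_, ?_⟩
    · simp [curl, src]
    · simp
    · simp
  have h2 := (tor_dual hb h0).tsum_eq
  unfold cT ZN
  rw [h1, h2]
  congr 1
  refine integral_congr_ae (Eventually.of_forall fun θ => ?_)
  show WT M b θ = cosT (θ p - θ p) * WT M b θ
  rw [sub_self, cosT_zero, one_mul]

end Vale.Agent.P159.H773
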