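import Vale.Agent.P159.H773.Mem9
import Vale.Agent.P159.H276.Mf6

/-!
P159 / helper773, module MEM10: **the field `mem`, closed**: helper276's `memC3` plugged into
`mem_flow`; the class of decorations of a level `clsF`.
-/

set_option linter.all false

namespace Vale.Agent.P159.H773

open Finset Matrix MeasureTheory Filter Topology
open Vale.Agent.P159.TM.Spec (V)
open Vale.Agent.P159.H686 (Cmp wdS)
open Vale.Agent.P159.H708 (Bx WtOK)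
open Vale.Agent.P159.H817 (Dec dec rfl2 SuppD sz gr nrm)
open Vale.Agent.P159.H276.Mf (ED memC3)
open Vale.Agent.P159.H663.Dr (kT)
open Vale.Agent.P159.H801 (Ev SFlow)
open Vale.Agent.P159.H972 (tn lg Par)
open Vale.Agent.P159.H859.Idl (s0 s0_pos Prm gsR_spec gsR)
open Vale.Agent.P159.H37.Sf (kf kE1 sf_big sf_win prm_of Win lb_tend)
open Vale.Agent.P159.H145.Sp (lC l0C DC T0 T1 MemP gC qF kapF scF)

noncomputable section

/-- **the class of decorations of the level `n`** -/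
def clsF (P : Par) (i : ℕ) (b ck c1 : ℝ) (y ε : ℕ → ℝ) (n : ℕ) : Dec :=
  DD i b (tn n) (y n ^ (9 / 8 : ℝ)) (l0C n (kf ck y n)) (n + kf ck y n) (kE1 P ck y ε n)
    (ED n (kf ck y n) (scF c1 y n) (4 ^ (kf ck y n / 16) * y n ^ (-(4 * c1))))

section flow

variable {P : Par} {b σ c c1 q2 qx : ℝ} {a y ε xs : ℕ → ℝ} {c' r q A : ℝ} {N : ℕ}

lemma kf_ge (h : SFlow P b σ c c1 q2 qx a y ε xs c' r q A N) {ck : ℝ} (hck : 0 < ck) (K : ℕ) :
    ∀ᶠ n in atTop, K ≤ kf ck y n := by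
  filter_upwards [(lb_tend h.fl.y0 h.fl.yt).eventually_ge_atTop ((K : ℝ) / ck)] with n g
  have h1 : (K : ℝ) ≤ ck * Real.logb 2 (1 / y n) := by
    rw [div_le_iff₀ hck] at g
    linarith
  have h2 : ck * Real.logb 2 (1 / y n) ≤ (kf ck y n : ℝ) := Nat.le_ceil _
  exact_mod_cast h1.trans h2

/-- the shifts are small -/
lemma gC_one (h : SFlow P b σ c c1 q2 qx a y ε xs c' r q A N) {ck : ℝ} (hck : 0 < ck) {i : ℕ}
    (hi : 6 ≤ i) : ∀ᶠ n in atTop, ∀ R, 2 ^ (n + kf ck y n) ≤ R → R ≤ 2 ^ kE1 P ck y ε n →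
      ∀ x, |gC i n (kE1 P ck y ε n) R x| ≤ 1 := by
  have hs0 := s0_pos
  obtain ⟨m, hm⟩ := exists_pow_lt_of_lt_one (show (0 : ℝ) < 1 / (328 * s0) by positivity)
    (show (1 / 2 : ℝ) < 1 by norm_num)
  filter_upwards [kf_ge h hck (max 32 (4 * m + 4))] with n g1 R hR1 hR2 x
  obtain ⟨k, hk⟩ : ∃ k, kf ck y n = k := ⟨_, rfl⟩
  rw [hk] at g1 hR1
  have hk32 : 32 ≤ k := (le_max_left _ _).trans g1
  have hkm : 4 * m + 4 ≤ k := (le_max_right _ _).trans g1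
  have H := prm_of (n := n) (k := k) (K1 := kE1 P ck y ε n) hi hk32 hR1 hR2
  have h1 := (gsR_spec H).le x
  have hR0 : R ≠ 0 := by
    have : 0 < 2 ^ (n + k) := by positivity
    omega
  have hRp : (0 : ℝ) < R := by
    have : 0 < R := by omega
    exact_mod_cast this
  have hj : n + k ≤ Nat.log 2 R := (Nat.le_log_iff_pow_le one_lt_two hR0).2 hR1
  obtain ⟨j, hj'⟩ : ∃ j, Nat.log 2 R = n + j := ⟨Nat.log 2 R - n, by omega⟩
  have hlogR : 2 ^ (n + j) ≤ R := by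
    rw [← hj']
    exact Nat.pow_log_le_self 2 hR0
  have e : Nat.log 2 R - n = j := by omega
  have h2 : ((2 ^ (n + 3 * (Nat.log 2 R - n) / 4) : ℕ) : ℝ) / R ≤ (1 / 2) ^ m := by
    rw [e, div_le_iff₀ hRp]
    have h3 : (2 : ℝ) ^ (n + j) ≤ R := by exact_mod_cast hlogR
    have h4 : (2 : ℝ) ^ (n + 3 * j / 4) * 2 ^ m ≤ 2 ^ (n + j) := by
      rw [← pow_add]
      exact pow_le_pow_right₀ one_lt_two.le (by omega)
    have h5 : (2 : ℝ) ^ (n + 3 * j / 4) = (1 / 2) ^ m * ((2 : ℝ) ^ (n + 3 * j / 4) * 2 ^ m) := by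
      rw [one_div, inv_pow]
      field_simp
    push_cast
    rw [h5]
    exact mul_le_mul_of_nonneg_left (h4.trans h3) (by positivity)
  calc |gC i n (kE1 P ck y ε n) R x| ≤ 328 * s0 *
        (((2 ^ (n + 3 * (Nat.log 2 R - n) / 4) : ℕ) : ℝ) / R) := h1
    _ ≤ 328 * s0 * (1 / 2) ^ m := mul_le_mul_of_nonneg_left h2 (by positivity)
    _ ≤ 328 * s0 * (1 / (328 * s0)) := mul_le_mul_of_nonneg_left hm.le (by positivity)
    _ = 1 := by field_simp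

end flow

/-- **THE FIELD `mem`**, every exponent `c3 < c1`, every factor `κ` -/
theorem mem_ev {b b1 b2 pf : ℝ} (hb1 : 0 < b1) (h1 : b1 ≤ b) (hpf : 0 < pf) (Q : ℕ) :
    Ev b1 b2 pf Q fun P c1 => 0 < c1 ∧ c1 ≤ P.th / 100 ∧
      ∀ {σ c q2 qx : ℝ} {a y ε xs : ℕ → ℝ} {c' r q A : ℝ} {N : ℕ},
      SFlow P b σ c c1 q2 qx a y ε xs c' r q A N → 0 < σ → σ ≤ 1 / 4 → 0 ≤ c → 4 * c ≤ σ →
      ∀ ck : ℝ, 0 < ck → 2 * P.th ≤ ck → ck ≤ P.thp → ∀ i : ℕ, 6 ≤ i →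
      ∀ c3 : ℝ, 0 < c3 → c3 < c1 → ∀ κ : ℝ,
      ∀ᶠ n in atTop, ∀ R, 2 ^ (n + kf ck y n) ≤ R → R ≤ 2 ^ kE1 P ck y ε n →
        MemP b i (tn n) (T0 (kapF ck y n) n (kf ck y n) (qF c1 y n) (DC n (kf ck y n)))
          (T1 (kapF ck y n) n (kf ck y n) (qF c1 y n) (DC n (kf ck y n))) R
          (gC i n (kE1 P ck y ε n) R) (clsF P i b ck c1 y ε n) (clsF P i b ck c1 y ε n)
          (Real.exp (-(κ * y n ^ (-c3)))) := by
  have hb : 0 < b := hb1.trans_le h1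
  refine (mem_flow (b2 := b2) hb1 h1 hpf Q).mono fun P c1 hA hT => ?_
  obtain ⟨hc0, hc1, H⟩ := hT
  refine ⟨hc0, hc1, ?_⟩
  intro σ c q2 qx a y ε xs c' r q A N h hσ0 hσ hc hc4 ck hck hck2 hck1 i hi c3 hc3 hc31 κ
  have hth1 : P.th ≤ 1 := by
    have h3 := hA.hx
    have h4 := hA.x11
    have h5 := P.thp0
    linarith
  refine H h hσ0 hσ hc hc4 ck hck hck2 hck1 i hi c3 hc3 hc31 (|κ| + 1) κ
    (by linarith [le_abs_self κ]) _ ?_
  filter_upwards [memC3 h hb hA hσ0.le hσ hck hck1 (p := c1) hc0 (by linarith) (M0 := |κ| + 1)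
      (by positivity) (i := i) (by omega),
    gC_one (P := P) h hck hi, sf_big h (p := c3) (M := 1) hc3 one_pos,
    eventually_ge_atTop N] with n g1 g2 g3 hn R hR1 hR2
  have hy := h.fl.y0 n
  have hy1 := h.y1 n hn
  have hk : 1 ≤ |κ| + 1 := by linarith [abs_nonneg κ]
  have h2 : y n ^ (-c3) ≤ y n ^ (-c1) :=
    Real.rpow_le_rpow_of_exponent_ge hy hy1 (by linarith)
  exact g1 ((|κ| + 1) * y n ^ (-c3)) (by nlinarith)
    (mul_le_mul_of_nonneg_left h2 (by linarith)) R hR1 hR2 (gC i n (kE1 P ck y ε n) R)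
    (g2 R hR1 hR2)

/-- **THE FIELD `mem`** in helper37's form `Win` -/
theorem mem_fin {b b1 b2 pf : ℝ} (hb1 : 0 < b1) (h1 : b1 ≤ b) (hpf : 0 < pf) (Q : ℕ) :
    Ev b1 b2 pf Q fun P c1 => 0 < c1 ∧ c1 ≤ P.th / 100 ∧
      ∀ {σ c q2 qx : ℝ} {a y ε xs : ℕ → ℝ} {c' r q A : ℝ} {N : ℕ},
      SFlow P b σ c c1 q2 qx a y ε xs c' r q A N → 0 < σ → σ ≤ 1 / 4 → 0 ≤ c → 4 * c ≤ σ →
      ∀ ck : ℝ, 0 < ck → 2 * P.th ≤ ck → ck ≤ P.thp → ∀ i : ℕ, 6 ≤ i →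
      ∀ c3 : ℝ, 0 < c3 → c3 < c1 → ∀ κ β C2 A0 : ℝ, ∀ Am : ℕ,
      Win P b β C2 A0 Am i ck a y ε fun n R =>
        MemP b i (tn n) (T0 (kapF ck y n) n (kf ck y n) (qF c1 y n) (DC n (kf ck y n)))
          (T1 (kapF ck y n) n (kf ck y n) (qF c1 y n) (DC n (kf ck y n))) R
          (gC i n (kE1 P ck y ε n) R) (clsF P i b ck c1 y ε n) (clsF P i b ck c1 y ε n)
          (Real.exp (-(κ * y n ^ (-c3)))) := by
  refine (mem_ev (b2 := b2) hb1 h1 hpf Q).mono fun P c1 _ hT => ?_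
  obtain ⟨hc0, hc1, H⟩ := hT
  refine ⟨hc0, hc1, ?_⟩
  intro σ c q2 qx a y ε xs c' r q A N h hσ0 hσ hc hc4 ck hck hck2 hck1 i hi c3 hc3 hc31 κ β C2 A0
    Am
  exact Win.of (H h hσ0 hσ hc hc4 ck hck hck2 hck1 i hi c3 hc3 hc31 κ)

end

end Vale.Agent.P159.H773
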