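import Vale.Agent.P159.H817.St4
import Vale.Agent.P159.H864.Cel0

/-!
P159 / helper773, module MEM2: Poincaré inequality with a fixed mean on the torus, energy of a cut.
-/

set_option linter.all false

namespace Vale.Agent.P159.H773

open Finset Matrix
open Vale.Agent.P159.TM.H764 (Q grd)
open Vale.Agent.P159.TM.Spec (V)
open Vale.Agent.P159.H817 (sz sz_add_le sz_sub_comm)

noncomputable section

variable {N : ℕ} [NeZero N]

/-- Jensen -/
lemma wt_sq' {ι : Type*} [Fintype ι] {w a : ι → ℝ} (h0 : ∀ i, 0 ≤ w i) (h1 : ∑ i, w i = 1) :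
    (∑ i, w i * a i) ^ 2 ≤ ∑ i, w i * a i ^ 2 := by
  obtain ⟨m, hm⟩ : ∃ m, m = ∑ i, w i * a i := ⟨_, rfl⟩
  have h2 : 0 ≤ ∑ i, w i * (a i - m) ^ 2 :=
    Finset.sum_nonneg fun i _ => mul_nonneg (h0 i) (sq_nonneg _)
  have h3 : ∑ i, w i * (a i - m) ^ 2 = ∑ i, w i * a i ^ 2 - 2 * m * ∑ i, w i * a i + m ^ 2 * ∑ i, w i := by
    rw [Finset.mul_sum, Finset.mul_sum, ← Finset.sum_sub_distrib, ← Finset.sum_add_distrib]
    exact Finset.sum_congr rfl fun i _ => by ring
  rw [h3, h1, ← hm] at h2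
  rw [← hm]
  nlinarith

/-- **Poincaré inequality with a fixed mean** -/
theorem poin_mean {g β : V N → ℝ} {c : V N} {L ρ : ℕ} {B M : ℝ} (b0 : ∀ y, 0 ≤ β y)
    (b1 : ∑ y, β y = 1) (bB : ∀ y, β y ≤ B) (bs : ∀ y, β y ≠ 0 → sz (y - c) ≤ ρ)
    (hM : ∀ z : V N, sz z ≤ L + ρ → Q g z ≤ M) :
    ∑ x ∈ univ.filter (fun x : V N => sz (x - c) ≤ L), (g x - ∑ y, β y * g y) ^ 2 ≤
      B * (4 * ((L + ρ : ℕ) + 1 : ℝ) ^ 2) * M := by
  classical
  have hB0 : 0 ≤ B := by
    by_contra hcon
    have h1 : ∑ y, β y ≤ ∑ y : V N, (0 : ℝ) := Finset.sum_le_sum fun y _ => by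
      have := bB y
      linarith
    rw [b1] at h1
    simp at h1
    linarith
  have hM0 : 0 ≤ M := (TM.H764.Q_nonneg g 0).trans (hM 0 (by rw [H817.sz_zero]; exact Nat.zero_le _))
  have h1 : ∀ x, (g x - ∑ y, β y * g y) ^ 2 ≤ ∑ y, β y * (g x - g y) ^ 2 := by
    intro x
    have e1 : g x - ∑ y, β y * g y = ∑ y, β y * (g x - g y) := by
      have : ∑ y, β y * (g x - g y) = (∑ y, β y) * g x - ∑ y, β y * g y := by
        rw [Finset.sum_mul, ← Finset.sum_sub_distrib]
        exact Finset.sum_congr rfl fun y _ => by ring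
      rw [this, b1, one_mul]
    rw [e1]
    exact wt_sq' b0 b1
  set S := univ.filter (fun x : V N => sz (x - c) ≤ L) with hS
  set Z := univ.filter (fun z : V N => sz z ≤ L + ρ) with hZ
  calc ∑ x ∈ S, (g x - ∑ y, β y * g y) ^ 2
      ≤ ∑ x ∈ S, ∑ y, β y * (g x - g y) ^ 2 := Finset.sum_le_sum fun x _ => h1 x
    _ = ∑ y, β y * ∑ x ∈ S, (g x - g y) ^ 2 := by
        rw [Finset.sum_comm]
        exact Finset.sum_congr rfl fun y _ => by rw [Finset.mul_sum]
    _ ≤ ∑ y, B * ∑ z ∈ Z, (g (y + z) - g y) ^ 2 := by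
        refine Finset.sum_le_sum fun y _ => ?_
        by_cases hy : β y = 0
        · rw [hy, zero_mul]
          exact mul_nonneg hB0 (Finset.sum_nonneg fun _ _ => sq_nonneg _)
        · refine mul_le_mul (bB y) ?_ (Finset.sum_nonneg fun _ _ => sq_nonneg _) hB0
          have h2 := bs y hy
          have h3 : ∑ x ∈ S, (g x - g y) ^ 2 =
              ∑ z ∈ S.image (fun x => x - y), (g (y + z) - g y) ^ 2 := by
            rw [Finset.sum_image (fun x _ x' _ h => sub_left_injective h)]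
            refine Finset.sum_congr rfl fun x _ => ?_
            rw [add_sub_cancel]
          rw [h3]
          refine Finset.sum_le_sum_of_subset_of_nonneg ?_ fun _ _ _ => sq_nonneg _
          intro z hz
          obtain ⟨x, hx, rfl⟩ := Finset.mem_image.1 hz
          rw [hZ, mem_filter]
          refine ⟨mem_univ _, ?_⟩
          rw [hS, mem_filter] at hx
          have e : x - y = (x - c) + (c - y) := by abel
          rw [e]
          refine (sz_add_le _ _).trans ?_
          rw [sz_sub_comm c y]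
          omega
    _ = B * ∑ z ∈ Z, Q g z := by
        rw [← Finset.mul_sum]
        congr 1
        rw [Finset.sum_comm]
        rfl
    _ ≤ B * (∑ z ∈ Z, M) := by
        refine mul_le_mul_of_nonneg_left (Finset.sum_le_sum fun z hz => ?_) hB0
        rw [hZ, mem_filter] at hz
        exact hM z hz.2
    _ = B * ((Z.card : ℝ) * M) := by rw [Finset.sum_const, nsmul_eq_mul]
    _ ≤ B * (4 * ((L + ρ : ℕ) + 1 : ℝ) ^ 2 * M) := by
        refine mul_le_mul_of_nonneg_left (mul_le_mul_of_nonneg_right ?_ hM0) hB0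
        exact H817.card_box (L + ρ)
    _ = _ := by ring

/-- energy of a cut field -/
lemma Q_cut {a g : V N → ℝ} {B : ℝ} {e : V N} (ha : ∀ x, |a x| ≤ 1)
    (hB : ∀ x, |a (x + e) - a x| ≤ B) {S : Finset (V N)} (hS : ∀ x, a (x + e) ≠ a x → x ∈ S) :
    Q (fun x => a x * g x) e ≤ 2 * Q g e + 2 * B ^ 2 * ∑ x ∈ S, g x ^ 2 := by
  classical
  unfold Q
  have h0 : ∑ x ∈ S, g x ^ 2 = ∑ x, if x ∈ S then g x ^ 2 else 0 := by
    rw [Finset.sum_ite_mem, Finset.univ_inter]
  rw [h0, Finset.mul_sum, Finset.mul_sum, ← Finset.sum_add_distrib]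
  refine Finset.sum_le_sum fun x _ => ?_
  have h4 : a (x + e) ^ 2 ≤ 1 := by
    rw [sq_le_one_iff_abs_le_one]
    exact ha _
  have h6 := mul_le_mul_of_nonneg_right h4 (sq_nonneg (g (x + e) - g x))
  have e2 : a (x + e) * g (x + e) - a x * g x =
      a (x + e) * (g (x + e) - g x) + (a (x + e) - a x) * g x := by ring
  rw [e2]
  have h7 : (a (x + e) - a x) ^ 2 * g x ^ 2 ≤ B ^ 2 * if x ∈ S then g x ^ 2 else 0 := by
    split_ifs with hx
    · refine mul_le_mul_of_nonneg_right ?_ (sq_nonneg _)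
      rw [← sq_abs]
      exact pow_le_pow_left₀ (abs_nonneg _) (hB x) 2
    · have : a (x + e) = a x := by
        by_contra hc
        exact hx (hS x hc)
      rw [this]
      simp
  nlinarith [sq_nonneg (a (x + e) * (g (x + e) - g x) - (a (x + e) - a x) * g x)]

end

end Vale.Agent.P159.H773
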