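import Vale.Agent.P159.H789.StF
import Vale.Agent.P159.H264.Cl5
import Vale.Agent.P159.H773.Mem2

/-!
P159 / helper773, module MEM3: the decoration map `∑ w_v cutM χ_v β_v T` as a site map: class `LM`
on the cells, norm, smoothness of the transpose.
-/

set_option linter.all false

namespace Vale.Agent.P159.H773

open Finset Matrix
open Vale.Agent.P159.TM.H764 (Q grd EE)
open Vale.Agent.P159.TM.Spec (V)
open Vale.Agent.P159.H864 (lapM cobV up cl TI sym)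
open Vale.Agent.P159.H37
open Vale.Agent.P159.H447
open Vale.Agent.P159.H789 (LM Kr Q_cob Q_cell sum_cobT Q_up_cell val_one_le up_eq1 up_eq2 disp_le)
open Vale.Agent.P159.H817 (sz sz_add_le sz_sub_comm)
open Vale.Agent.P159.H264.Gq (cutM cutM_mulVec TB TB_cutM Smo)

noncomputable section

variable {N l : ℕ} [NeZero N] [NeZero (N / l)]

/-! ### averages of maps -/

lemma LM_avg {M : ℕ} [NeZero M] {ι : Type*} [Fintype ι] {w : ι → ℝ} (w0 : ∀ i, 0 ≤ w i)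
    (w1 : ∑ i, w i = 1) {k : ℝ} {C : ι → Matrix (V M) (V M) ℝ} (hC : ∀ i, w i ≠ 0 → LM k (C i)) :
    LM k (∑ i, w i • C i) := by
  have e0 : ∀ f : V M → ℝ, ∀ x, ((∑ i, w i • C i) *ᵥ f) x = ∑ i, w i * (C i *ᵥ f) x := by
    intro f x
    rw [Matrix.sum_mulVec, Finset.sum_apply]
    exact Finset.sum_congr rfl fun i _ => by rw [smul_mulVec, Pi.smul_apply, smul_eq_mul]
  refine ⟨fun f => ?_, fun f => ?_⟩
  · simp only [e0]
    calc ∑ x, (∑ i, w i * (C i *ᵥ f) x) ^ 2 ≤ ∑ x, ∑ i, w i * (C i *ᵥ f) x ^ 2 :=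
          Finset.sum_le_sum fun x _ => wt_sq' w0 w1
      _ = ∑ i, w i * ∑ x, (C i *ᵥ f) x ^ 2 := by
          rw [Finset.sum_comm]
          exact Finset.sum_congr rfl fun i _ => by rw [Finset.mul_sum]
      _ ≤ ∑ i, w i * (k * ∑ x, f x ^ 2) := by
          refine Finset.sum_le_sum fun i _ => ?_
          by_cases h : w i = 0
          · rw [h, zero_mul, zero_mul]
          · exact mul_le_mul_of_nonneg_left ((hC i h).op f) (w0 i)
      _ = k * ∑ x, f x ^ 2 := by rw [← Finset.sum_mul, w1, one_mul]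
  · have hQ : ∀ d : V M, Q ((∑ i, w i • C i) *ᵥ f) d ≤ ∑ i, w i * Q (C i *ᵥ f) d := by
      intro d
      unfold Q
      calc ∑ x, (((∑ i, w i • C i) *ᵥ f) (x + d) - ((∑ i, w i • C i) *ᵥ f) x) ^ 2
          = ∑ x, (∑ i, w i * ((C i *ᵥ f) (x + d) - (C i *ᵥ f) x)) ^ 2 := by
            refine Finset.sum_congr rfl fun x _ => ?_
            rw [e0, e0, ← Finset.sum_sub_distrib]
            congr 1
            exact Finset.sum_congr rfl fun i _ => by ring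
        _ ≤ ∑ x, ∑ i, w i * ((C i *ᵥ f) (x + d) - (C i *ᵥ f) x) ^ 2 :=
          Finset.sum_le_sum fun x _ => wt_sq' w0 w1
        _ = _ := by
          rw [Finset.sum_comm]
          exact Finset.sum_congr rfl fun i _ => by rw [Finset.mul_sum]
    rw [H864.qf_lapM]
    unfold grd
    calc Q ((∑ i, w i • C i) *ᵥ f) (1, 0) + Q ((∑ i, w i • C i) *ᵥ f) (0, 1)
        ≤ ∑ i, w i * Q (C i *ᵥ f) (1, 0) + ∑ i, w i * Q (C i *ᵥ f) (0, 1) :=
          add_le_add (hQ _) (hQ _)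
      _ = ∑ i, w i * qf lapM (C i *ᵥ f) := by
          rw [← Finset.sum_add_distrib]
          refine Finset.sum_congr rfl fun i _ => ?_
          rw [H864.qf_lapM]
          unfold grd
          ring
      _ ≤ ∑ i, w i * (k * qf lapM f) := by
          refine Finset.sum_le_sum fun i _ => ?_
          by_cases h : w i = 0
          · rw [h, zero_mul, zero_mul]
          · exact mul_le_mul_of_nonneg_left ((hC i h).en f) (w0 i)
      _ = k * qf lapM f := by rw [← Finset.sum_mul, w1, one_mul]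

/-! ### one cut -/

lemma Smo.kr {q : ℕ} {T : Matrix (V N) (V N) ℝ} (h : Smo N q T) : Kr q T := by
  refine Kr.of_ti h.ti h.nn (h.row 0) fun z hz => ?_
  have h1 := h.rng 0 z hz
  rw [sz_sub_comm, sub_zero] at h1
  exact h1.le

lemma sz_up1 : sz (up ((1, 0) : V (N / l)) : V N) ≤ l := by
  rw [up_eq1]
  refine (H817.sz_nsmul (e := ((1, 0) : V N)) (Or.inl rfl) _).trans ?_
  exact (Nat.mul_le_mul_left l val_one_le).trans (by rw [mul_one])

lemma sz_up2 : sz (up ((0, 1) : V (N / l)) : V N) ≤ l := by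
  rw [up_eq2]
  refine (H817.sz_nsmul (e := ((0, 1) : V N)) (Or.inr rfl) _).trans ?_
  exact (Nat.mul_le_mul_left l val_one_le).trans (by rw [mul_one])

lemma Q_sub_const (g : V N → ℝ) (m : ℝ) (e : V N) : Q (fun x => g x - m) e = Q g e := by
  unfold Q
  exact Finset.sum_congr rfl fun x _ => by ring

section one

variable {q L ρ : ℕ} {T : Matrix (V N) (V N) ℝ} {a β : V N → ℝ} {c : V N} {A B k : ℝ}

lemma sum_sq_supp (ha : ∀ x, |a x| ≤ 1) (has : ∀ x, a x ≠ 0 → sz (x - c) ≤ L) :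
    ∑ x, a x ^ 2 ≤ 4 * ((L : ℝ) + 1) ^ 2 := by
  classical
  have h1 : ∑ x, a x ^ 2 ≤ ∑ x, if sz (x - c) ≤ L then (1 : ℝ) else 0 := by
    refine Finset.sum_le_sum fun x _ => ?_
    split_ifs with h
    · rw [sq_le_one_iff_abs_le_one]
      exact ha x
    · have : a x = 0 := by
        by_contra hc
        exact h (has x hc)
      rw [this]
      simp
  refine h1.trans ?_
  have e : ∑ x : V N, (if sz (x - c) ≤ L then (1 : ℝ) else 0) =
      ∑ x : V N, if sz x ≤ L then (1 : ℝ) else 0 :=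
    Equiv.sum_comp (Equiv.subRight c) fun x => if sz x ≤ L then (1 : ℝ) else 0
  rw [e, Finset.sum_boole]
  exact H817.card_box L

lemma sum_sq_wt {β : V N → ℝ} (b0 : ∀ y, 0 ≤ β y) (b1 : ∑ y, β y = 1) (bB : ∀ y, β y ≤ B) :
    ∑ y, β y ^ 2 ≤ B := by
  calc ∑ y, β y ^ 2 ≤ ∑ y, B * β y := by
        refine Finset.sum_le_sum fun y _ => ?_
        rw [pow_two]
        exact mul_le_mul_of_nonneg_right (bB y) (b0 y)
    _ = B := by rw [← Finset.mul_sum, b1, mul_one]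

lemma B_nonneg {β : V N → ℝ} (b1 : ∑ y, β y = 1) (bB : ∀ y, β y ≤ B) : 0 ≤ B := by
  by_contra hcon
  have h1 : ∑ y, β y ≤ ∑ y : V N, (0 : ℝ) := Finset.sum_le_sum fun y _ => by
    have := bB y
    linarith
  rw [b1] at h1
  simp at h1
  linarith

/-- the norm of one cut -/
lemma cut_op (hT : ∀ f : V N → ℝ, ∑ x, (T *ᵥ f) x ^ 2 ≤ ∑ x, f x ^ 2) (ha : ∀ x, |a x| ≤ 1)
    (has : ∀ x, a x ≠ 0 → sz (x - c) ≤ L) (b0 : ∀ y, 0 ≤ β y) (b1 : ∑ y, β y = 1)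
    (bB : ∀ y, β y ≤ B) (f : V N → ℝ) :
    ∑ x, ((cutM a β * T) *ᵥ f) x ^ 2 ≤ (2 + 2 * (4 * ((L : ℝ) + 1) ^ 2 * B)) * ∑ x, f x ^ 2 := by
  have hB := B_nonneg b1 bB
  have h1 := TB_cutM ha (sum_sq_supp ha has) (sum_sq_wt b0 b1 bB) (T *ᵥ f)
  rw [Real.sq_sqrt (by positivity)] at h1
  rw [← mulVec_mulVec]
  refine h1.trans ?_
  exact mul_le_mul_of_nonneg_left (hT f) (by positivity)

/-- **one cut with a fixed mean, seen from the cells** -/
theorem cut_LM (hl : l ∣ N) (hT : Kr q T) (ha : ∀ x, |a x| ≤ 1)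
    (has : ∀ x, a x ≠ 0 → sz (x - c) ≤ L) (hA1 : ∀ x, |a (x + (1, 0)) - a x| ≤ A)
    (hA2 : ∀ x, |a (x + (0, 1)) - a x| ≤ A) (b0 : ∀ y, 0 ≤ β y) (b1 : ∑ y, β y = 1)
    (bB : ∀ y, β y ≤ B) (bs : ∀ y, β y ≠ 0 → sz (y - c) ≤ ρ)
    (hk1 : 2 + 2 * (4 * ((L : ℝ) + 1) ^ 2 * B) ≤ k)
    (hk2 : 2 + 4 * (l * A) ^ 2 * (B * (4 * ((L + l + ρ : ℕ) + 1 : ℝ) ^ 2) *
      (8 * (((L + l + ρ : ℕ) : ℝ) / l + 3) ^ 2)) ≤ k) :
    LM k (cobV N l * (cutM a β * T) * (cobV N l)ᵀ) := by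
  classical
  have hl0 : (0 : ℝ) < l := by exact_mod_cast H864.l_pos hl
  have hA0 : 0 ≤ A := (abs_nonneg _).trans (hA1 0)
  have hB := B_nonneg b1 bB
  have e0 : ∀ f : V (N / l) → ℝ,
      (cobV N l * (cutM a β * T) * (cobV N l)ᵀ) *ᵥ f =
      cobV N l *ᵥ ((cutM a β * T) *ᵥ ((cobV N l)ᵀ *ᵥ f)) := by
    intro f
    rw [← mulVec_mulVec, ← mulVec_mulVec]
  refine ⟨fun f => ?_, fun f => ?_⟩
  · rw [e0]
    obtain ⟨u, hu⟩ : ∃ u, u = (cobV N l)ᵀ *ᵥ f := ⟨_, rfl⟩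
    have h1 : ∑ c, (cobV N l *ᵥ ((cutM a β * T) *ᵥ u)) c ^ 2 ≤
        ∑ x, ((cutM a β * T) *ᵥ u) x ^ 2 := by
      rw [← H864.qf_cellP hl]
      exact H864.qf_cellP_le hl _
    have h2 := cut_op (T := T) hT.cn ha has b0 b1 bB u
    have h3 := sum_cobT hl f
    rw [← hu] at h3 ⊢
    rw [h3] at h2
    refine (h1.trans h2).trans ?_
    exact mul_le_mul_of_nonneg_right hk1 (Finset.sum_nonneg fun _ _ => sq_nonneg _)
  · rw [e0]
    obtain ⟨u, hu⟩ : ∃ u, u = (cobV N l)ᵀ *ᵥ f := ⟨_, rfl⟩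
    rw [← hu]
    obtain ⟨g, hg⟩ : ∃ g : V N → ℝ, g = fun x => (T *ᵥ u) x - ∑ y, β y * (T *ᵥ u) y := ⟨_, rfl⟩
    have e1 : (cutM a β * T) *ᵥ u = fun x => a x * g x := by
      funext x
      rw [← mulVec_mulVec, cutM_mulVec, hg]
    rw [e1]
    obtain ⟨M, hM⟩ : ∃ M, M = 8 * (((L + l + ρ : ℕ) : ℝ) / l + 3) ^ 2 * grd f := ⟨_, rfl⟩
    have hf0 := H859.grd_nonneg f
    have hQT : ∀ z, sz z ≤ L + l + ρ → Q (T *ᵥ u) z ≤ M := fun z hz => by
      refine (hT.disp u z).trans ?_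
      rw [hu, hM]
      exact Q_cell hl f hz
    set S := univ.filter (fun x : V N => sz (x - c) ≤ L + l) with hS
    have hP : ∑ x ∈ S, g x ^ 2 ≤ B * (4 * ((L + l + ρ : ℕ) + 1 : ℝ) ^ 2) * M := by
      rw [hg]
      exact poin_mean b0 b1 bB bs hQT
    have hSd : ∀ d : V N, sz d ≤ l → ∀ x, a (x + d) ≠ a x → x ∈ S := by
      intro d hd x hx
      rw [hS, mem_filter]
      refine ⟨mem_univ _, ?_⟩
      by_cases h0 : a x = 0
      · have h1 : a (x + d) ≠ 0 := fun h => hx (by rw [h, h0])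
        have h2 := has _ h1
        have e : x - c = (x + d - c) + -d := by abel
        rw [e]
        refine (sz_add_le _ _).trans ?_
        rw [H817.sz_neg]
        omega
      · have := has _ h0
        omega
    have hv := val_one_le (n := N / l)
    have hm : ((l * (1 : ZMod (N / l)).val : ℕ) : ℝ) * A ≤ l * A := by
      refine mul_le_mul_of_nonneg_right ?_ hA0
      exact_mod_cast (Nat.mul_le_mul_left l hv).trans (by rw [mul_one])
    have d1 : ∀ x, |a (x + up ((1, 0) : V (N / l))) - a x| ≤ l * A := fun x => by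
      rw [up_eq1]
      exact (disp_le hA1 _ x).trans hm
    have d2 : ∀ x, |a (x + up ((0, 1) : V (N / l))) - a x| ≤ l * A := fun x => by
      rw [up_eq2]
      exact (disp_le hA2 _ x).trans hm
    have q1 := (Q_cob hl (fun x => a x * g x) ((1, 0) : V (N / l))).trans
      (Q_cut ha d1 (hSd _ sz_up1))
    have q2 := (Q_cob hl (fun x => a x * g x) ((0, 1) : V (N / l))).trans
      (Q_cut ha d2 (hSd _ sz_up2))
    have hQg : ∀ d : V (N / l), Q g (up d) ≤ Q f d := by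
      intro d
      rw [hg, Q_sub_const]
      refine (hT.disp u _).trans ?_
      rw [hu]
      exact (Q_up_cell hl f d).le
    have q3 := hQg (1, 0)
    have q4 := hQg (0, 1)
    rw [H864.qf_lapM, H864.qf_lapM]
    have q5 : grd (cobV N l *ᵥ fun x => a x * g x) ≤ 2 * grd f + 4 * (l * A) ^ 2 *
        (B * (4 * ((L + l + ρ : ℕ) + 1 : ℝ) ^ 2) * M) := by
      have h7 : 2 * (l * A) ^ 2 * ∑ x ∈ S, g x ^ 2 ≤
          2 * (l * A) ^ 2 * (B * (4 * ((L + l + ρ : ℕ) + 1 : ℝ) ^ 2) * M) :=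
        mul_le_mul_of_nonneg_left hP (by positivity)
      unfold grd
      linarith
    refine q5.trans ?_
    rw [hM]
    have h8 := mul_le_mul_of_nonneg_right hk2 hf0
    refine le_trans (le_of_eq ?_) h8
    ring

end one

/-! ### the transpose -/

/-- the transpose has the same norm -/
lemma opT' {k : ℝ} (hk : 0 ≤ k) {C : Matrix (V N) (V N) ℝ}
    (h : ∀ f : V N → ℝ, ∑ x, (C *ᵥ f) x ^ 2 ≤ k * ∑ x, f x ^ 2) (v : V N → ℝ) :
    ∑ x, (Cᵀ *ᵥ v) x ^ 2 ≤ k * ∑ x, v x ^ 2 := by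
  obtain ⟨u, hu⟩ : ∃ u, u = Cᵀ *ᵥ v := ⟨_, rfl⟩
  rw [← hu]
  obtain ⟨x, hx⟩ : ∃ x : ℝ, x = ∑ i, u i ^ 2 := ⟨_, rfl⟩
  obtain ⟨y, hy⟩ : ∃ y : ℝ, y = ∑ i, v i ^ 2 := ⟨_, rfl⟩
  have e1 : x = v ⬝ᵥ (C *ᵥ u) := by
    have e : u ⬝ᵥ u = v ⬝ᵥ (C *ᵥ u) := by
      nth_rw 1 [hu]
      rw [Matrix.mulVec_transpose, ← Matrix.dotProduct_mulVec]
    rw [← e, hx]
    unfold dotProduct
    exact Finset.sum_congr rfl fun i _ => by ring
  have h1 := h u
  rw [← hx] at h1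
  have h2 : 0 ≤ ∑ i, ((C *ᵥ u) i - k * v i) ^ 2 := Finset.sum_nonneg fun i _ => sq_nonneg _
  have h3 : ∑ i, ((C *ᵥ u) i - k * v i) ^ 2 =
      ∑ i, (C *ᵥ u) i ^ 2 - 2 * k * (v ⬝ᵥ (C *ᵥ u)) + k ^ 2 * ∑ i, v i ^ 2 := by
    unfold dotProduct
    rw [Finset.mul_sum, Finset.mul_sum, ← Finset.sum_sub_distrib, ← Finset.sum_add_distrib]
    exact Finset.sum_congr rfl fun i _ => by ring
  rw [h3, ← e1, ← hy] at h2
  rw [← hx, ← hy]
  rcases hk.eq_or_lt with h0 | h0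
  · rw [← h0] at h1 ⊢
    have h4 : ∑ i, (C *ᵥ u) i ^ 2 = 0 :=
      le_antisymm (by linarith) (Finset.sum_nonneg fun i _ => sq_nonneg _)
    have h5 : C *ᵥ u = 0 := by
      funext i
      have := (Finset.sum_eq_zero_iff_of_nonneg (fun i _ => sq_nonneg ((C *ᵥ u) i))).1 h4 i
        (Finset.mem_univ i)
      simpa using this
    rw [h5, dotProduct_zero] at e1
    rw [e1]
    simp
  · have h5 : k * x ≤ k * (k * y) := by nlinarith
    exact le_of_mul_le_mul_left h5 h0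

/-- the energy of a smoothed field -/
lemma Smo.enT {q : ℕ} {T : Matrix (V N) (V N) ℝ} (h : Smo N q T) (hq : 0 < q) (u : V N → ℝ) :
    qf lapM (T *ᵥ u) ≤ 8 / (q : ℝ) ^ 2 * ∑ x, u x ^ 2 := by
  have hq0 : (0 : ℝ) < q := by exact_mod_cast hq
  have hl : TI (lapM : Matrix (V N) (V N) ℝ) := H864.ti_lapM
  have h1 : qf lapM (T *ᵥ u) = qf (T * lapM * T) u := by
    have e2 := H883.qf_QB (lapM : Matrix (V N) (V N) ℝ) T u
    unfold H883.QB at e2
    rw [h.ti.transpose] at e2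
    exact e2.symm
  have h2 : ∑ x, u x ^ 2 = qf (1 : Matrix (V N) (V N) ℝ) u := (H340.qf_one u).symm
  rw [h1, h2, ← H864.qf_smul_mat]
  refine (H864.qf_le_iff ((h.ti.mul hl).mul h.ti) (TI.one.smul _)).2 (fun k => ?_) u
  rw [H864.sym_mul (h.ti.mul hl) h.ti, H864.sym_mul h.ti hl, H864.sym_smul, H864.sym_one,
    H864.sym_lapM, mul_one]
  have h3 := h.sy k
  have h4 := h.sq k
  have h5 : 0 ≤ EE k := H340.EE_nonneg k
  have h6 : (sym T k ^ 2 * ((q : ℝ) ^ 2 * EE k)) ^ 2 ≤ 8 ^ 2 := by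
    have h7 : sym T k ^ 2 * (sym T k ^ 2 * ((q : ℝ) ^ 2 * EE k) ^ 2) ≤ 1 * 64 :=
      mul_le_mul h3 h4 (by positivity) zero_le_one
    nlinarith
  have h8 : sym T k ^ 2 * ((q : ℝ) ^ 2 * EE k) ≤ 8 :=
    abs_le_of_sq_le_sq' h6 (by norm_num) |>.2
  rw [le_div_iff₀ (by positivity)]
  nlinarith

/-- **smoothness of the transpose** -/
theorem cell_smooth (hl : l ∣ N) {q : ℕ} {T : Matrix (V N) (V N) ℝ} (h : Smo N q T) (hq : 0 < q)
    {k : ℝ} (hk : 0 ≤ k) {E : Matrix (V N) (V N) ℝ}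
    (hE : ∀ f : V N → ℝ, ∑ x, (E *ᵥ f) x ^ 2 ≤ k * ∑ x, f x ^ 2) (v : V N → ℝ) :
    ∑ x, (((1 - cellP N l) * (E * T)ᵀ) *ᵥ v) x ^ 2 ≤
      128 * k * ((l : ℝ) / q) ^ 2 * ∑ x, v x ^ 2 := by
  have hq0 : (0 : ℝ) < q := by exact_mod_cast hq
  rw [Matrix.transpose_mul, h.ti.transpose]
  obtain ⟨u, hu⟩ : ∃ u, u = T *ᵥ (Eᵀ *ᵥ v) := ⟨_, rfl⟩
  have e1 : ((1 - cellP N l) * (T * Eᵀ)) *ᵥ v = fun x => u x - (cellP N l *ᵥ u) x := by
    rw [← mulVec_mulVec, ← mulVec_mulVec, ← hu, sub_mulVec, one_mulVec]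
    rfl
  rw [e1]
  have h1 := H859.poin_cellP hl u
  rw [← H864.qf_lapM, hu] at h1
  have h2 := Smo.enT h hq (Eᵀ *ᵥ v)
  have h3 := opT' hk hE v
  have h4 : 16 * (l : ℝ) ^ 2 * qf lapM (T *ᵥ (Eᵀ *ᵥ v)) ≤
      16 * (l : ℝ) ^ 2 * (8 / (q : ℝ) ^ 2 * (k * ∑ x, v x ^ 2)) := by
    refine mul_le_mul_of_nonneg_left (h2.trans ?_) (by positivity)
    exact mul_le_mul_of_nonneg_left h3 (by positivity)
  rw [← hu] at h1 h4
  refine (h1.trans h4).trans (le_of_eq ?_)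
  rw [div_pow]
  ring

end

end Vale.Agent.P159.H773
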