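import Vale.Agent.P159.H375.AclE

/-!
P159 / helper773, module MEM4: `l² PinC ≤ 9 EE` below the mass of the cells, from the flat profile.
-/

set_option linter.all false

namespace Vale.Agent.P159.H773

open Finset Matrix
open Vale.Agent.P159.TM.H764 (EE)
open Vale.Agent.P159.TM.Spec (V)
open Vale.Agent.P159.H864 (cen rd sym)
open Vale.Agent.P159.H963 (Pin PinC)
open Vale.Agent.P159.H972 (FL)
open Vale.Agent.P159.H375 (FU lap_cen EE_ge_min PinC_up FU_of_FL)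

noncomputable section

variable {N l : ℕ} [NeZero N] [NeZero (N / l)] {b t : ℝ}

/-- **the cell form of the neutral self energy below the mass of the cells** -/
theorem pinC_top (hb : 0 < b) (hl : l ∣ N) (ht : 0 < t) {a η : ℝ} (ha1 : 1 ≤ a) (ha2 : a ≤ 2)
    (hη : η ≤ 1) (hν : t * (l : ℝ) ^ 2 ≤ 1 / 4) (hF : FL b t a η N) (k : V (N / l)) (hk : k ≠ 0)
    (hE : EE k ≤ t * (l : ℝ) ^ 2) : (l : ℝ) ^ 2 * PinC N l b t t k ≤ 9 * EE k := by
  have hη0 : 0 ≤ η := by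
    obtain ⟨z, a1, _, _, ha, _⟩ := hF
    exact (abs_nonneg _).trans ha
  obtain ⟨z, a1, hz0, hz1, ha, hP⟩ := FU_of_FL (N := N) hb ht le_rfl hF
  have hlp : (0 : ℝ) < l := by exact_mod_cast H864.l_pos hl
  have hN : (0 : ℝ) < N := by exact_mod_cast NeZero.pos N
  obtain ⟨ν, hνd⟩ : ∃ ν, ν = t * (l : ℝ) ^ 2 := ⟨_, rfl⟩
  rw [← hνd] at hν hE
  have hν0 : 0 < ν := by rw [hνd]; positivity
  have hE0 := TM.H764.EE_nonneg k
  obtain ⟨p, hp, hpk⟩ := H864.exists_cen (N := N) hl k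
  have hp0 : p ≠ 0 := by
    rintro rfl
    exact hk (by rw [← hpk, H864.rd_zero hl])
  have hEp := TM.H764.EE_nonneg p
  have hlap := lap_cen (N := N) hl hp (by rw [hpk]; linarith)
  rw [hpk] at hlap
  obtain ⟨x, hxd⟩ : ∃ x : ℝ, x = (l : ℝ) ^ 2 * EE p := ⟨_, rfl⟩
  rw [← hxd] at hlap
  have hx0 : 0 ≤ x := by rw [hxd]; positivity
  have hx1 : x ≤ 9 / 8 * EE k := by nlinarith
  have hx2 : x ≤ 9 / 8 * ν := by linarith
  have hup := PinC_up (N := N) hb hl ht hp hp0 (by rw [← hxd]; linarith)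
  rw [← hxd, hpk] at hup
  have hPp' := hP p hp0
  have hmin := EE_ge_min (N := N) hp0
  have hzz : (l : ℝ) ^ 2 * z ≤ η / 16 * x := by
    have h1 : z ≤ η / (N : ℝ) ^ 2 := by
      rw [le_div_iff₀ (by positivity)]
      exact hz1
    have h2 : η / (N : ℝ) ^ 2 ≤ η / 16 * EE p := by
      have h3 := mul_le_mul_of_nonneg_left hmin (show 0 ≤ η / 16 by positivity)
      refine le_trans (le_of_eq ?_) h3
      field_simp
    have h4 := mul_le_mul_of_nonneg_left (h1.trans h2) (sq_nonneg (l : ℝ))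
    refine h4.trans (le_of_eq ?_)
    rw [hxd]
    ring
  have hquad : (l : ℝ) ^ 2 * (η * EE p ^ 2 / t) ≤ 9 / 8 * η * x := by
    have e1 : (l : ℝ) ^ 2 * (η * EE p ^ 2 / t) = η * x * (x / ν) := by
      rw [hxd, hνd]
      field_simp
    rw [e1]
    have h1 : x / ν ≤ 9 / 8 := by
      rw [div_le_iff₀ hν0]
      exact hx2
    have h2 := mul_le_mul_of_nonneg_left h1 (show 0 ≤ η * x by positivity)
    linarith
  have hPin : (l : ℝ) ^ 2 * Pin N b t p ≤ x * (a + 9 / 4 * η) := by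
    have h1 : Pin N b t p ≤ z + a1 * EE p + η * EE p ^ 2 / t := hPp'
    have h2 := mul_le_mul_of_nonneg_left h1 (sq_nonneg (l : ℝ))
    have e1 : (l : ℝ) ^ 2 * (z + a1 * EE p + η * EE p ^ 2 / t) =
        (l : ℝ) ^ 2 * z + a1 * x + (l : ℝ) ^ 2 * (η * EE p ^ 2 / t) := by
      rw [hxd]
      ring
    rw [e1] at h2
    have h3 : a1 * x ≤ (a + η) * x := mul_le_mul_of_nonneg_right (by linarith) hx0
    nlinarith
  have hPin0 := H963.Pin_nonneg (N := N) hb ht hp0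
  obtain ⟨Y, hY⟩ : ∃ Y, Y = (l : ℝ) ^ 2 * Pin N b t p := ⟨_, rfl⟩
  rw [← hY] at hPin
  have hY0 : 0 ≤ Y := by rw [hY]; positivity
  have hY1 : Y ≤ x * (17 / 4) := hPin.trans (mul_le_mul_of_nonneg_left (by linarith) hx0)
  have hup2 : (l : ℝ) ^ 2 * PinC N l b t t k ≤ Y + 2 * x * (ν + Y) := by
    have h1 : PinC N l b t t k ≤ Pin N b t p + 2 * x * (t + Pin N b t p) := by nlinarith
    have h2 := mul_le_mul_of_nonneg_left h1 (sq_nonneg (l : ℝ))
    refine h2.trans (le_of_eq ?_)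
    rw [hνd, hY]
    ring
  have hx3 : x ≤ 9 / 32 := by linarith
  have h5 : ν + Y ≤ 1 / 4 + 9 / 32 * (17 / 4) := by nlinarith
  have h6 : 2 * x * (ν + Y) ≤ 2 * x * (1 / 4 + 9 / 32 * (17 / 4)) :=
    mul_le_mul_of_nonneg_left h5 (by linarith)
  have h7 : Y + 2 * x * (ν + Y) ≤ x * 8 := by nlinarith
  linarith

end

end Vale.Agent.P159.H773
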