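import Vale.Agent.P159.H773.Mem3
import Vale.Agent.P159.H191.Ct4

/-!
P159 / helper773, module MEM5: the decoration map of one core with fixed (smeared) mean: constants.
-/

set_option linter.all false

namespace Vale.Agent.P159.H773

open Finset Matrix
open Vale.Agent.P159.TM.H764 (Q grd EE)
open Vale.Agent.P159.TM.Spec (V)
open Vale.Agent.P159.H864 (lapM cobV up cl TI sym)
open Vale.Agent.P159.H37
open Vale.Agent.P159.H447
open Vale.Agent.P159.H789 (LM Kr)
open Vale.Agent.P159.H817 (sz sz_add_le sz_sub_comm)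
open Vale.Agent.P159.H264.Gq (cutM cutM_mulVec TB TB_cutM Smo)
open Vale.Agent.P159.H191 (chi mn Wts)

noncomputable section

variable {N : ℕ} [NeZero N]

/-- the map `H ↦ ∑ w v (chi (· - v - p) (H - m_(p + v) H))` -/
def Em (l : ℕ) (μ w : V N → ℝ) (p : V N) : Matrix (V N) (V N) ℝ :=
  ∑ v, w v • cutM (fun x => chi l (x - v - p)) (fun y => μ (y - (p + v)))

/-- the decoration map -/
def Dm (l : ℕ) (μ w : V N → ℝ) (p : V N) (T : Matrix (V N) (V N) ℝ) : Matrix (V N) (V N) ℝ :=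
  ∑ v, w v • (cutM (fun x => chi l (x - v - p)) (fun y => μ (y - (p + v))) * T)

lemma Dm_eq (l : ℕ) (μ w : V N → ℝ) (p : V N) (T : Matrix (V N) (V N) ℝ) :
    Dm l μ w p T = Em l μ w p * T := by
  unfold Dm Em
  rw [Finset.sum_mul]
  exact Finset.sum_congr rfl fun v _ => by rw [Matrix.smul_mul]

lemma Em_mulVec (l : ℕ) (μ w : V N → ℝ) (p : V N) (H : V N → ℝ) (x : V N) :
    (Em l μ w p *ᵥ H) x = ∑ v, w v * (chi l (x - v - p) * (H x - mn μ (p + v) H)) := by
  unfold Em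
  rw [Matrix.sum_mulVec, Finset.sum_apply]
  refine Finset.sum_congr rfl fun v _ => ?_
  rw [smul_mulVec, Pi.smul_apply, smul_eq_mul, cutM_mulVec]
  rfl

lemma Dm_mulVec (l : ℕ) (μ w : V N → ℝ) (p : V N) (T : Matrix (V N) (V N) ℝ) (F : V N → ℝ)
    (x : V N) : (Dm l μ w p T *ᵥ F) x =
      ∑ v, w v * (chi l (x - v - p) * ((T *ᵥ F) x - mn μ (p + v) (T *ᵥ F))) := by
  rw [Dm_eq, ← mulVec_mulVec, Em_mulVec]

/-- the mean profile -/
structure Mpr (l : ℕ) (μ : V N → ℝ) : Prop where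
  nn : ∀ y, 0 ≤ μ y
  one : ∑ y, μ y = 1
  sup : ∀ y, μ y ≤ 16 / (l : ℝ) ^ 2
  rng : ∀ y, μ y ≠ 0 → sz y ≤ l

section

variable {l : ℕ} {μ w : V N → ℝ} {p : V N} {s : ℕ}

lemma Mpr.one' (h : Mpr l μ) (c : V N) : ∑ y, μ (y - c) = 1 := by
  rw [← h.one]
  exact Equiv.sum_comp (Equiv.subRight c) μ

lemma chi_abs (l : ℕ) (x : V N) : |chi l x| ≤ 1 := H817.abs_U _ _ _

lemma chi_supp (hl : 0 < l) {x : V N} (h : chi l x ≠ 0) : sz x ≤ 20 * l := by
  by_contra hc
  exact h (H817.U_zero (by omega))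

lemma chi_lip1 (hl : 0 < l) (c x : V N) :
    |chi l (x + (1, 0) - c) - chi l (x - c)| ≤ 1 / (2 * l) := by
  have h1 := H817.U_GB (N := N) (18 * l) (l := 2 * l) (by omega) (x - c, false)
  rw [H817.gr_eq] at h1
  have e : x + (1, 0) - c = x - c + H817.eb false := by
    have : (H817.eb false : V N) = (1, 0) := rfl
    rw [this]
    abel
  rw [e]
  push_cast at h1
  exact h1

lemma chi_lip2 (hl : 0 < l) (c x : V N) :
    |chi l (x + (0, 1) - c) - chi l (x - c)| ≤ 1 / (2 * l) := by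
  have h1 := H817.U_GB (N := N) (18 * l) (l := 2 * l) (by omega) (x - c, true)
  rw [H817.gr_eq] at h1
  have e : x + (0, 1) - c = x - c + H817.eb true := by
    have : (H817.eb true : V N) = (0, 1) := rfl
    rw [this]
    abel
  rw [e]
  push_cast at h1
  exact h1

/-- the norm of the map -/
lemma Em_op (hl : 0 < l) (hμ : Mpr l μ) (hw : Wts w s) (f : V N → ℝ) :
    ∑ x, (Em l μ w p *ᵥ f) x ^ 2 ≤ 60000 * ∑ x, f x ^ 2 := by
  have hl1 : (1 : ℝ) ≤ l := by exact_mod_cast hl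
  have hl0 : (0 : ℝ) < l := by linarith
  have h0 : ∀ v : V N, ∀ f : V N → ℝ, ∑ x, (cutM (fun x => chi l (x - v - p))
      (fun y => μ (y - (p + v))) *ᵥ f) x ^ 2 ≤ 60000 * ∑ x, f x ^ 2 := by
    intro v f
    have h1 := cut_op (T := (1 : Matrix (V N) (V N) ℝ)) (c := p + v) (L := 20 * l)
      (a := fun x => chi l (x - v - p)) (β := fun y => μ (y - (p + v))) (B := 16 / (l : ℝ) ^ 2)
      (fun f => by rw [one_mulVec]) (fun x => chi_abs l _) (fun x hx => by
        have := chi_supp hl hx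
        have e : x - (p + v) = x - v - p := by abel
        rwa [e]) (fun y => hμ.nn _) (hμ.one' _) (fun y => hμ.sup _) f
    rw [Matrix.mul_one] at h1
    refine h1.trans (mul_le_mul_of_nonneg_right ?_ (Finset.sum_nonneg fun _ _ => sq_nonneg _))
    have h2 : (((20 * l : ℕ) : ℝ) + 1) ^ 2 ≤ (21 * (l : ℝ)) ^ 2 := by
      refine pow_le_pow_left₀ (by positivity) ?_ 2
      push_cast
      linarith
    have h3 : 4 * (((20 * l : ℕ) : ℝ) + 1) ^ 2 * (16 / (l : ℝ) ^ 2) ≤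
        4 * (21 * (l : ℝ)) ^ 2 * (16 / (l : ℝ) ^ 2) :=
      mul_le_mul_of_nonneg_right (mul_le_mul_of_nonneg_left h2 (by norm_num)) (by positivity)
    have h4 : 4 * (21 * (l : ℝ)) ^ 2 * (16 / (l : ℝ) ^ 2) = 28224 := by
      field_simp
      norm_num
    linarith
  calc ∑ x, (Em l μ w p *ᵥ f) x ^ 2
      ≤ ∑ x, ∑ v, w v * (cutM (fun x => chi l (x - v - p)) (fun y => μ (y - (p + v))) *ᵥ f) x ^ 2 := by
        refine Finset.sum_le_sum fun x _ => ?_
        have e : (Em l μ w p *ᵥ f) x = ∑ v, w v * (cutM (fun x => chi l (x - v - p))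
            (fun y => μ (y - (p + v))) *ᵥ f) x := by
          unfold Em
          rw [Matrix.sum_mulVec, Finset.sum_apply]
          exact Finset.sum_congr rfl fun v _ => by rw [smul_mulVec, Pi.smul_apply, smul_eq_mul]
        rw [e]
        exact wt_sq' hw.nn hw.one
    _ = ∑ v, w v * ∑ x, (cutM (fun x => chi l (x - v - p)) (fun y => μ (y - (p + v))) *ᵥ f) x ^ 2 := by
        rw [Finset.sum_comm]
        exact Finset.sum_congr rfl fun v _ => by rw [Finset.mul_sum]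
    _ ≤ ∑ v, w v * (60000 * ∑ x, f x ^ 2) :=
        Finset.sum_le_sum fun v _ => mul_le_mul_of_nonneg_left (h0 v f) (hw.nn v)
    _ = 60000 * ∑ x, f x ^ 2 := by rw [← Finset.sum_mul, hw.one, one_mul]

/-- **class of the decoration map on the cells** -/
theorem Dm_LM {m q : ℕ} [NeZero (N / m)] (hm : m ∣ N) (hml : m ≤ l) {T : Matrix (V N) (V N) ℝ}
    (hT : Kr q T) (hμ : Mpr l μ) (hw : Wts w s) :
    LM 200000000 (cobV N m * Dm l μ w p T * (cobV N m)ᵀ) := by
  have hm1 : 1 ≤ m := H864.l_pos hm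
  have hl : 0 < l := by omega
  have hl1 : (1 : ℝ) ≤ l := by exact_mod_cast hl
  have hl0 : (0 : ℝ) < l := by linarith
  have hm1' : (1 : ℝ) ≤ m := by exact_mod_cast hm1
  have hm0 : (0 : ℝ) < m := by linarith
  have hml' : (m : ℝ) ≤ l := by exact_mod_cast hml
  have e : cobV N m * Dm l μ w p T * (cobV N m)ᵀ = ∑ v, w v • (cobV N m *
      (cutM (fun x => chi l (x - v - p)) (fun y => μ (y - (p + v))) * T) * (cobV N m)ᵀ) := by
    unfold Dm
    rw [Matrix.mul_sum, Matrix.sum_mul]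
    exact Finset.sum_congr rfl fun v _ => by rw [Matrix.mul_smul, Matrix.smul_mul]
  rw [e]
  refine LM_avg hw.nn hw.one fun v _ => ?_
  refine cut_LM (c := p + v) (L := 20 * l) (ρ := l) (A := 1 / (2 * l)) (B := 16 / (l : ℝ) ^ 2) hm hT
    (fun x => chi_abs l _) (fun x hx => ?_) (fun x => ?_) (fun x => ?_) (fun y => hμ.nn _)
    (hμ.one' _) (fun y => hμ.sup _) (fun y hy => hμ.rng _ hy) ?_ ?_
  · have := chi_supp hl hx
    have e : x - (p + v) = x - v - p := by abel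
    rwa [e]
  · have h1 := chi_lip1 (N := N) hl (v + p) x
    have e1 : x + (1, 0) - (v + p) = x + (1, 0) - v - p := by abel
    have e2 : x - (v + p) = x - v - p := by abel
    rwa [e1, e2] at h1
  · have h1 := chi_lip2 (N := N) hl (v + p) x
    have e1 : x + (0, 1) - (v + p) = x + (0, 1) - v - p := by abel
    have e2 : x - (v + p) = x - v - p := by abel
    rwa [e1, e2] at h1
  · have h2 : (((20 * l : ℕ) : ℝ) + 1) ^ 2 ≤ (21 * (l : ℝ)) ^ 2 := by
      refine pow_le_pow_left₀ (by positivity) ?_ 2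
      push_cast
      linarith
    have h3 : 4 * (((20 * l : ℕ) : ℝ) + 1) ^ 2 * (16 / (l : ℝ) ^ 2) ≤
        4 * (21 * (l : ℝ)) ^ 2 * (16 / (l : ℝ) ^ 2) :=
      mul_le_mul_of_nonneg_right (mul_le_mul_of_nonneg_left h2 (by norm_num)) (by positivity)
    have h4 : 4 * (21 * (l : ℝ)) ^ 2 * (16 / (l : ℝ) ^ 2) = 28224 := by
      field_simp
      norm_num
    linarith
  · have h2 : (((20 * l + m + l : ℕ) : ℝ) + 1) ^ 2 ≤ (23 * (l : ℝ)) ^ 2 := by
      refine pow_le_pow_left₀ (by positivity) ?_ 2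
      push_cast
      linarith
    have h3 : (((20 * l + m + l : ℕ) : ℝ) / m + 3) ^ 2 ≤ (25 * ((l : ℝ) / m)) ^ 2 := by
      refine pow_le_pow_left₀ (by positivity) ?_ 2
      have h5 : (1 : ℝ) ≤ l / m := by
        rw [le_div_iff₀ hm0]
        linarith
      have h6 : (((20 * l + m + l : ℕ) : ℝ) / m) = 21 * ((l : ℝ) / m) + 1 := by
        push_cast
        field_simp
        ring
      rw [h6]
      linarith
    have h7 : 16 / (l : ℝ) ^ 2 * (4 * (((20 * l + m + l : ℕ) : ℝ) + 1) ^ 2) *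
        (8 * (((20 * l + m + l : ℕ) : ℝ) / m + 3) ^ 2) ≤
        16 / (l : ℝ) ^ 2 * (4 * (23 * (l : ℝ)) ^ 2) * (8 * (25 * ((l : ℝ) / m)) ^ 2) := by
      refine mul_le_mul ?_ ?_ (by positivity) (by positivity)
      · exact mul_le_mul_of_nonneg_left (mul_le_mul_of_nonneg_left h2 (by norm_num))
          (by positivity)
      · exact mul_le_mul_of_nonneg_left h3 (by norm_num)
    have h8 := mul_le_mul_of_nonneg_left h7 (show 0 ≤ 4 * ((m : ℝ) * (1 / (2 * l))) ^ 2 by positivity)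
    have h9 : 4 * ((m : ℝ) * (1 / (2 * l))) ^ 2 *
        (16 / (l : ℝ) ^ 2 * (4 * (23 * (l : ℝ)) ^ 2) * (8 * (25 * ((l : ℝ) / m)) ^ 2)) =
        169280000 := by
      field_simp
      norm_num
    rw [h9] at h8
    linarith

/-- the norm of the transpose -/
lemma Dm_opT {q : ℕ} (hl : 0 < l) {T : Matrix (V N) (V N) ℝ} (hT : Kr q T) (hμ : Mpr l μ)
    (hw : Wts w s) (v : V N → ℝ) :
    ∑ x, ((Dm l μ w p T)ᵀ *ᵥ v) x ^ 2 ≤ 60000 * ∑ x, v x ^ 2 := by
  refine opT' (by norm_num) (fun f => ?_) v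
  rw [Dm_eq, ← mulVec_mulVec]
  exact (Em_op hl hμ hw _).trans (mul_le_mul_of_nonneg_left (hT.cn f) (by norm_num))

/-- smoothness of the transpose -/
lemma Dm_smooth {m q : ℕ} [NeZero (N / m)] (hm : m ∣ N) (hl : 0 < l) (hq : 0 < q)
    {T : Matrix (V N) (V N) ℝ} (hT : Smo N q T) (hμ : Mpr l μ) (hw : Wts w s) (v : V N → ℝ) :
    ∑ x, ((1 - cellP N m) *ᵥ ((Dm l μ w p T)ᵀ *ᵥ v)) x ^ 2 ≤
      (2800 * ((m : ℝ) / q)) ^ 2 * ∑ x, v x ^ 2 := by
  have h1 := cell_smooth (l := m) hm hT hq (k := 60000) (by norm_num)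
    (E := Em l μ w p) (fun f => Em_op hl hμ hw f) v
  rw [← Dm_eq, ← mulVec_mulVec] at h1
  refine h1.trans (mul_le_mul_of_nonneg_right ?_ (Finset.sum_nonneg fun _ _ => sq_nonneg _))
  rw [mul_pow]
  have : 0 ≤ ((m : ℝ) / q) ^ 2 := sq_nonneg _
  nlinarith

/-- the map kills constants -/
lemma Dm_const {T : Matrix (V N) (V N) ℝ} (hT : T *ᵥ (fun _ => (1 : ℝ)) = fun _ => 1)
    (hμ : Mpr l μ) : Dm l μ w p T *ᵥ (fun _ => (1 : ℝ)) = 0 := by
  funext x
  rw [Dm_mulVec, hT]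
  simp only [Pi.zero_apply]
  refine Finset.sum_eq_zero fun v _ => ?_
  rw [H191.mn_const hμ.one]
  ring

end

end

end Vale.Agent.P159.H773
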