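import Vale.Agent.P159.H789.StG
import Vale.Agent.P159.H447.Sit11
import Vale.Agent.P159.H773.Mem4
import Vale.Agent.P159.H773.Mem5

/-!
P159 / helper773, module MEM6: `RF` of the decoration of the smoothed field on its own torus.
-/

set_option linter.all false

namespace Vale.Agent.P159.H773

open Finset Matrix MeasureTheory Filter Topology
open Vale.Agent.P159.TM.H764 (Q grd EE)
open Vale.Agent.P159.TM.Spec (V)
open Vale.Agent.P159.H864 (lapM cobV up cl TI sym)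
open Vale.Agent.P159.H37
open Vale.Agent.P159.H447
open Vale.Agent.P159.H789 (LM Kr lvS lvS_pos site_typ)
open Vale.Agent.P159.H817 (sz)
open Vale.Agent.P159.H963 (Pn nwt PinC)
open Vale.Agent.P159.H963.Core (RF)
open Vale.Agent.P159.H972 (FL)
open Vale.Agent.P159.H239 (TypE)
open Vale.Agent.P159.H264.Gq (cutM Smo tM smo_tM)
open Vale.Agent.P159.H191 (chi mn Wts)

noncomputable section

variable {N : ℕ} [NeZero N] {b t : ℝ}

/-- a map killing constants does not see the neutral projection -/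
lemma map_Pn {D : Matrix (V N) (V N) ℝ} (hD : D *ᵥ (fun _ => (1 : ℝ)) = 0) (F : V N → ℝ) :
    D *ᵥ ((Pn : Matrix (V N) (V N) ℝ) *ᵥ F) = D *ᵥ F := by
  rw [H963.Pn_mulVec]
  have e : (fun x => F x - (∑ y, F y) / (Fintype.card (V N) : ℝ)) =
      F - ((∑ y, F y) / (Fintype.card (V N) : ℝ)) • (fun _ => (1 : ℝ)) := by
    funext x
    simp
  rw [e, mulVec_sub, mulVec_smul, hD, smul_zero, sub_zero]

lemma RF_map {D : Matrix (V N) (V N) ℝ} (hD : D *ᵥ (fun _ => (1 : ℝ)) = 0) (z : ℝ) (F : V N → ℝ) :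
    Rs (nwt N b t 0) ((z • ((Pn : Matrix (V N) (V N) ℝ) * D)) *ᵥ src N t F) =
      RF N b t (z • (D *ᵥ F)) := by
  rw [RF_src]
  congr 1
  rw [src_smul, src_eq, src_eq, smul_mulVec, ← mulVec_mulVec, mulVec_smul, mulVec_smul,
    map_Pn hD]

/-- **`RF` of the decorations on their own torus** -/
theorem own_RF (hb : 0 < b) : ∃ C c : ℝ, 0 < C ∧ 0 < c ∧ c ≤ 1 ∧
    ∀ (N : ℕ) [NeZero N] (n m : ℕ), 2 ^ n ∣ N → 2 ^ m ∣ N → ∀ [NeZero (N / 2 ^ n)],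
    ∀ t : ℝ, 0 < t → t * ((2 : ℝ) ^ n) ^ 2 ≤ 1 / 4 → t * ((2 : ℝ) ^ m) ^ 2 ≤ 1 →
      1 < t * 4 ^ (m + 1) → 9 ≤ t * (N : ℝ) ^ 2 →
    ∀ (a η : ℝ), 1 ≤ a → a ≤ 2 → η ≤ 1 → FL b t a η N →
    ∀ (l q s : ℕ) (μ w : V N → ℝ) (p : V N), 2 ^ n ≤ l → 0 < q → Mpr l μ → Wts w s →
    ∀ (Y ρ P P' z : ℝ) (j k : ℕ), (2 : ℝ) ^ (j + k) ≤ Y → 0 < ρ → ρ ≤ 1 → P ≤ 1 / 2 →
      P' ≤ 1 / 2 → 1 ≤ z → z * (2800 * ((2 : ℝ) ^ n / q)) ≤ 1 →
      2 * z * √(2 * (200000000 * max 1 (b * 9))) ≤ 2 ^ j →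
      (∀ᶠ s in 𝓝[>] (0 : ℝ), TypE N (2 ^ n) b t s Y 1 P ∧ TypE N (2 ^ n) b t s 1 ρ P') →
    (nuS N b t).real {F | 2 * lvS ρ j k < RF N b t (z • (Dm l μ w p (tM N q) *ᵥ F))} ≤
      68 * (P + P') + C * ((t * (N : ℝ) ^ 2) ^ 4 * (z ^ 2 * 60000) ^ 3) *
        (((2 : ℝ) ^ n * √t) ^ c + z * (2800 * ((2 : ℝ) ^ n / q))) * (1 + 1 / lvS ρ j k) := by
  obtain ⟨C, c, hC, hc, hc1, h⟩ := site_typ hb
  refine ⟨C, c, hC, hc, hc1, ?_⟩
  intro N _ n m hn hm _ t ht htn htm htm1 htN a η ha1 ha2 hη hFL l q s μ w p hnl hq hμ hw Y ρ P P' z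
    j k hY hρ hρ1 hP hP' hz hzδ hκ hT
  have hl : 0 < l := (Nat.two_pow_pos n).trans_le hnl
  have hq0 : (0 : ℝ) < q := by exact_mod_cast hq
  have hSm := smo_tM (N := N) hq
  have hK := Smo.kr hSm
  have h1 : Dm l μ w p (tM N q) *ᵥ (fun _ => (1 : ℝ)) = 0 := Dm_const (H264.Gq.Smo.tc hSm) hμ
  have hcast : ((2 ^ n : ℕ) : ℝ) = (2 : ℝ) ^ n := by push_cast; rfl
  have key := h N n m hn hm t ht (by linarith) htm htm1 htN (Dm l μ w p (tM N q)) 60000 200000000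
    (2800 * ((2 : ℝ) ^ n / q)) (by norm_num) (by norm_num) (by positivity)
    (fun v => Dm_opT hl hK hμ hw v)
    (fun v => by
      have h2 := Dm_smooth (p := p) (m := 2 ^ n) hn hl hq hSm hμ hw (cellP N (2 ^ n) *ᵥ v)
      rw [hcast] at h2
      refine h2.trans (mul_le_mul_of_nonneg_left ?_ (sq_nonneg _))
      have h3 := H864.qf_cellP_le (N := N) hn v
      have h4 : ∑ x, (cellP N (2 ^ n) *ᵥ v) x ^ 2 = qf (cellP N (2 ^ n)) v := by
        have h5 := H883.qf_QB (1 : Matrix (V N) (V N) ℝ) (cellP N (2 ^ n)) v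
        unfold H883.QB at h5
        rw [H864.cellP_tr, Matrix.mul_one] at h5
        rw [← H340.qf_one, ← h5, H864.cellP_mul_self hn]
      rw [h4]
      exact h3)
    (Dm_LM hn hnl hK hμ hw) Y ρ P P' 9 z j k hY hρ hρ1 hP hP' (by norm_num) (fun k0 hk0 hE => by
      refine pinC_top hb hn ht ha1 ha2 hη ?_ hFL k0 hk0 hE
      rw [hcast]
      exact htn) hz hzδ hκ hT
  refine le_trans (le_of_eq ?_) key
  congr 1
  ext F
  simp only [Set.mem_ofPred_eq]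
  rw [RF_map h1]

end

end Vale.Agent.P159.H773
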