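import Vale.Agent.P159.H789.StM
import Vale.Agent.P159.H276.Mf1
import Vale.Agent.P159.H963.Core2
import Vale.Agent.P159.H773.Mem5

/-!
P159 / helper773, module MEM7: the decoration of one core is a map of the class `SMF`; the fixed
field `g`.
-/

set_option linter.all false

namespace Vale.Agent.P159.H773

open Finset Matrix MeasureTheory
open Vale.Agent.P159.TM.H764 (Q grd EE)
open Vale.Agent.P159.TM.Spec (V)
open Vale.Agent.P159.H864 (lapM)
open Vale.Agent.P159.H37
open Vale.Agent.P159.H789 (Kr SMF)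
open Vale.Agent.P159.H817 (sz gr nrm)
open Vale.Agent.P159.H963.Core (RF)
open Vale.Agent.P159.H264.Gq (cutM cutM_mulVec)
open Vale.Agent.P159.H191 (chi mn Wts)
open Vale.Agent.P159.H276.Mf (dcp)
open Vale.Agent.P159.H663.Dr (tT)

noncomputable section

variable {N : ℕ} [NeZero N] {l s : ℕ} {μ w : V N → ℝ} {p : V N} {b t : ℝ}

lemma Em_dcp (H : V N → ℝ) : Em l μ w p *ᵥ H = dcp l μ w p H := by
  funext x
  exact Em_mulVec l μ w p H x

lemma dcp_add (H K : V N → ℝ) : dcp l μ w p (H + K) = dcp l μ w p H + dcp l μ w p K := by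
  rw [← Em_dcp, ← Em_dcp, ← Em_dcp, mulVec_add]

lemma dcp_smul (c : ℝ) (H : V N → ℝ) : dcp l μ w p (c • H) = c • dcp l μ w p H := by
  rw [← Em_dcp, ← Em_dcp, mulVec_smul]

/-- **energy of one cut** -/
lemma cut_en (hl : 0 < l) (hμ : Mpr l μ) (c : V N) (H : V N → ℝ) :
    qf lapM (cutM (fun x => chi l (x - c)) (fun y => μ (y - c)) *ᵥ H) ≤
      40000000 * qf lapM H := by
  classical
  have hl1 : (1 : ℝ) ≤ l := by exact_mod_cast hl
  have hl0 : (0 : ℝ) < l := by linarith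
  obtain ⟨β, hβ⟩ : ∃ β : V N → ℝ, β = fun y => μ (y - c) := ⟨_, rfl⟩
  obtain ⟨a, ha⟩ : ∃ a : V N → ℝ, a = fun x => chi l (x - c) := ⟨_, rfl⟩
  rw [← hβ, ← ha]
  obtain ⟨g, hg⟩ : ∃ g : V N → ℝ, g = fun x => H x - ∑ y, β y * H y := ⟨_, rfl⟩
  have e1 : cutM a β *ᵥ H = fun x => a x * g x := by
    funext x
    rw [cutM_mulVec, hg]
  rw [e1]
  have ha1 : ∀ x, |a x| ≤ 1 := fun x => by
    rw [ha]
    exact chi_abs l _
  have hf0 := H859.grd_nonneg H
  obtain ⟨M, hM⟩ : ∃ M, M = 2 * (22 * (l : ℝ)) ^ 2 * grd H := ⟨_, rfl⟩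
  have hQ : ∀ z : V N, sz z ≤ (20 * l + 1) + l → Q H z ≤ M := fun z hz => by
    refine (H859.Q_le H z).trans ?_
    rw [hM]
    refine mul_le_mul_of_nonneg_right (mul_le_mul_of_nonneg_left ?_ zero_le_two) hf0
    refine pow_le_pow_left₀ (Nat.cast_nonneg _) ?_ 2
    have h1 : TM.H764.nrm z ≤ 22 * l := by
      have : TM.H764.nrm z = sz z := rfl
      omega
    exact_mod_cast h1
  set S := univ.filter (fun x : V N => sz (x - c) ≤ 20 * l + 1) with hS
  have hP : ∑ x ∈ S, g x ^ 2 ≤ 16 / (l : ℝ) ^ 2 * (4 * (((20 * l + 1) + l : ℕ) + 1 : ℝ) ^ 2) * M := by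
    rw [hg]
    refine poin_mean (c := c) (fun y => ?_) ?_ (fun y => ?_) (fun y hy => ?_) hQ
    · rw [hβ]
      exact hμ.nn _
    · rw [hβ]
      exact hμ.one' c
    · rw [hβ]
      exact hμ.sup _
    · rw [hβ] at hy
      exact hμ.rng _ hy
  have hSd : ∀ d : V N, sz d ≤ 1 → ∀ x, a (x + d) ≠ a x → x ∈ S := by
    intro d hd x hx
    rw [hS, mem_filter]
    refine ⟨mem_univ _, ?_⟩
    by_cases h0 : a x = 0
    · have h1 : a (x + d) ≠ 0 := fun h => hx (by rw [h, h0])
      rw [ha] at h1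
      have h2 := chi_supp hl h1
      have e : x - c = (x + d - c) + -d := by abel
      rw [e]
      refine (H817.sz_add_le _ _).trans ?_
      rw [H817.sz_neg]
      omega
    · rw [ha] at h0
      have := chi_supp hl h0
      omega
  have d1 : ∀ x, |a (x + (1, 0)) - a x| ≤ 1 / (2 * l) := fun x => by
    rw [ha]
    exact chi_lip1 hl c x
  have d2 : ∀ x, |a (x + (0, 1)) - a x| ≤ 1 / (2 * l) := fun x => by
    rw [ha]
    exact chi_lip2 hl c x
  have q1 := Q_cut (g := g) ha1 d1 (hSd _ (H817.sz_unit (Or.inl rfl)))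
  have q2 := Q_cut (g := g) ha1 d2 (hSd _ (H817.sz_unit (Or.inr rfl)))
  have q3 : Q g (1, 0) = Q H (1, 0) := by rw [hg, Q_sub_const]
  have q4 : Q g (0, 1) = Q H (0, 1) := by rw [hg, Q_sub_const]
  rw [H864.qf_lapM, H864.qf_lapM]
  have h7 : 2 * (1 / (2 * (l : ℝ))) ^ 2 * ∑ x ∈ S, g x ^ 2 ≤ 2 * (1 / (2 * (l : ℝ))) ^ 2 *
      (16 / (l : ℝ) ^ 2 * (4 * (23 * (l : ℝ)) ^ 2) * M) := by
    refine mul_le_mul_of_nonneg_left (hP.trans ?_) (by positivity)
    have hM0 : 0 ≤ M := by rw [hM]; positivity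
    refine mul_le_mul_of_nonneg_right (mul_le_mul_of_nonneg_left ?_ (by positivity)) hM0
    refine mul_le_mul_of_nonneg_left ?_ (by norm_num)
    refine pow_le_pow_left₀ (by positivity) ?_ 2
    push_cast
    linarith
  have h8 : 2 * (1 / (2 * (l : ℝ))) ^ 2 * (16 / (l : ℝ) ^ 2 * (4 * (23 * (l : ℝ)) ^ 2) * M) =
      16386304 * grd H := by
    rw [hM]
    field_simp
    ring
  rw [h8] at h7
  unfold grd at h7 ⊢
  rw [q3] at q1
  rw [q4] at q2
  have := H859.grd_nonneg H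
  unfold grd at this
  linarith

/-- **energy of the decoration** -/
theorem dcp_en (hl : 0 < l) (hμ : Mpr l μ) (hw : Wts w s) (H : V N → ℝ) :
    qf lapM (dcp l μ w p H) ≤ 40000000 * qf lapM H := by
  have e : dcp l μ w p H = fun x => ∑ v, w v *
      (cutM (fun x => chi l (x - (v + p))) (fun y => μ (y - (v + p))) *ᵥ H) x := by
    funext x
    unfold H276.Mf.dcp
    refine Finset.sum_congr rfl fun v _ => ?_
    rw [cutM_mulVec]
    have e1 : x - v - p = x - (v + p) := by abel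
    rw [e1, add_comm p v]
    rfl
  rw [e]
  have hQ : ∀ d : V N, Q (fun x => ∑ v, w v *
      (cutM (fun x => chi l (x - (v + p))) (fun y => μ (y - (v + p))) *ᵥ H) x) d ≤
      ∑ v, w v * Q (cutM (fun x => chi l (x - (v + p))) (fun y => μ (y - (v + p))) *ᵥ H) d := by
    intro d
    unfold Q
    calc _ = ∑ x, (∑ v, w v * ((cutM (fun x => chi l (x - (v + p)))
            (fun y => μ (y - (v + p))) *ᵥ H) (x + d) - (cutM (fun x => chi l (x - (v + p)))
            (fun y => μ (y - (v + p))) *ᵥ H) x)) ^ 2 := by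
          refine Finset.sum_congr rfl fun x _ => ?_
          rw [← Finset.sum_sub_distrib]
          congr 1
          exact Finset.sum_congr rfl fun i _ => by ring
      _ ≤ ∑ x, ∑ v, w v * ((cutM (fun x => chi l (x - (v + p)))
            (fun y => μ (y - (v + p))) *ᵥ H) (x + d) - (cutM (fun x => chi l (x - (v + p)))
            (fun y => μ (y - (v + p))) *ᵥ H) x) ^ 2 :=
          Finset.sum_le_sum fun x _ => wt_sq' hw.nn hw.one
      _ = _ := by
          rw [Finset.sum_comm]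
          exact Finset.sum_congr rfl fun i _ => by rw [Finset.mul_sum]
  rw [H864.qf_lapM]
  unfold grd
  refine (add_le_add (hQ _) (hQ _)).trans ?_
  rw [← Finset.sum_add_distrib]
  calc ∑ v, (w v * Q (cutM (fun x => chi l (x - (v + p))) (fun y => μ (y - (v + p))) *ᵥ H) (1, 0) +
        w v * Q (cutM (fun x => chi l (x - (v + p))) (fun y => μ (y - (v + p))) *ᵥ H) (0, 1))
      = ∑ v, w v * qf lapM (cutM (fun x => chi l (x - (v + p)))
          (fun y => μ (y - (v + p))) *ᵥ H) := by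
        refine Finset.sum_congr rfl fun v _ => ?_
        rw [H864.qf_lapM]
        unfold grd
        ring
    _ ≤ ∑ v, w v * (40000000 * qf lapM H) :=
        Finset.sum_le_sum fun v _ => mul_le_mul_of_nonneg_left (cut_en hl hμ _ H) (hw.nn v)
    _ = 40000000 * qf lapM H := by rw [← Finset.sum_mul, hw.one, one_mul]

/-- **the decoration is a map of the class `SMF`** -/
theorem smf_dcp (hl : 0 < l) (hμ : Mpr l μ) (hw : Wts w s) :
    SMF N 40000000 0 60000 (dcp l μ w p) (dcp l μ w p) (fun _ => 0) where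
  l₁ := ⟨fun H K => dcp_add H K, fun c H => dcp_smul c H⟩
  l₂ := ⟨fun _ _ => by simp, fun _ _ => by simp⟩
  sum H x := by simp
  one x := by
    unfold H276.Mf.dcp
    refine Finset.sum_eq_zero fun v _ => ?_
    rw [H191.mn_const hμ.one]
    ring
  op H := by
    rw [← Em_dcp]
    refine (Em_op hl hμ hw H).trans ?_
    exact mul_le_mul_of_nonneg_right (by norm_num) (Finset.sum_nonneg fun _ _ => sq_nonneg _)
  far H := by
    rw [zero_mul, H864.qf_lapM]
    unfold grd Q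
    simp
  en H := dcp_en hl hμ hw H
  cr H := by
    rw [← Em_dcp]
    exact Em_op hl hμ hw H
  cr2 H := by
    have : 0 ≤ ∑ x, H x ^ 2 := Finset.sum_nonneg fun _ _ => sq_nonneg _
    simp
    positivity

lemma RF_mid2 (hb : 0 < b) (ht : 0 < t) (F G : V N → ℝ) :
    RF N b t (F + G) ≤ (RF N b t ((2 : ℝ) • F) + RF N b t ((2 : ℝ) • G)) / 2 := by
  have h1 := (H963.Core.RF_convex (N := N) hb ht).2 (Set.mem_univ ((2 : ℝ) • F))
    (Set.mem_univ ((2 : ℝ) • G)) (show (0 : ℝ) ≤ 1 / 2 by norm_num)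
    (show (0 : ℝ) ≤ 1 / 2 by norm_num) (by norm_num)
  have e : F + G = (1 / 2 : ℝ) • (2 : ℝ) • F + (1 / 2 : ℝ) • (2 : ℝ) • G := by
    rw [smul_smul, smul_smul]
    norm_num
  rw [e]
  simp only [smul_eq_mul] at h1
  linarith

/-- **one core: the fixed field is added** -/
theorem own_pt (hb : 0 < b) (ht : 0 < t) {q : ℕ} {g : V N → ℝ} {L1 L2 L P : ℝ}
    {ν : Measure (V N → ℝ)} [IsProbabilityMeasure ν]
    (h1 : ν.real {F | L1 < RF N b t ((6 : ℝ) • dcp l μ w p (tT N q F))} ≤ P)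
    (h2 : RF N b t ((6 : ℝ) • dcp l μ w p (tT N q g)) ≤ L2) (hL : L1 + L2 ≤ 2 * L) :
    ν.real {F | L < RF N b t ((3 : ℝ) • dcp l μ w p (tT N q (F + g)))} ≤ P := by
  refine (measureReal_mono (fun F hF => ?_) (measure_ne_top _ _)).trans h1
  simp only [Set.mem_ofPred_eq] at hF ⊢
  by_contra hc
  push Not at hc
  have e : (3 : ℝ) • dcp l μ w p (tT N q (F + g)) =
      (3 : ℝ) • dcp l μ w p (tT N q F) + (3 : ℝ) • dcp l μ w p (tT N q g) := by
    rw [H663.Dr.tT_add, dcp_add, smul_add]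
  rw [e] at hF
  have h3 := RF_mid2 hb ht ((3 : ℝ) • dcp l μ w p (tT N q F))
    ((3 : ℝ) • dcp l μ w p (tT N q g))
  rw [smul_smul, smul_smul] at h3
  norm_num at h3
  linarith

end

end Vale.Agent.P159.H773
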