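import Vale.Agent.P159.H773.Mem1
import Vale.Agent.P159.H773.Mem7
import Vale.Agent.P159.H764.Tk0
import Vale.Agent.P159.H663.Kap

/-!
P159 / helper773, module MEM8: the mean profile of helper663 in the class `Mpr`; `MemP` at a pair.
-/

set_option linter.all false

namespace Vale.Agent.P159.H773

open Finset Matrix MeasureTheory
open Vale.Agent.P159.TM.Spec (V)
open Vale.Agent.P159.H686 (Cmp wdS)
open Vale.Agent.P159.H708 (Bx wd wd_inl wd_inr)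
open Vale.Agent.P159.H733.Torg (ip)
open Vale.Agent.P159.H817 (Dec dec rfl2 SuppD sz)
open Vale.Agent.P159.H963.Core (RF)
open Vale.Agent.P159.H191 (chi mn Wts)
open Vale.Agent.P159.H276.Mf (dcp)
open Vale.Agent.P159.H663.Dr (tT sqr sh3 kT kT_nonneg kT_zero wts_kT tc sum_kT_one sh3_mem)
open Vale.Agent.P159.H145.Sp (bZ muK wB lC l0C DC T0 T1 MemP dcZ tnZ zL zR gC supp_T0 supp_T1
  measurable_T0 measurable_T1)
open Vale.Agent.P159.H764.Tk (half_eq mem_bZ)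

noncomputable section

/-! ### the profile -/

lemma kT_le {h : ℕ} (hh : 0 < h) (u : ℤ × ℤ) : kT h u ≤ ((h : ℝ) ^ 2)⁻¹ := by
  classical
  have hr : (0 : ℝ) < h := by exact_mod_cast hh
  unfold kT
  have h1 : ∑ p ∈ sqr h, ∑ p' ∈ sqr h, ∑ p'' ∈ sqr h, (if u = sh3 p p' p'' then (1 : ℝ) else 0) ≤
      ((h : ℝ) ^ 2) ^ 2 := by
    have e : ∑ p ∈ sqr h, ∑ p' ∈ sqr h, ∑ p'' ∈ sqr h, (if u = sh3 p p' p'' then (1 : ℝ) else 0) =
        ∑ p' ∈ sqr h, ∑ p'' ∈ sqr h, ∑ p ∈ sqr h, (if u = sh3 p p' p'' then (1 : ℝ) else 0) := by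
      rw [sum_comm]
      refine sum_congr rfl fun p' _ => ?_
      rw [sum_comm]
    rw [e]
    have h2 : ∀ p' p'' : ℕ × ℕ, ∑ p ∈ sqr h, (if u = sh3 p p' p'' then (1 : ℝ) else 0) ≤ 1 := by
      intro p' p''
      rw [Finset.sum_boole]
      have h3 : ((sqr h).filter fun p => u = sh3 p p' p'').card ≤ 1 := by
        refine Finset.card_le_one.2 fun a ha c hc => ?_
        rw [mem_filter] at ha hc
        have e1 := ha.2.symm.trans hc.2
        unfold sh3 at e1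
        have e2 := congrArg Prod.fst e1
        have e3 := congrArg Prod.snd e1
        simp only at e2 e3
        ext
        · omega
        · omega
      exact_mod_cast h3
    calc ∑ p' ∈ sqr h, ∑ p'' ∈ sqr h, ∑ p ∈ sqr h, (if u = sh3 p p' p'' then (1 : ℝ) else 0)
        ≤ ∑ p' ∈ sqr h, ∑ p'' ∈ sqr h, (1 : ℝ) :=
          sum_le_sum fun p' _ => sum_le_sum fun p'' _ => h2 p' p''
      _ = ((h : ℝ) ^ 2) ^ 2 := by
          unfold H663.Dr.sqr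
          simp only [sum_const, card_product, card_range, nsmul_eq_mul, mul_one]
          push_cast
          ring
  calc (((h : ℝ) ^ 2)⁻¹) ^ 3 * _ ≤ (((h : ℝ) ^ 2)⁻¹) ^ 3 * ((h : ℝ) ^ 2) ^ 2 :=
        mul_le_mul_of_nonneg_left h1 (by positivity)
    _ = ((h : ℝ) ^ 2)⁻¹ := by field_simp

lemma vma_cast {N : ℕ} [NeZero N] {a : ℤ} {r : ℕ} (ha : a.natAbs ≤ r) (hN : 2 * r < N) :
    ((a : ZMod N)).valMinAbs = a := by
  have h1 : ((a : ZMod N)).valMinAbs = a ↔ a * 2 ∈ Set.Ioc (-(N : ℤ)) N := by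
    rw [ZMod.valMinAbs_spec]
    simp
  rw [h1, Set.mem_Ioc]
  omega

/-- **helper663's profile is in the class `Mpr`** -/
theorem mpr_kT {N h l ρ : ℕ} [NeZero N] (hh : 0 < h) (hl : l = 4 * h) (hρ : 2 * h ≤ ρ)
    (hN : 2 * (2 * h) < N) : Mpr l (muK N ρ (kT h)) := by
  classical
  have hr : (0 : ℝ) < h := by exact_mod_cast hh
  have hw := wts_kT (N := N) hh hρ
  refine ⟨hw.nn, hw.one, fun v => ?_, fun v hv => (hw.sup v hv).trans (by omega)⟩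
  have e0 : 16 / (l : ℝ) ^ 2 = ((h : ℝ) ^ 2)⁻¹ := by
    rw [hl]
    push_cast
    field_simp
    norm_num
  rw [e0]
  unfold H145.Sp.muK
  have h1 : ∑ u ∈ bZ ρ, (if v = (((u.1 : ℤ) : ZMod N), ((u.2 : ℤ) : ZMod N)) then kT h u else 0) ≤
      ∑ u ∈ bZ (2 * h), (if v = (((u.1 : ℤ) : ZMod N), ((u.2 : ℤ) : ZMod N)) then
        ((h : ℝ) ^ 2)⁻¹ else 0) := by
    have h2 : ∑ u ∈ bZ ρ, (if v = (((u.1 : ℤ) : ZMod N), ((u.2 : ℤ) : ZMod N)) then kT h u else 0) =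
        ∑ u ∈ bZ (2 * h),
          (if v = (((u.1 : ℤ) : ZMod N), ((u.2 : ℤ) : ZMod N)) then kT h u else 0) := by
      symm
      refine Finset.sum_subset (H663.Dr.bZ_mono hρ) fun u _ hu => ?_
      rw [kT_zero hu]
      split_ifs <;> rfl
    rw [h2]
    refine sum_le_sum fun u _ => ?_
    split_ifs
    · exact kT_le hh u
    · exact le_rfl
  refine h1.trans ?_
  rw [← Finset.sum_filter, Finset.sum_const, nsmul_eq_mul]
  have h3 : ((bZ (2 * h)).filter fun u : ℤ × ℤ =>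
      v = (((u.1 : ℤ) : ZMod N), ((u.2 : ℤ) : ZMod N))).card ≤ 1 := by
    refine Finset.card_le_one.2 fun a ha c hc => ?_
    rw [mem_filter] at ha hc
    have a1 := mem_bZ.1 ha.1
    have c1 := mem_bZ.1 hc.1
    have e1 := ha.2.symm.trans hc.2
    have e2 := congrArg Prod.fst e1
    have e3 := congrArg Prod.snd e1
    simp only at e2 e3
    ext
    · rw [← vma_cast (N := N) a1.1 hN, e2, vma_cast (N := N) c1.1 hN]
    · rw [← vma_cast (N := N) a1.2 hN, e3, vma_cast (N := N) c1.2 hN]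
  have h4 : (((bZ (2 * h)).filter fun u : ℤ × ℤ =>
      v = (((u.1 : ℤ) : ZMod N), ((u.2 : ℤ) : ZMod N))).card : ℝ) ≤ 1 := by exact_mod_cast h3
  calc _ ≤ 1 * ((h : ℝ) ^ 2)⁻¹ := mul_le_mul_of_nonneg_right h4 (by positivity)
    _ = _ := one_mul _

/-! ### the weights of the smearing -/

lemma wts_wB {N s : ℕ} [NeZero N] (hN : 2 * s < N) : Wts (wB N s) s where
  nn v := by
    unfold H145.Sp.wB
    split_ifs
    · positivity
    · exact le_rfl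
  one := by
    have h1 := H764.Tk.sum_wB (N := N) (ρ := s) hN (fun _ => (1 : ℝ))
    simp only [mul_one] at h1
    rw [h1]
    unfold H145.Sp.bZ
    rw [Finset.sum_const, Finset.card_product, nsmul_eq_mul, mul_one]
    rw [Int.card_Icc]
    have e : ((s : ℤ) + 1 - -(s : ℤ)).toNat = 2 * s + 1 := by omega
    rw [e]
    push_cast
    field_simp
  sup v hv := by
    unfold H145.Sp.wB at hv
    by_contra hc
    exact hv (if_neg hc)

/-! ### the two decorations of a window on a torus -/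

section brg

variable {i n k q D R : ℕ} {κ : ℤ × ℤ → ℝ}

lemma dec_T0 (hκ : ∑ u ∈ bZ (lC n k), κ u = 1) (hq : 0 < q) (hD : 21 * lC n k + 2 ^ n + q ≤ D)
    (hN : 40 * lC n k + 4 * 2 ^ n < sd i R) (g F : V (sd i R) → ℝ) :
    dec (T0 κ n k q D (wdS (sd i) D R g F)) (0 : V (sd i R)) =
      dcp (lC n k) (muK (sd i R) (lC n k) κ) (wB (sd i R) (2 ^ n)) 0 (tT (sd i R) q (F + g)) := by
  funext x
  have z0 : ∀ a c : ℤ, a.natAbs ≤ D → c.natAbs ≤ D → zL (wdS (sd i) D R g F) a c =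
      (F + g) (0 + ip (sd i R) (a, c)) - (F + g) 0 := by
    intro a c ha hc
    have hm : ((a, c) : ℤ × ℤ) ∈ (Finset.Icc (-(D : ℤ)) D) ×ˢ (Finset.Icc (-(D : ℤ)) D) :=
      mem_bZ.2 ⟨ha, hc⟩
    unfold H145.Sp.zL
    rw [dif_pos hm]
    unfold H686.wdS wdF
    rw [wd_inl]
  exact (half_eq hκ hq (by omega) hN z0 x).symm

lemma dec_T1 (hκ : ∑ u ∈ bZ (lC n k), κ u = 1) (hq : 0 < q) (hD : 21 * lC n k + 2 ^ n + q ≤ D)
    (hN : 40 * lC n k + 4 * 2 ^ n < sd i R) (g F : V (sd i R) → ℝ) :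
    dec (T1 κ n k q D (wdS (sd i) D R g F)) (R • H817.e1 : V (sd i R)) =
      dcp (lC n k) (muK (sd i R) (lC n k) κ) (wB (sd i R) (2 ^ n)) (R • H817.e1)
        (tT (sd i R) q (F + g)) := by
  funext x
  have e1 : ax0 (sd i R) R = R • (H817.e1 : V (sd i R)) := by
    rw [H817.nsmul_e1]
    rfl
  have z1 : ∀ a c : ℤ, a.natAbs ≤ D → c.natAbs ≤ D → zR (wdS (sd i) D R g F) a c =
      (F + g) (R • H817.e1 + ip (sd i R) (a, c)) - (F + g) (R • H817.e1) := by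
    intro a c ha hc
    have hm : ((a, c) : ℤ × ℤ) ∈ (Finset.Icc (-(D : ℤ)) D) ×ˢ (Finset.Icc (-(D : ℤ)) D) :=
      mem_bZ.2 ⟨ha, hc⟩
    unfold H145.Sp.zR
    rw [dif_pos hm]
    unfold H686.wdS wdF
    rw [wd_inr, e1]
  exact (half_eq hκ hq (by omega) hN z1 x).symm

end brg

/-! ### `MemP` at a pair -/

section pair

lemma supp_rfl2 {L : ℕ} {F : ℤ → ℤ → ℝ} (h : SuppD L F) : SuppD (L + 1) (rfl2 F) := by
  intro u v huv
  have h1 := h u (1 - v) huv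
  omega

lemma suppT (κ : ℤ × ℤ → ℝ) (n k q D : ℕ) (z : Bx D ⊕ Bx D → ℝ) :
    SuppD (l0C n k) (rfl2 (T0 κ n k q D z)) ∧ SuppD (l0C n k) (rfl2 (T1 κ n k q D z)) := by
  have h : 2 ^ n ≤ lC n k := Nat.pow_le_pow_right (by norm_num) (Nat.le_add_right _ _)
  have hp : 0 < 2 ^ n := by positivity
  have e : l0C n k = (l0C n k - 1) + 1 := by unfold l0C; omega
  have h0 : SuppD (l0C n k - 1) (T0 κ n k q D z) := H145.Sp.suppD_dcZ (by unfold l0C; omega) _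
  have h1 : SuppD (l0C n k - 1) (T1 κ n k q D z) := H145.Sp.suppD_dcZ (by unfold l0C; omega) _
  rw [e]
  exact ⟨supp_rfl2 h0, supp_rfl2 h1⟩

variable {i n kf K1 q D k0 k1 : ℕ} {b t h τ p p' r1 L1 L2 : ℝ} {κ : ℤ × ℤ → ℝ} {E : Dec}

/-- **`MemP` AT A PAIR** for the class `DD` -/
theorem memP_of (hb : 0 < b) (ht : 0 < t) (hh : h ≤ 1 / 40)
    (hκ : ∑ u ∈ bZ (lC n kf), κ u = 1) (hq : 0 < q) (hD : 21 * lC n kf + 2 ^ n + q ≤ D)
    (hN : 40 * lC n kf + 4 * 2 ^ n < 2 ^ (i + k0))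
    (hc : ∀ R, 2 ^ k0 ≤ R → R ≤ 2 ^ k1 → Cmp (nuF b (sd i) t (2 ^ k0)) (nuF b (sd i) t R)
      (wdS (sd i) D (2 ^ k0) (gC i n K1 (2 ^ k0))) (wdS (sd i) D R (gC i n K1 R)) h τ)
    (own : ∀ k, k0 ≤ k → k ≤ k1 → ∀ c : V (sd i (2 ^ k)), (nuF b (sd i) t (2 ^ k)).real
      {F | L1 < RF (sd i (2 ^ k)) b t ((6 : ℝ) • dcp (lC n kf)
        (muK (sd i (2 ^ k)) (lC n kf) κ) (wB (sd i (2 ^ k)) (2 ^ n)) c
        (tT (sd i (2 ^ k)) q F))} ≤ p)
    (hg : ∀ k, k0 ≤ k → k ≤ k1 → ∀ c : V (sd i (2 ^ k)),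
      RF (sd i (2 ^ k)) b t ((6 : ℝ) • dcp (lC n kf)
        (muK (sd i (2 ^ k)) (lC n kf) κ) (wB (sd i (2 ^ k)) (2 ^ n)) c
        (tT (sd i (2 ^ k)) q (gC i n K1 (2 ^ k)))) ≤ L2)
    (hL : L1 + L2 ≤ 2 * r1) {R : ℕ} (h0 : 2 ^ k0 ≤ R) (h1 : R ≤ 2 ^ k1)
    {C3 : Set (V (sd i R) → ℝ)} (mC : MeasurableSet C3)
    (hC : (nuF b (sd i) t R).real C3ᶜ ≤ p')
    (hE : ∀ F ∈ C3, T0 κ n kf q D (wdS (sd i) D R (gC i n K1 R) F) ∈ E ∧
      rfl2 (T0 κ n kf q D (wdS (sd i) D R (gC i n K1 R) F)) ∈ E ∧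
      T1 κ n kf q D (wdS (sd i) D R (gC i n K1 R) F) ∈ E ∧
      rfl2 (T1 κ n kf q D (wdS (sd i) D R (gC i n K1 R) F)) ∈ E) :
    MemP b i t (T0 κ n kf q D) (T1 κ n kf q D) R (gC i n K1 R)
      (DD i b t r1 (l0C n kf) k0 k1 E) (DD i b t r1 (l0C n kf) k0 k1 E)
      (((k1 : ℝ) - k0 + 1) * (4 * p + 4 * τ) + p') := by
  have hNk : ∀ k, k0 ≤ k → 40 * lC n kf + 4 * 2 ^ n < sd i (2 ^ k) := fun k hk => by
    rw [sd_pow]
    exact hN.trans_le (Nat.pow_le_pow_right (by norm_num) (by omega))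
  refine mem_pair (W := fun R => wdS (sd i) D R (gC i n K1 R)) hb ht hh
    (fun R => H686.measurable_wdS D R _) hc (measurable_T0 κ n kf q D) (measurable_T1 κ n kf q D)
    (supp_T0 κ n kf q D) (fun z => (suppT κ n kf q D z).1) (supp_T1 κ n kf q D)
    (fun z => (suppT κ n kf q D z).2) ?_ ?_ h0 h1 mC hC hE
  · intro k a0 a1
    have e : ∀ F : V (sd i (2 ^ k)) → ℝ,
        dec (T0 κ n kf q D (wdS (sd i) D (2 ^ k) (gC i n K1 (2 ^ k)) F))
          (0 : V (sd i (2 ^ k))) =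
        dcp (lC n kf) (muK (sd i (2 ^ k)) (lC n kf) κ) (wB (sd i (2 ^ k)) (2 ^ n)) 0
          (tT (sd i (2 ^ k)) q (F + gC i n K1 (2 ^ k))) := fun F =>
      dec_T0 hκ hq hD (hNk k a0) _ F
    haveI : IsProbabilityMeasure (nuF b (sd i) t (2 ^ k)) := prob_nuF hb ht (2 ^ k)
    simp only [e]
    exact own_pt hb ht (own k a0 a1 0) (hg k a0 a1 0) hL
  · intro k a0 a1
    have e : ∀ F : V (sd i (2 ^ k)) → ℝ, RF (sd i (2 ^ k)) b t
        ((3 : ℝ) • dec (T1 κ n kf q D (wdS (sd i) D (2 ^ k) (gC i n K1 (2 ^ k)) F))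
          (0 : V (sd i (2 ^ k)))) =
        RF (sd i (2 ^ k)) b t ((3 : ℝ) • dcp (lC n kf) (muK (sd i (2 ^ k)) (lC n kf) κ)
          (wB (sd i (2 ^ k)) (2 ^ n)) ((2 ^ k) • H817.e1)
          (tT (sd i (2 ^ k)) q (F + gC i n K1 (2 ^ k)))) := fun F => by
      rw [← H817.RF_dec hb ht _ ((2 ^ k) • H817.e1), dec_T1 hκ hq hD (hNk k a0) _ F]
    haveI : IsProbabilityMeasure (nuF b (sd i) t (2 ^ k)) := prob_nuF hb ht (2 ^ k)
    simp only [e]
    exact own_pt hb ht (own k a0 a1 _) (hg k a0 a1 _) hL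

end pair

end

end Vale.Agent.P159.H773
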