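import Vale.Agent.P159.H773.Mem8
import Vale.Agent.P159.H270.Ce5
import Vale.Agent.P159.H145.Spc4
import Vale.Agent.P159.H816.Sm3
import Vale.Agent.P159.H859.Gn2

/-!
P159 / helper773, module MEM9: the field `mem` along the flow.

* `own_flow` : the decoration of the smoothed field on its own torus (helper270's `mapF_flow`);
* `g_flow` : the decoration of the shift;
* `cmp_flow` : comparison of the windows (helper37's `cs_level`, helper816's `sit_flow`);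
* `mem_flow` : `MemP` for the class `DD`, from an event for the torus free class.
-/

set_option linter.all false

namespace Vale.Agent.P159.H773

open Finset Matrix MeasureTheory Filter Topology
open Vale.Agent.P159.TM.Spec (V)
open Vale.Agent.P159.H686 (Cmp wdS)
open Vale.Agent.P159.H708 (Bx WtOK)
open Vale.Agent.P159.H817 (Dec dec rfl2 SuppD sz gr nrm)
open Vale.Agent.P159.H963.Core (RF)
open Vale.Agent.P159.H191 (Wts)
open Vale.Agent.P159.H276.Mf (dcp)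
open Vale.Agent.P159.H663.Dr (tT kT)
open Vale.Agent.P159.H801 (Ev SFlow)
open Vale.Agent.P159.H972 (tn lg Par)
open Vale.Agent.P159.H789 (SMF)
open Vale.Agent.P159.H859.Idl (s0 s0_pos Prm gsR_spec gsR)
open Vale.Agent.P159.H37.Sf (kf kE1 sf_big sf_win sf_TT sf_D DC_eq gC_eq prm_of)
open Vale.Agent.P159.H145.Sp (bZ muK wB lC l0C DC T0 T1 MemP gC lR lK lE qF kapF qF_pos qF_le
  sum_kapF)

noncomputable section

lemma smf_up {N : ℕ} [NeZero N] {k k₂ kI K : ℝ} {f f₁ f₂ : (V N → ℝ) → V N → ℝ}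
    (h : SMF N k k₂ kI f f₁ f₂) (hk : k ≤ K) (hI : kI ≤ K) : SMF N K k₂ K f f₁ f₂ where
  l₁ := h.l₁
  l₂ := h.l₂
  sum := h.sum
  one := h.one
  op H := (h.op H).trans
    (mul_le_mul_of_nonneg_right hk (Finset.sum_nonneg fun _ _ => sq_nonneg _))
  far := h.far
  en H := (h.en H).trans (mul_le_mul_of_nonneg_right hk (by
    rw [H817.qf_lap]
    exact Finset.sum_nonneg fun _ _ => sq_nonneg _))
  cr H := (h.cr H).trans
    (mul_le_mul_of_nonneg_right hI (Finset.sum_nonneg fun _ _ => sq_nonneg _))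
  cr2 H := (h.cr2 H).trans
    (mul_le_mul_of_nonneg_right hI (Finset.sum_nonneg fun _ _ => sq_nonneg _))

/-! ### sizes -/

lemma lC_pos (n k : ℕ) : 0 < lC n k := by
  unfold H145.Sp.lC
  positivity

lemma lC_four {n k : ℕ} (hn : 2 ≤ n) : lC n k = 4 * (lC n k / 4) ∧ 0 < lC n k / 4 := by
  obtain ⟨m, hm⟩ : ∃ m, n + k / 16 = m + 2 := ⟨n + k / 16 - 2, by omega⟩
  have e : lC n k = 4 * 2 ^ m := by
    unfold H145.Sp.lC
    rw [hm, pow_add]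
    ring
  have h0 : 0 < 2 ^ m := by positivity
  omega

/-- the torus is large -/
lemma sd_big {i n k R : ℕ} (hi : 6 ≤ i) (hR : 2 ^ (n + k) ≤ R) :
    40 * lC n k + 4 * 2 ^ n < sd i R := by
  have h1 : lC n k ≤ 2 ^ (n + k) := by
    unfold H145.Sp.lC
    exact Nat.pow_le_pow_right (by norm_num) (by omega)
  have h2 : 2 ^ n ≤ 2 ^ (n + k) := Nat.pow_le_pow_right (by norm_num) (by omega)
  have h3 : 2 ^ i * R ≤ sd i R := sd_ge i R
  have h4 : 64 ≤ 2 ^ i := by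
    calc 64 = 2 ^ 6 := by norm_num
      _ ≤ 2 ^ i := Nat.pow_le_pow_right (by norm_num) hi
  have h5 : 64 * R ≤ 2 ^ i * R := Nat.mul_le_mul_right _ h4
  have h6 : 0 < 2 ^ (n + k) := by positivity
  omega

section pt

variable {i n k R : ℕ} {b t : ℝ}

lemma mpr_at (hn : 2 ≤ n) (hi : 6 ≤ i) (hR : 2 ^ (n + k) ≤ R) :
    Mpr (lC n k) (muK (sd i R) (lC n k) (kT (lC n k / 4))) := by
  obtain ⟨h1, h2⟩ := lC_four (k := k) hn
  have h3 := sd_big (n := n) (k := k) hi hR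
  exact mpr_kT h2 h1 (by omega) (by omega)

lemma wts_at (hi : 6 ≤ i) (hR : 2 ^ (n + k) ≤ R) :
    Wts (wB (sd i R) (2 ^ n)) (2 ^ n) := by
  have h3 := sd_big (n := n) (k := k) hi hR
  exact wts_wB (by omega)

/-- **the energy of the decoration of the shift** -/
lemma en_g {K1 q : ℕ} (hn : 2 ≤ n) (hi : 6 ≤ i) (hk : 32 ≤ k) (hq : 0 < q) (hR : 2 ^ (n + k) ≤ R)
    (hR1 : R ≤ 2 ^ K1) (c : V (sd i R)) :
    nrm (gr (dcp (lC n k) (muK (sd i R) (lC n k) (kT (lC n k / 4))) (wB (sd i R) (2 ^ n)) c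
      (tT (sd i R) q (gC i n K1 R)))) ≤ 40000000 * (60000000 * s0 ^ 2) := by
  have h1 := dcp_en (p := c) (lC_pos n k) (mpr_at hn hi hR) (wts_at hi hR)
    (tT (sd i R) q (gC i n K1 R))
  rw [H817.qf_lap, H817.qf_lap] at h1
  have h2 := H859.Gn.nrm_tT hq (gC i n K1 R)
  have H := prm_of (n := n) (k := k) (K1 := K1) hi hk hR hR1
  have h3 := (gsR_spec H).en
  have h4 : ((2 ^ (n + 3 * (Nat.log 2 R - n) / 4) : ℕ) : ℝ) / R ≤ 1 := by
    have h5 := H.hlr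
    have hR0 : (0 : ℝ) < R := by
      have : 0 < 2 ^ (n + k) := by positivity
      exact_mod_cast this.trans_le hR
    rw [div_le_one hR0]
    have h6 : 2 ^ (n + 3 * (Nat.log 2 R - n) / 4) ≤ R := by omega
    exact_mod_cast h6
  have h5 : (((2 ^ (n + 3 * (Nat.log 2 R - n) / 4) : ℕ) : ℝ) / R) ^ 2 ≤ 1 :=
    pow_le_one₀ (by positivity) h4
  have h6 : nrm (gr (gC i n K1 R)) ≤ 60000000 * s0 ^ 2 := by
    refine h3.trans ?_
    have : 0 ≤ 60000000 * s0 ^ 2 := by positivity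
    nlinarith
  exact h1.trans (mul_le_mul_of_nonneg_left (h2.trans h6) (by norm_num))

end pt

/-! ### numbers along the flow -/

section flow

variable {P : Par} {b σ c c1 q2 qx : ℝ} {a y ε xs : ℕ → ℝ} {c' r q A : ℝ} {N : ℕ}

/-- the number of the scales of the window -/
lemma sf_K1 (h : SFlow P b σ c c1 q2 qx a y ε xs c' r q A N) (hA : P.Adm) (hσ0 : 0 ≤ σ)
    (hσ : σ ≤ 1 / 4)
    (hM : ∀ (n : ℕ) (e : ℝ) (r : ℕ), 0 < e → e ≤ P.es → P.TT n e r →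
      (2 : ℝ) ^ (r - n) ≤ e ^ (-(6 * P.x1)) ∧ ((r - n : ℕ) : ℝ) ≤ 1 + Real.logb 2 (1 / e))
    {ck : ℝ} (hck : 0 < ck) (hck1 : ck ≤ P.thp) (hck2 : 2 * P.th ≤ ck) :
    ∀ᶠ n in atTop, n + kf ck y n ≤ kE1 P ck y ε n ∧
      ((kE1 P ck y ε n : ℕ) : ℝ) - ((n + kf ck y n : ℕ) : ℝ) + 1 ≤ y n ^ (-1 : ℝ) := by
  have hlog : ∀ᶠ n in atTop, 3 + 2 * Real.logb 2 (1 / y n) ≤ y n ^ (-1 : ℝ) := by
    have h1 := H37.Sf.lb_tend h.fl.y0 h.fl.yt
    have h2 : ∀ᶠ x : ℝ in atTop, 3 + 2 * x ≤ (2 : ℝ) ^ x := by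
      have h3 := (isLittleO_pow_exp_pos_mul_atTop 1 (Real.log_pos one_lt_two)).bound
        (show (0 : ℝ) < 1 / 4 by norm_num)
      filter_upwards [h3, eventually_ge_atTop 3] with x h4 h5
      rw [pow_one, Real.norm_of_nonneg (by linarith), Real.norm_of_nonneg (Real.exp_pos _).le] at h4
      have e : (2 : ℝ) ^ x = Real.exp (Real.log 2 * x) := by
        rw [Real.rpow_def_of_pos two_pos]
      rw [e]
      linarith
    filter_upwards [h1.eventually h2] with n h3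
    have hy := h.fl.y0 n
    rw [Real.rpow_logb two_pos (by norm_num) (by positivity)] at h3
    rwa [Real.rpow_neg_one, inv_eq_one_div]
  filter_upwards [sf_win h hσ hck hck1 0, sf_TT h hA hσ0 hσ hck hck1 hck2 (i := 1) le_rfl, hlog,
    eventually_ge_atTop N] with n g1 g2 g3 hn
  have hle : n + kf ck y n ≤ kE1 P ck y ε n := g1.2.2.1
  refine ⟨hle, ?_⟩
  have hε := H37.Sf.sf_eps h hn
  have h1 := g2 (2 ^ kE1 P ck y ε n) (Nat.pow_le_pow_right (by norm_num) hle) le_rfl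
  have e1 : Nat.clog 2 (2 ^ kE1 P ck y ε n) = kE1 P ck y ε n := Nat.clog_pow 2 _ one_lt_two
  rw [e1] at h1
  have h2 := (hM n (ε n) _ hε (h.es n hn) h1).2
  have h3 := H37.Sf.sf_ub h hn
  have h4 := H37.Sf.sf_lb0 h hn
  have h5 : ((kE1 P ck y ε n : ℕ) : ℝ) ≤ n + ((1 + kE1 P ck y ε n - n : ℕ) : ℝ) := by
    have : kE1 P ck y ε n ≤ n + (1 + kE1 P ck y ε n - n) := by omega
    exact_mod_cast this
  have h6 : (n : ℝ) ≤ ((n + kf ck y n : ℕ) : ℝ) := by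
    push_cast
    have : (0 : ℝ) ≤ kf ck y n := Nat.cast_nonneg _
    linarith
  have h7 : (2 - σ) * Real.logb 2 (1 / y n) ≤ 2 * Real.logb 2 (1 / y n) :=
    mul_le_mul_of_nonneg_right (by linarith) h4
  linarith

/-- the sum of the probabilities -/
lemma sum_num (h : SFlow P b σ c c1 q2 qx a y ε xs c' r q A N) {c3 κ0 κ1 : ℝ} (hc3 : 0 < c3)
    (hc31 : c3 < c1) (hκ : κ1 < κ0) :
    ∀ᶠ n in atTop, ∀ K p τ : ℝ, 0 ≤ K → K ≤ y n ^ (-1 : ℝ) → p ≤ Real.exp (-(y n ^ (-(3 / 2 * c1)))) →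
      τ ≤ Real.exp (-(y n ^ (-c1))) →
      K * (4 * p + 4 * τ) + Real.exp (-(κ0 * y n ^ (-c3))) ≤ Real.exp (-(κ1 * y n ^ (-c3))) := by
  have hm : 0 < (c1 + c3) / 2 := by linarith
  filter_upwards [sf_big h (p := c3) (M := 1 / (κ0 - κ1)) hc3 (by
      have : 0 < κ0 - κ1 := by linarith
      positivity),
    sf_big h (p := (c1 - c3) / 2) (M := |κ1| + 2) (by linarith) (by positivity),
    H816.sf_expy h hm 1 (show (0 : ℝ) < 1 / 16 by norm_num),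
    eventually_ge_atTop N] with n g1 g2 g3 hn
  intro K p τ hK0 hK hp hτ
  have hy := h.fl.y0 n
  have hy1 := h.y1 n hn
  have Py : ∀ a : ℝ, 0 < y n ^ a := fun a => Real.rpow_pos_of_pos hy a
  have hZ := Py (-c3)
  have hp' : p ≤ Real.exp (-(y n ^ (-c1))) := by
    refine hp.trans (Real.exp_le_exp.2 (neg_le_neg ?_))
    exact Real.rpow_le_rpow_of_exponent_ge hy hy1 (by linarith)
  -- the large exponent
  have e1 : y n ^ (-c1) = y n ^ (-((c1 - c3) / 2)) * y n ^ (-((c1 + c3) / 2)) := by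
    rw [← Real.rpow_add hy]
    congr 1
    ring
  have h1 : y n ^ (-c3) ≤ y n ^ (-((c1 + c3) / 2)) :=
    Real.rpow_le_rpow_of_exponent_ge hy hy1 (by linarith)
  have h2 : κ1 * y n ^ (-c3) + y n ^ (-((c1 + c3) / 2)) ≤ y n ^ (-c1) := by
    rw [e1]
    have h3 : (|κ1| + 2) * y n ^ (-((c1 + c3) / 2)) ≤
        y n ^ (-((c1 - c3) / 2)) * y n ^ (-((c1 + c3) / 2)) :=
      mul_le_mul_of_nonneg_right g2 (Py _).le
    have h4 : κ1 * y n ^ (-c3) ≤ |κ1| * y n ^ (-((c1 + c3) / 2)) :=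
      (mul_le_mul_of_nonneg_right (le_abs_self κ1) hZ.le).trans
        (mul_le_mul_of_nonneg_left h1 (abs_nonneg _))
    have := Py (-((c1 + c3) / 2))
    linarith
  have h3 : Real.exp (-(y n ^ (-c1))) ≤
      Real.exp (-(κ1 * y n ^ (-c3))) * Real.exp (-(y n ^ (-((c1 + c3) / 2)))) := by
    rw [← Real.exp_add]
    exact Real.exp_le_exp.2 (by linarith)
  have hE := Real.exp_pos (-(κ1 * y n ^ (-c3)))
  have h4 : K * (4 * p + 4 * τ) ≤ 1 / 2 * Real.exp (-(κ1 * y n ^ (-c3))) := by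
    calc K * (4 * p + 4 * τ) ≤ K * (8 * Real.exp (-(y n ^ (-c1)))) :=
          mul_le_mul_of_nonneg_left (by linarith) hK0
      _ ≤ y n ^ (-1 : ℝ) * (8 * Real.exp (-(y n ^ (-c1)))) :=
          mul_le_mul_of_nonneg_right hK (by positivity)
      _ ≤ y n ^ (-1 : ℝ) * (8 * (Real.exp (-(κ1 * y n ^ (-c3))) *
            Real.exp (-(y n ^ (-((c1 + c3) / 2)))))) :=
          mul_le_mul_of_nonneg_left (by linarith) (Py _).le
      _ = 8 * Real.exp (-(κ1 * y n ^ (-c3))) *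
            (Real.exp (-(y n ^ (-((c1 + c3) / 2)))) * y n ^ (-1 : ℝ)) := by ring
      _ ≤ 8 * Real.exp (-(κ1 * y n ^ (-c3))) * (1 / 16) :=
          mul_le_mul_of_nonneg_left g3 (by positivity)
      _ = _ := by ring
  have h5 : Real.exp (-(κ0 * y n ^ (-c3))) ≤ 1 / 2 * Real.exp (-(κ1 * y n ^ (-c3))) := by
    have hd : 0 < κ0 - κ1 := by linarith
    have h6 : 1 ≤ (κ0 - κ1) * y n ^ (-c3) := by
      have := mul_le_mul_of_nonneg_left g1 hd.le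
      rwa [mul_one_div_cancel hd.ne'] at this
    have h7 : Real.exp (-(κ0 * y n ^ (-c3))) ≤
        Real.exp (-(κ1 * y n ^ (-c3))) * Real.exp (-1) := by
      rw [← Real.exp_add]
      exact Real.exp_le_exp.2 (by linarith)
    have h8 := Real.exp_neg_one_lt_d9
    have h9 : Real.exp (-(κ1 * y n ^ (-c3))) * Real.exp (-1) ≤
        Real.exp (-(κ1 * y n ^ (-c3))) * (1 / 2) :=
      mul_le_mul_of_nonneg_left (by linarith) hE.le
    linarith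
  linarith

end flow

/-! ### along the flow -/

/-- the decoration of a field on the torus of the pair `R` -/
def dcF9 (ck c1 : ℝ) (y : ℕ → ℝ) (i n R : ℕ) (c : V (sd i R)) (H : V (sd i R) → ℝ) :
    V (sd i R) → ℝ :=
  dcp (lC n (kf ck y n)) (muK (sd i R) (lC n (kf ck y n)) (kapF ck y n)) (wB (sd i R) (2 ^ n)) c
    (tT (sd i R) (qF c1 y n) H)

/-- **the decorations on their own tori** -/
theorem own_flow {b b1 b2 pf : ℝ} (hb1 : 0 < b1) (h1 : b1 ≤ b) (hpf : 0 < pf) (Q : ℕ) :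
    Ev b1 b2 pf Q fun P c1 => 0 < c1 ∧ c1 ≤ P.th / 100 ∧
      ∀ {σ c q2 qx : ℝ} {a y ε xs : ℕ → ℝ} {c' r q A : ℝ} {N : ℕ},
      SFlow P b σ c c1 q2 qx a y ε xs c' r q A N → 0 ≤ σ → σ ≤ 1 / 4 →
      ∀ ck : ℝ, 0 < ck → 2 * P.th ≤ ck → ck ≤ P.thp → ∀ i : ℕ, 6 ≤ i →
      ∀ᶠ n in atTop, ∀ R, 2 ^ (n + kf ck y n) ≤ R → R ≤ 2 ^ kE1 P ck y ε n →
        ∀ c : V (sd i R), (nuF b (sd i) (tn n) R).real {F | y n ^ (6 / 5 : ℝ) <
          RF (sd i R) b (tn n) ((6 : ℝ) • dcF9 ck c1 y i n R c F)} ≤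
          Real.exp (-(y n ^ (-(3 / 2 * c1)))) := by
  refine (H270.Ce.mapF_flow (b2 := b2) hb1 h1 hpf Q).mono fun P c1 _ hT => ?_
  obtain ⟨hc0, hc1, H⟩ := hT
  refine ⟨hc0, hc1, ?_⟩
  intro σ c q2 qx a y ε xs c' r q A N h hσ0 hσ ck hck hck2 hck1 i hi
  filter_upwards [H h hσ0 hσ ck hck hck2 hck1 i (by omega) 40000000 6 (by norm_num),
    eventually_ge_atTop 2] with n g1 hn R hR1 hR2 c
  have hS := smf_up (K := 40000000) (smf_dcp (p := c) (lC_pos n (kf ck y n))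
    (mpr_at (k := kf ck y n) hn hi hR1) (wts_at hi hR1)) le_rfl (by norm_num)
  exact g1 R hR1 hR2 _ _ _ 0 hS le_rfl (by have := H37.Sf.tn_pos n; positivity) 6
    (by rw [abs_of_pos] <;> norm_num)

/-- **the decorations of the shifts** -/
theorem g_flow {b b1 b2 pf : ℝ} (hb1 : 0 < b1) (h1 : b1 ≤ b) (hpf : 0 < pf) (Q : ℕ) :
    Ev b1 b2 pf Q fun P c1 => 0 < c1 ∧ c1 ≤ P.th / 100 ∧
      ∀ {σ c q2 qx : ℝ} {a y ε xs : ℕ → ℝ} {c' r q A : ℝ} {N : ℕ},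
      SFlow P b σ c c1 q2 qx a y ε xs c' r q A N → 0 ≤ σ → σ ≤ 1 / 4 →
      ∀ ck : ℝ, 0 < ck → 2 * P.th ≤ ck → ck ≤ P.thp → ∀ i : ℕ, 6 ≤ i →
      ∀ᶠ n in atTop, ∀ R, 2 ^ (n + kf ck y n) ≤ R → R ≤ 2 ^ kE1 P ck y ε n →
        ∀ c : V (sd i R), RF (sd i R) b (tn n)
          ((6 : ℝ) • dcF9 ck c1 y i n R c (gC i n (kE1 P ck y ε n) R)) ≤ y n ^ (9 / 8 : ℝ) := by
  have hb : 0 < b := hb1.trans_le h1
  refine (H816.smT_flow (b2 := b2) hb1 h1 hpf Q (δ := 1 / 16) (by norm_num) (by norm_num)).mono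
    fun P c1 _ hT => ?_
  obtain ⟨hc0, hc1, H⟩ := hT
  refine ⟨hc0, hc1, ?_⟩
  intro σ c q2 qx a y ε xs c' r q A N h hσ0 hσ ck hck hck2 hck1 i hi
  have hth := P.th0
  set G : ℝ := 40000000 * (60000000 * s0 ^ 2) with hG
  have hG0 : 0 < G := by have := s0_pos; positivity
  filter_upwards [H h hσ0 hσ ck hck hck2 hck1 i (by omega) c1 hc0.le (by linarith) 1,
    sf_big h (p := P.th / 8) (M := 96 * 6 ^ 2 * G) (by positivity) (by positivity),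
    H816.sf_expy h hc0 (9 / 8) (show (0 : ℝ) < 1 / (2 * (16 * 6 ^ 2 * G)) by positivity),
    sf_win h hσ hck hck1 0, eventually_ge_atTop N, eventually_ge_atTop 2]
    with n g1 g2 g3 g4 hnN hn R hR1 hR2 c
  have hy := h.fl.y0 n
  have hy1 := h.y1 n hnN
  have Py : ∀ a : ℝ, 0 < y n ^ a := fun a => Real.rpow_pos_of_pos hy a
  have k1 := en_g (K1 := kE1 P ck y ε n) (q := qF c1 y n) hn hi g4.1 (qF_pos c1 y n) hR1 hR2 c
  have k2 := (g1 R hR1 hR2).rf hb (H37.Sf.tn_pos n) (z := 6) k1 g2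
  refine k2.trans ?_
  have h2 : y n ^ (2 - 3 * σ - 1 / 16) ≤ y n ^ (9 / 8 : ℝ) :=
    Real.rpow_le_rpow_of_exponent_ge hy hy1 (by linarith)
  have h3 : 16 * (6 : ℝ) ^ 2 * Real.exp (-(1 * y n ^ (-c1))) * G ≤ y n ^ (9 / 8 : ℝ) / 2 := by
    rw [one_mul]
    have h4 : Real.exp (-(y n ^ (-c1))) ≤ 1 / (2 * (16 * 6 ^ 2 * G)) * y n ^ (9 / 8 : ℝ) := by
      have h5 : y n ^ (-(9 / 8 : ℝ)) * y n ^ (9 / 8 : ℝ) = 1 := by
        rw [← Real.rpow_add hy]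
        norm_num
      calc Real.exp (-(y n ^ (-c1))) = Real.exp (-(y n ^ (-c1))) * y n ^ (-(9 / 8 : ℝ)) *
            y n ^ (9 / 8 : ℝ) := by rw [mul_assoc, h5, mul_one]
        _ ≤ _ := mul_le_mul_of_nonneg_right g3 (Py _).le
    have h5 := mul_le_mul_of_nonneg_left h4 (show 0 ≤ 16 * 6 ^ 2 * G by positivity)
    have e : 16 * 6 ^ 2 * G * (1 / (2 * (16 * 6 ^ 2 * G)) * y n ^ (9 / 8 : ℝ)) =
        y n ^ (9 / 8 : ℝ) / 2 := by
      field_simp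
    rw [e] at h5
    linarith
  have := Py (9 / 8)
  linarith

/-- **the comparison of the windows** -/
theorem cmp_flow {b b1 b2 pf : ℝ} (hb1 : 0 < b1) (h1 : b1 ≤ b) (hpf : 0 < pf) (Q : ℕ) :
    Ev b1 b2 pf Q fun P c1 => 0 < c1 ∧ c1 ≤ P.th / 100 ∧
      ∀ {σ c q2 qx : ℝ} {a y ε xs : ℕ → ℝ} {c' r q A : ℝ} {N : ℕ},
      SFlow P b σ c c1 q2 qx a y ε xs c' r q A N → 0 < σ → σ ≤ 1 / 4 → 0 ≤ c → 4 * c ≤ σ →
      ∀ ck : ℝ, 0 < ck → 2 * P.th ≤ ck → ck ≤ P.thp → ∀ i : ℕ, 6 ≤ i →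
      ∀ᶠ n in atTop, ∃ τ : ℝ, 0 ≤ τ ∧ τ ≤ Real.exp (-(y n ^ (-c1))) ∧
        ∀ R, 2 ^ (n + kf ck y n) ≤ R → R ≤ 2 ^ kE1 P ck y ε n →
        Cmp (nuF b (sd i) (tn n) (2 ^ (n + kf ck y n))) (nuF b (sd i) (tn n) R)
          (wdS (sd i) (DC n (kf ck y n)) (2 ^ (n + kf ck y n))
            (gC i n (kE1 P ck y ε n) (2 ^ (n + kf ck y n))))
          (wdS (sd i) (DC n (kf ck y n)) R (gC i n (kE1 P ck y ε n) R)) (1 / 40) τ := by
  have hb : 0 < b := hb1.trans_le h1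
  refine ((H37.Sf.cs_level hb1 b2 pf Q).and (H816.sit_flow (b2 := b2) hb1 h1 hpf Q)).mono
    fun P c1 hAdm hT => ?_
  obtain ⟨H, hc0, hc1, H'⟩ := hT
  refine ⟨hc0, hc1, ?_⟩
  intro σ c q2 qx a y ε xs c' r q A N h hσ0 hσ hc hc4 ck hck hck2 hck1 i hi
  have hth := P.th0
  have hthp1 : P.thp ≤ 1 := by
    have := hAdm.hx
    have := hAdm.x11
    linarith
  filter_upwards [H h hb hσ0 hσ hc hc4 ck hck hck2 hck1 c1 hc0 (by linarith) i hi,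
    sf_D h hck (hck1.trans hthp1) 6,
    H' h hσ0.le hσ ck hck hck2 hck1 i (by omega) c1 (by linarith) 4 1 1 (1 / 4000) 1 one_pos
      (by norm_num)] with n hn hD hW
  have hD1 : 1 ≤ DC n (kf ck y n) := by
    rw [DC_eq]
    exact Nat.one_le_two_pow
  have hD2 : ((DC n (kf ck y n) : ℕ) : ℝ) ≤ y n ^ (-(ck / 8)) * 2 ^ n := by
    rw [DC_eq]
    exact hD
  obtain ⟨τ, κP, hτ0, hτ1, -, -, hcmp, -⟩ := hn
    (fun R => Vale.Agent.P159.H770.wTD (sd i R) b 0) (fun _ => 0)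
    (fun R => H883.bw_wTD hb _) (DC n (kf ck y n)) hD1 hD2
    (1 / 4000) (Real.exp (-(4 * y n ^ (-c1)))) (by norm_num) le_rfl le_rfl
    (fun R g1 g2 => (hW.2 R g1 g2).2.2)
  exact ⟨τ, hτ0, hτ1, fun R g1 g2 => hcmp R g1 g2⟩

/-- **THE FIELD `mem` ALONG THE FLOW** for the class `DD`: the only input is an event for the torus
free class `E` (the same at all pairs of the level) -/
theorem mem_flow {b b1 b2 pf : ℝ} (hb1 : 0 < b1) (h1 : b1 ≤ b) (hpf : 0 < pf) (Q : ℕ) :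
    Ev b1 b2 pf Q fun P c1 => 0 < c1 ∧ c1 ≤ P.th / 100 ∧
      ∀ {σ c q2 qx : ℝ} {a y ε xs : ℕ → ℝ} {c' r q A : ℝ} {N : ℕ},
      SFlow P b σ c c1 q2 qx a y ε xs c' r q A N → 0 < σ → σ ≤ 1 / 4 → 0 ≤ c → 4 * c ≤ σ →
      ∀ ck : ℝ, 0 < ck → 2 * P.th ≤ ck → ck ≤ P.thp → ∀ i : ℕ, 6 ≤ i →
      ∀ c3 : ℝ, 0 < c3 → c3 < c1 → ∀ κ0 κ1 : ℝ, κ1 < κ0 → ∀ E : ℕ → Dec,
      (∀ᶠ n in atTop, ∀ R, 2 ^ (n + kf ck y n) ≤ R → R ≤ 2 ^ kE1 P ck y ε n →
        ∃ C3 : Set (V (sd i R) → ℝ), MeasurableSet C3 ∧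
          (nuF b (sd i) (tn n) R).real C3ᶜ ≤ Real.exp (-(κ0 * y n ^ (-c3))) ∧
          ∀ F ∈ C3,
          T0 (kapF ck y n) n (kf ck y n) (qF c1 y n) (DC n (kf ck y n))
            (wdS (sd i) (DC n (kf ck y n)) R (gC i n (kE1 P ck y ε n) R) F) ∈ E n ∧
          rfl2 (T0 (kapF ck y n) n (kf ck y n) (qF c1 y n) (DC n (kf ck y n))
            (wdS (sd i) (DC n (kf ck y n)) R (gC i n (kE1 P ck y ε n) R) F)) ∈ E n ∧
          T1 (kapF ck y n) n (kf ck y n) (qF c1 y n) (DC n (kf ck y n))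
            (wdS (sd i) (DC n (kf ck y n)) R (gC i n (kE1 P ck y ε n) R) F) ∈ E n ∧
          rfl2 (T1 (kapF ck y n) n (kf ck y n) (qF c1 y n) (DC n (kf ck y n))
            (wdS (sd i) (DC n (kf ck y n)) R (gC i n (kE1 P ck y ε n) R) F)) ∈ E n) →
      ∀ᶠ n in atTop, ∀ R, 2 ^ (n + kf ck y n) ≤ R → R ≤ 2 ^ kE1 P ck y ε n →
        MemP b i (tn n) (T0 (kapF ck y n) n (kf ck y n) (qF c1 y n) (DC n (kf ck y n)))
          (T1 (kapF ck y n) n (kf ck y n) (qF c1 y n) (DC n (kf ck y n))) R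
          (gC i n (kE1 P ck y ε n) R)
          (DD i b (tn n) (y n ^ (9 / 8 : ℝ)) (l0C n (kf ck y n)) (n + kf ck y n)
            (kE1 P ck y ε n) (E n))
          (DD i b (tn n) (y n ^ (9 / 8 : ℝ)) (l0C n (kf ck y n)) (n + kf ck y n)
            (kE1 P ck y ε n) (E n)) (Real.exp (-(κ1 * y n ^ (-c3)))) := by
  have hb : 0 < b := hb1.trans_le h1
  refine ((((own_flow (b2 := b2) hb1 h1 hpf Q).and (g_flow (b2 := b2) hb1 h1 hpf Q)).and
    (cmp_flow (b2 := b2) hb1 h1 hpf Q)).and (H816.ev_M (b1 := b1) (b2 := b2) (pf := pf) Q)).mono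
    fun P c1 hA hT => ?_
  obtain ⟨⟨⟨⟨hc0, hc1, H1⟩, -, -, H2⟩, -, -, H3⟩, hM⟩ := hT
  refine ⟨hc0, hc1, ?_⟩
  intro σ c q2 qx a y ε xs c' r q A N h hσ0 hσ hc hc4 ck hck hck2 hck1 i hi c3 hc3 hc31 κ0 κ1 hκ E
    hE
  filter_upwards [H1 h hσ0.le hσ ck hck hck2 hck1 i hi, H2 h hσ0.le hσ ck hck hck2 hck1 i hi,
    H3 h hσ0 hσ hc hc4 ck hck hck2 hck1 i hi, sf_K1 h hA hσ0.le hσ hM hck hck1 hck2,
    sum_num h hc3 hc31 hκ, hE, eventually_ge_atTop N, eventually_ge_atTop 2]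
    with n own gg ⟨τ, hτ0, hτ1, hcmp⟩ ⟨hk, hK⟩ hsum hE' hnN hn R hR1 hR2
  have hy := h.fl.y0 n
  have hy1 := h.y1 n hnN
  obtain ⟨C3, mC, hC, hmem⟩ := hE' R hR1 hR2
  have hp : (((kE1 P ck y ε n : ℕ) : ℝ) - ((n + kf ck y n : ℕ) : ℝ) + 1) *
      (4 * Real.exp (-(y n ^ (-(3 / 2 * c1)))) + 4 * τ) + Real.exp (-(κ0 * y n ^ (-c3))) ≤
      Real.exp (-(κ1 * y n ^ (-c3))) := by
    refine hsum _ _ τ ?_ hK le_rfl hτ1
    have h3 : ((n + kf ck y n : ℕ) : ℝ) ≤ ((kE1 P ck y ε n : ℕ) : ℝ) := by exact_mod_cast hk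
    linarith
  have hpow : ∀ k : ℕ, n + kf ck y n ≤ k → k ≤ kE1 P ck y ε n →
      2 ^ (n + kf ck y n) ≤ 2 ^ k ∧ 2 ^ k ≤ 2 ^ kE1 P ck y ε n := fun k a0 a1 =>
    ⟨Nat.pow_le_pow_right (by norm_num) a0, Nat.pow_le_pow_right (by norm_num) a1⟩
  have key := memP_of (i := i) (n := n) (kf := kf ck y n) (K1 := kE1 P ck y ε n)
    (q := qF c1 y n) (D := DC n (kf ck y n)) (k0 := n + kf ck y n) (k1 := kE1 P ck y ε n) (b := b)
    (t := tn n) (h := 1 / 40) (τ := τ) (p := Real.exp (-(y n ^ (-(3 / 2 * c1)))))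
    (p' := Real.exp (-(κ0 * y n ^ (-c3)))) (r1 := y n ^ (9 / 8 : ℝ)) (L1 := y n ^ (6 / 5 : ℝ))
    (L2 := y n ^ (9 / 8 : ℝ)) (κ := kapF ck y n) (E := E n) hb (H37.Sf.tn_pos n) le_rfl
    (sum_kapF ck y hn) (qF_pos c1 y n) ?_ ?_ hcmp
    (fun k a0 a1 c => own (2 ^ k) (hpow k a0 a1).1 (hpow k a0 a1).2 c)
    (fun k a0 a1 c => gg (2 ^ k) (hpow k a0 a1).1 (hpow k a0 a1).2 c) ?_ hR1 hR2 mC hC hmem
  · obtain ⟨G, mG, hG, h2⟩ := key
    exact ⟨G, mG, hG.trans hp, h2⟩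
  · have h2 : 2 ^ n ≤ lC n (kf ck y n) := Nat.pow_le_pow_right (by norm_num) (Nat.le_add_right _ _)
    have h3 := qF_le c1 y n
    unfold H145.Sp.DC
    omega
  · have h2 := sd_big (n := n) (k := kf ck y n) (R := 2 ^ (n + kf ck y n)) hi le_rfl
    rwa [sd_pow] at h2
  · have h2 : y n ^ (6 / 5 : ℝ) ≤ y n ^ (9 / 8 : ℝ) :=
      Real.rpow_le_rpow_of_exponent_ge hy hy1 (by norm_num)
    linarith

end

end Vale.Agent.P159.H773
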