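import Vale.Agent.P159.H773.Upper

/-!
P159 (helper773): explicit neutral dislocation between two sites of the torus.
-/

open MeasureTheory Filter Topology
open scoped BigOperators

set_option linter.all false

namespace Vale.Agent.P159.H773

open Vale.Agent.P159 Vale.Agent.P159.TM.H331
open Vale.Agent.P159.H770 (wTD Ed)

variable {M : ℕ}

/-- signed indicator of `a < k ≤ a'` -/
def sgk (a a' k : ℕ) : ℤ := (if k ≤ a' then 1 else 0) - (if k ≤ a then 1 else 0)

lemma sgk_zero (a a' : ℕ) : sgk a a' 0 = 0 := by simp [sgk]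

lemma sgk_succ (a a' k : Fin (M + 2)) :
    sgk a a' (k + 1 : Fin (M + 2)) - sgk a a' k =
      (if k = a then 1 else 0) - (if k = a' then 1 else 0) := by
  have ha := a.2
  have ha' := a'.2
  have hk := k.2
  by_cases h : k = Fin.last (M + 1)
  · have h1 : ((k + 1 : Fin (M + 2)) : ℕ) = 0 := by
      rw [h, Fin.last_add_one]
      rfl
    have h2 : (k : ℕ) = M + 1 := by rw [h, Fin.val_last]
    rw [h1, sgk_zero]
    unfold sgk
    simp only [Fin.ext_iff, h2]
    split_ifs <;> omega
  · have h1 : ((k + 1 : Fin (M + 2)) : ℕ) = k + 1 := Fin.val_add_one_of_lt (Fin.lt_last_iff_ne_last.2 h)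
    rw [h1]
    unfold sgk
    simp only [Fin.ext_iff]
    split_ifs <;> omega

/-- the path from `p` to `q`: first in the first coordinate -/
def pth (p q : St M) (c : (Fin (M + 2) × Fin (M + 2)) × Bool) : ℤ :=
  if c.2 then (if c.1.2 = p.2 then sgk p.1 q.1 c.1.1 else 0)
  else (if c.1.1 = q.1 then -sgk p.2 q.2 c.1.2 else 0)

theorem pth_dsl (p q : St M) : Dsl (pth p q) p q where
  curl v := by
    obtain ⟨i, j⟩ := v
    obtain ⟨a, c⟩ := p
    obtain ⟨a', c'⟩ := q
    have h1 := sgk_succ a a' i
    have h2 := sgk_succ c c' j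
    have e1 : curl (pth (a, c) (a', c')) (i, j) =
        (if j = c then sgk a a' (i + 1 : Fin (M + 2)) - sgk a a' i else 0) +
          (if i = a' then sgk c c' (j + 1 : Fin (M + 2)) - sgk c c' j else 0) := by
      unfold curl pth
      simp only [Bool.false_eq_true, if_false, if_true, Prod.mk_add_mk, add_zero]
      split_ifs <;> ring
    rw [e1, h1, h2]
    unfold src
    simp only [Prod.mk.injEq]
    by_cases x1 : i = a <;> by_cases x2 : i = a' <;> by_cases x3 : j = c <;>
      by_cases x4 : j = c' <;> simp only [x1, x2, x3, x4, if_true, if_false, and_true,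
        and_false, true_and, false_and] <;> simp_all
  row := by
    refine Finset.sum_eq_zero fun j _ => ?_
    unfold pth
    simp [sgk_zero]
  col := by
    refine Finset.sum_eq_zero fun j _ => ?_
    unfold pth
    simp [sgk_zero]

lemma sum_le_ind (a : Fin (M + 2)) :
    ∑ k : Fin (M + 2), (if (k : ℕ) ≤ a then (1 : ℤ) else 0) = a + 1 := by
  have ha := a.2
  rw [← Finset.sum_range (fun k => if k ≤ (a : ℕ) then (1 : ℤ) else 0), ← Finset.sum_filter,
    Finset.sum_const, nsmul_eq_mul, mul_one]
  have e : (Finset.range (M + 2)).filter (fun k => k ≤ (a : ℕ)) = Finset.range (a + 1) := by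
    ext k
    simp only [Finset.mem_filter, Finset.mem_range]
    omega
  rw [e, Finset.card_range]
  push_cast
  ring

lemma sum_sgk (a a' : Fin (M + 2)) : ∑ k : Fin (M + 2), sgk a a' k = (a' : ℤ) - a := by
  unfold sgk
  rw [Finset.sum_sub_distrib, sum_le_ind, sum_le_ind]
  ring

lemma sum_pth_true (p q : St M) :
    ∑ x : Fin (M + 2) × Fin (M + 2), pth p q (x, true) = (q.1 : ℤ) - p.1 := by
  rw [Fintype.sum_prod_type, ← sum_sgk]
  refine Finset.sum_congr rfl fun i _ => ?_
  unfold pth
  simp

lemma sum_pth_false (p q : St M) :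
    ∑ x : Fin (M + 2) × Fin (M + 2), pth p q (x, false) = -((q.2 : ℤ) - p.2) := by
  rw [Fintype.sum_prod_type, Finset.sum_comm, ← sum_sgk, ← Finset.sum_neg_distrib]
  refine Finset.sum_congr rfl fun j _ => ?_
  unfold pth
  simp

lemma abs_pth_le (p q : St M) (c : (Fin (M + 2) × Fin (M + 2)) × Bool) : |pth p q c| ≤ 1 := by
  unfold pth sgk
  split_ifs <;> norm_num

/-- two point function of the neutral torus as a ratio of partition functions -/
theorem cT_pth {b : ℝ} (hb : 0 ≤ b) (p q : St M) :
    cT M b p q = ZN M b (pth p q) / ZN M b 0 :=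
  cT_heights hb (pth_dsl p q)

end Vale.Agent.P159.H773
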