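import Mathlib.Data.ZMod.Basic
import Mathlib.Algebra.BigOperators.Fin
import Mathlib.Algebra.BigOperators.Intervals
import Mathlib.Tactic

/-!
P159 (helper773): integer fields on the torus `ZMod N × ZMod N` without curl and without winding
are gradients.
-/

open scoped BigOperators

set_option linter.all false

namespace Vale.Agent.P159.H773

/-- sum over a period -/
lemma sum_zmod {N : ℕ} [NeZero N] {A : Type*} [AddCommMonoid A] (f : ZMod N → A) :
    ∑ i ∈ Finset.range N, f (i : ZMod N) = ∑ x : ZMod N, f x := by
  refine Finset.sum_nbij' (fun i => (i : ZMod N)) (fun x => x.val) ?_ ?_ ?_ ?_ ?_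
  · intro i _
    exact Finset.mem_univ _
  · intro x _
    exact Finset.mem_range.2 (ZMod.val_lt x)
  · intro i hi
    exact ZMod.val_cast_of_lt (Finset.mem_range.1 hi)
  · intro x _
    exact ZMod.natCast_zmod_val x
  · intro i _
    rfl

/-- **potentials on the torus** -/
theorem torus_pot {N : ℕ} [NeZero N] (A B : ZMod N × ZMod N → ℤ)
    (hc : ∀ x, A x + B (x + (1, 0)) - A (x + (0, 1)) - B x = 0)
    (hA : ∑ i : ZMod N, A (i, 0) = 0) (hB : ∑ j : ZMod N, B (0, j) = 0) :
    ∃ h : ZMod N × ZMod N → ℤ, ∀ x, h (x + (1, 0)) - h x = A x ∧ h (x + (0, 1)) - h x = B x := by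
  -- natural coordinates
  set a : ℕ → ℕ → ℤ := fun i j => A ((i : ZMod N), (j : ZMod N)) with ha
  set c : ℕ → ℕ → ℤ := fun i j => B ((i : ZMod N), (j : ZMod N)) with hcdef
  have hcurl : ∀ i j, a i j + c (i + 1) j - a i (j + 1) - c i j = 0 := by
    intro i j
    have h := hc ((i : ZMod N), (j : ZMod N))
    simp only [ha, hcdef]
    have e1 : ((i : ZMod N), (j : ZMod N)) + ((1, 0) : ZMod N × ZMod N) =
        (((i + 1 : ℕ) : ZMod N), (j : ZMod N)) := by
      ext <;> simp
    have e2 : ((i : ZMod N), (j : ZMod N)) + ((0, 1) : ZMod N × ZMod N) =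
        ((i : ZMod N), ((j + 1 : ℕ) : ZMod N)) := by
      ext <;> simp
    rw [e1, e2] at h
    exact h
  have hpi : ∀ i j, a (i + N) j = a i j := by
    intro i j
    simp only [ha]
    congr 2
    simp
  have hpj : ∀ i j, c i (j + N) = c i j := by
    intro i j
    simp only [hcdef]
    congr 2
    simp
  have hpi' : ∀ i j, c (i + N) j = c i j := by
    intro i j
    simp only [hcdef]
    congr 2
    simp
  set H : ℕ → ℕ → ℤ := fun i j =>
    ∑ i' ∈ Finset.range i, a i' 0 + ∑ j' ∈ Finset.range j, c i j' with hH
  have H2 : ∀ i j, H i (j + 1) - H i j = c i j := by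
    intro i j
    simp only [hH, Finset.sum_range_succ]
    ring
  have H1 : ∀ i j, H (i + 1) j - H i j = a i j := by
    intro i j
    induction j with
    | zero => simp [hH, Finset.sum_range_succ]
    | succ j ih =>
      have h1 := H2 (i + 1) j
      have h2 := H2 i j
      have h3 := hcurl i j
      linarith
  have hA0 : ∑ i ∈ Finset.range N, a i 0 = 0 := by
    have h := sum_zmod (N := N) (fun i => A (i, 0))
    rw [hA] at h
    rw [← h]
    refine Finset.sum_congr rfl fun i _ => ?_
    simp [ha]
  have hBi : ∀ i, ∑ j ∈ Finset.range N, c i j = 0 := by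
    intro i
    induction i with
    | zero =>
      have h := sum_zmod (N := N) (fun j => B (0, j))
      rw [hB] at h
      rw [← h]
      refine Finset.sum_congr rfl fun j _ => ?_
      simp [hcdef]
    | succ i ih =>
      have h1 : ∑ j ∈ Finset.range N, (c (i + 1) j - c i j) =
          ∑ j ∈ Finset.range N, (a i (j + 1) - a i j) :=
        Finset.sum_congr rfl fun j _ => by linarith [hcurl i j]
      rw [Finset.sum_sub_distrib, ih, sub_zero, Finset.sum_range_sub (fun j => a i j)] at h1
      rw [h1]
      have h2 : a i N = a i 0 := by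
        simp only [ha]
        congr 2
        simp
      rw [h2, sub_self]
  have HpI : ∀ i j, H (i + N) j = H i j := by
    intro i j
    have e1 : ∑ i' ∈ Finset.range (i + N), a i' 0 = ∑ i' ∈ Finset.range i, a i' 0 := by
      rw [add_comm i N, Finset.sum_range_add, hA0, zero_add]
      refine Finset.sum_congr rfl fun k _ => ?_
      rw [add_comm N k, hpi]
    simp only [hH]
    rw [e1]
    congr 1
    exact Finset.sum_congr rfl fun k _ => hpi' i k
  have HpJ : ∀ i j, H i (j + N) = H i j := by
    intro i j
    simp only [hH]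
    congr 1
    rw [add_comm j N, Finset.sum_range_add, hBi, zero_add]
    refine Finset.sum_congr rfl fun k _ => ?_
    rw [add_comm N k, hpj]
  have HmI : ∀ i j, H (i % N) j = H i j := by
    intro i j
    have hp : Function.Periodic (fun i => H i j) N := fun i => HpI i j
    exact hp.map_mod_nat i
  have HmJ : ∀ i j, H i (j % N) = H i j := by
    intro i j
    have hp : Function.Periodic (fun j => H i j) N := fun j => HpJ i j
    exact hp.map_mod_nat j
  refine ⟨fun x => H x.1.val x.2.val, fun x => ?_⟩
  obtain ⟨x1, x2⟩ := x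
  have v1 : ∀ y : ZMod N, (y + 1).val = (y.val + 1) % N := by
    intro y
    have h := ZMod.val_natCast N (y.val + 1)
    have e : ((y.val + 1 : ℕ) : ZMod N) = y + 1 := by
      push_cast
      rw [ZMod.natCast_zmod_val]
    rw [e] at h
    exact h
  constructor
  · show H (x1 + 1).val (x2 + 0).val - H x1.val x2.val = A (x1, x2)
    rw [add_zero, v1, HmI, H1]
    simp [ha]
  · show H (x1 + 0).val (x2 + 1).val - H x1.val x2.val = B (x1, x2)
    rw [add_zero, v1, HmJ, H2]
    simp [hcdef]

/-- a function with zero gradient on the torus is constant -/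
theorem torus_const {N : ℕ} [NeZero N] {A : Type*} (h : ZMod N × ZMod N → A)
    (h1 : ∀ x, h (x + (1, 0)) = h x) (h2 : ∀ x, h (x + (0, 1)) = h x) (x y : ZMod N × ZMod N) :
    h x = h y := by
  have k1 : ∀ (n : ℕ) (x : ZMod N × ZMod N), h (x + ((n : ZMod N), 0)) = h x := by
    intro n
    induction n with
    | zero =>
      intro x
      congr 1
      ext <;> simp
    | succ n ih =>
      intro x
      have e : x + (((n + 1 : ℕ) : ZMod N), (0 : ZMod N)) = (x + ((n : ZMod N), 0)) + (1, 0) := by
        ext
        · simp only [Prod.fst_add]; push_cast; ring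
        · simp
      rw [e, h1, ih]
  have k2 : ∀ (n : ℕ) (x : ZMod N × ZMod N), h (x + (0, (n : ZMod N))) = h x := by
    intro n
    induction n with
    | zero =>
      intro x
      congr 1
      ext <;> simp
    | succ n ih =>
      intro x
      have e : x + ((0 : ZMod N), ((n + 1 : ℕ) : ZMod N)) = (x + (0, (n : ZMod N))) + (0, 1) := by
        ext
        · simp
        · simp only [Prod.snd_add]; push_cast; ring
      rw [e, h2, ih]
  have key : ∀ z : ZMod N × ZMod N, h z = h 0 := by
    intro z
    have e : z = (0 + ((z.1.val : ZMod N), 0)) + (0, (z.2.val : ZMod N)) := by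
      ext <;> simp
    rw [e, k2, k1]
  rw [key x, key y]

end Vale.Agent.P159.H773
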