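import Vale.Agent.P159.H773.Upper
import Vale.Agent.P159.TM.H389.Box

/-!
P159 (helper773), fixed ratio transfer, part 1: Ginibre inequalities for pinned spins.
-/

open MeasureTheory Filter Topology
open scoped BigOperators

set_option linter.all false

namespace Vale.Agent.P159.H773

open Vale.Agent.P159 Vale.Agent.P159.H353 Vale.Agent.P159.T1.H42 Vale.Agent.P159.TM.H389
open Vale.Agent.P159.TM.H331

section gen

variable {V : Type} [Fintype V]

/-- finite version of a set of sites -/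
noncomputable def fs (S : Set V) : Finset V := by
  classical
  exact Finset.univ.filter (fun v => v ∈ S)

lemma coe_fs (S : Set V) : ((fs S : Finset V) : Set V) = S := by
  classical
  ext v
  simp [fs]

/-- strong fields -/
noncomputable def PS (n : ℕ) (S : Set V) : C(V → T, ℝ) := PK n (fs S) (0 : V → T)

lemma PS_cos (n : ℕ) (S : Set V) : PS n S ∈ (PG (V → T)).cosS := by
  refine Pos.cexp_cosS _ (Subsemiring.mul_mem _ (Pos.cosS_const _ _ (Nat.cast_nonneg n)) ?_)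
  have e : ps (fs S) (0 : V → T) = ∑ v ∈ fs S, cc (sp v) := by
    ext θ
    rw [ContinuousMap.coe_sum, Finset.sum_apply, ps_apply]
    refine Finset.sum_congr rfl fun v _ => ?_
    show cosT (θ v - 0) = cosT (θ v)
    rw [sub_zero]
  rw [e]
  exact Subsemiring.sum_mem _ fun v _ => PG_cos _

lemma PS_wt (n : ℕ) (S : Set V) : pl (PS n S) * mi (PS n S) ∈ (PG (V → T)).S := by
  refine wt_cexp (Subsemiring.mul_mem _ (Pos.cosS_const _ _ (Nat.cast_nonneg n)) ?_)
  have e : ps (fs S) (0 : V → T) = ∑ v ∈ fs S, cc (sp v) := by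
    ext θ
    rw [ContinuousMap.coe_sum, Finset.sum_apply, ps_apply]
    refine Finset.sum_congr rfl fun v _ => ?_
    show cosT (θ v - 0) = cosT (θ v)
    rw [sub_zero]
  rw [e]
  exact Subsemiring.sum_mem _ fun v _ => PG_cos _

lemma PS_peak (S : Set V) {f : (V → T) → ℝ} (hf : Continuous f) :
    Tendsto (fun n => (NN n (fs S) (0 : V → T))⁻¹ * ∫ θ, PS n S θ * f θ ∂(torusHaar V)) atTop
      (𝓝 (∫ θ, f (pin S 0 θ) ∂(torusHaar V))) := by
  have h := peak (fs S) (0 : V → T) hf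
  rw [coe_fs] at h
  exact h

lemma PS_pin (n : ℕ) (S : Set V) {S' : Set V} (h : S ⊆ S') (θ : V → T) :
    PS n S (pin S' 0 θ) = PS n S 0 := by
  unfold PS
  rw [PK_apply, PK_apply]
  congr 2
  refine Finset.sum_congr rfl fun v hv => ?_
  have hv' : v ∈ S := by
    rw [← coe_fs S]
    exact hv
  rw [pin_mem (h hv')]

/-- Ginibre's inequality with pinned spins -/
theorem infl_pin {w X Y : C(V → T, ℝ)} (hw : pl w * mi w ∈ (PG (V → T)).S)
    (hX : X ∈ (PG (V → T)).cosS) (hY : Y ∈ (PG (V → T)).cosS) (S : Set V) :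
    (∫ θ, w (pin S 0 θ) * X (pin S 0 θ) ∂(torusHaar V)) *
      (∫ θ, w (pin S 0 θ) * Y (pin S 0 θ) ∂(torusHaar V)) ≤
      (∫ θ, w (pin S 0 θ) * (X (pin S 0 θ) * Y (pin S 0 θ)) ∂(torusHaar V)) *
        ∫ θ, w (pin S 0 θ) ∂(torusHaar V) := by
  have key : ∀ n : ℕ, (∫ θ, PS n S θ * (w θ * X θ) ∂(torusHaar V)) *
      (∫ θ, PS n S θ * (w θ * Y θ) ∂(torusHaar V)) ≤
      (∫ θ, PS n S θ * (w θ * (X θ * Y θ)) ∂(torusHaar V)) *
        ∫ θ, PS n S θ * w θ ∂(torusHaar V) := by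
    intro n
    have h := inflV (w := PS n S * w) (A := 1) (B := X) (C := 1) (D := Y)
      (wt_mul (PS_wt n S) hw) (Lew_one_iff.2 hX) (Lew_one_iff.2 hY)
    refine le_trans (le_of_eq ?_) (h.trans (le_of_eq ?_))
    · rw [mul_comm]
      congr 1
      · refine integral_congr_ae (Eventually.of_forall fun θ => ?_)
        show _ = (PS n S θ * w θ) * (1 * Y θ)
        ring
      · refine integral_congr_ae (Eventually.of_forall fun θ => ?_)
        show _ = (PS n S θ * w θ) * (X θ * 1)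
        ring
    · congr 1
      · refine integral_congr_ae (Eventually.of_forall fun θ => ?_)
        show (PS n S θ * w θ) * (X θ * Y θ) = _
        ring
      · refine integral_congr_ae (Eventually.of_forall fun θ => ?_)
        show (PS n S θ * w θ) * (1 * 1) = _
        ring
  have c1 : Continuous fun θ : V → T => w θ * X θ := by fun_prop
  have c2 : Continuous fun θ : V → T => w θ * Y θ := by fun_prop
  have c3 : Continuous fun θ : V → T => w θ * (X θ * Y θ) := by fun_prop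
  refine le_of_tendsto_of_tendsto' ((PS_peak S c1).mul (PS_peak S c2))
    ((PS_peak S c3).mul (PS_peak S w.continuous)) fun n => ?_
  have q1 : 0 < NN n (fs S) (0 : V → T) := NN_pos n (fs S) 0
  have q2 : 0 ≤ (NN n (fs S) (0 : V → T))⁻¹ * (NN n (fs S) (0 : V → T))⁻¹ := by positivity
  calc _ = ((NN n (fs S) (0 : V → T))⁻¹ * (NN n (fs S) (0 : V → T))⁻¹) *
        ((∫ θ, PS n S θ * (w θ * X θ) ∂(torusHaar V)) *
      (∫ θ, PS n S θ * (w θ * Y θ) ∂(torusHaar V))) := by ring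
    _ ≤ _ := mul_le_mul_of_nonneg_left (key n) q2
    _ = _ := by ring

/-- pinning more spins increases -/
theorem pin_mono {w U : C(V → T, ℝ)} (hw : pl w * mi w ∈ (PG (V → T)).S)
    (hU : U ∈ (PG (V → T)).cosS) {S S' : Set V} (hS : S ⊆ S') :
    (∫ θ, w (pin S 0 θ) * U (pin S 0 θ) ∂(torusHaar V)) *
      (∫ θ, w (pin S' 0 θ) ∂(torusHaar V)) ≤
      (∫ θ, w (pin S' 0 θ) * U (pin S' 0 θ) ∂(torusHaar V)) *
        ∫ θ, w (pin S 0 θ) ∂(torusHaar V) := by
  have key : ∀ n : ℕ, (∫ θ, PS n S θ * (w θ * U θ) ∂(torusHaar V)) *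
      (∫ θ, w (pin S' 0 θ) ∂(torusHaar V)) ≤
      (∫ θ, w (pin S' 0 θ) * U (pin S' 0 θ) ∂(torusHaar V)) *
        ∫ θ, PS n S θ * w θ ∂(torusHaar V) := by
    intro n
    have h := pin_le (w := PS n S * w) (U := U) (wt_mul (PS_wt n S) hw) hU S'
    have hc : 0 < PS n S (0 : V → T) := PK_pos _ _ _ _
    have e1 : ∫ θ, (PS n S * w) (pin S' 0 θ) ∂(torusHaar V) =
        PS n S 0 * ∫ θ, w (pin S' 0 θ) ∂(torusHaar V) := by
      rw [← integral_const_mul]
      refine integral_congr_ae (Eventually.of_forall fun θ => ?_)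
      show PS n S (pin S' 0 θ) * w (pin S' 0 θ) = _
      rw [PS_pin n S hS]
    have e2 : ∫ θ, (PS n S * w) (pin S' 0 θ) * U (pin S' 0 θ) ∂(torusHaar V) =
        PS n S 0 * ∫ θ, w (pin S' 0 θ) * U (pin S' 0 θ) ∂(torusHaar V) := by
      rw [← integral_const_mul]
      refine integral_congr_ae (Eventually.of_forall fun θ => ?_)
      show (PS n S (pin S' 0 θ) * w (pin S' 0 θ)) * _ = _
      rw [PS_pin n S hS]
      ring
    rw [e1, e2] at h
    refine le_of_mul_le_mul_left ?_ hc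
    calc _ = (∫ θ, PS n S θ * (w θ * U θ) ∂(torusHaar V)) *
          (PS n S 0 * ∫ θ, w (pin S' 0 θ) ∂(torusHaar V)) := by ring
      _ = (∫ θ, (PS n S * w) θ * U θ ∂(torusHaar V)) *
          (PS n S 0 * ∫ θ, w (pin S' 0 θ) ∂(torusHaar V)) := by
          congr 1
          refine integral_congr_ae (Eventually.of_forall fun θ => ?_)
          show _ = (PS n S θ * w θ) * U θ
          ring
      _ ≤ _ := h
      _ = PS n S 0 * ((∫ θ, w (pin S' 0 θ) * U (pin S' 0 θ) ∂(torusHaar V)) *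
          ∫ θ, (PS n S * w) θ ∂(torusHaar V)) := by ring
      _ = _ := rfl
  have c1 : Continuous fun θ : V → T => w θ * U θ := by fun_prop
  refine le_of_tendsto_of_tendsto'
    ((PS_peak S c1).mul_const (∫ θ, w (pin S' 0 θ) ∂(torusHaar V)))
    ((PS_peak S w.continuous).const_mul (∫ θ, w (pin S' 0 θ) * U (pin S' 0 θ)
      ∂(torusHaar V))) fun n => ?_
  have q1 : 0 < NN n (fs S) (0 : V → T) := NN_pos n (fs S) 0
  calc _ = (NN n (fs S) (0 : V → T))⁻¹ * ((∫ θ, PS n S θ * (w θ * U θ) ∂(torusHaar V)) *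
      (∫ θ, w (pin S' 0 θ) ∂(torusHaar V))) := by ring
    _ ≤ (NN n (fs S) (0 : V → T))⁻¹ * ((∫ θ, w (pin S' 0 θ) * U (pin S' 0 θ) ∂(torusHaar V)) *
        ∫ θ, PS n S θ * w θ ∂(torusHaar V)) :=
          mul_le_mul_of_nonneg_left (key n) (inv_nonneg.2 q1.le)
    _ = _ := by ring

/-- expectation with the spins in `S` pinned at `0` -/
noncomputable def eP (w : C(V → T, ℝ)) (S : Set V) (U : (V → T) → ℝ) : ℝ :=
  (∫ θ, w (pin S 0 θ) * U (pin S 0 θ) ∂(torusHaar V)) / ∫ θ, w (pin S 0 θ) ∂(torusHaar V)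

lemma eP_den_pos {w : C(V → T, ℝ)} (h0 : ∀ θ, 0 < w θ) (S : Set V) :
    0 < ∫ θ, w (pin S 0 θ) ∂(torusHaar V) :=
  ipos (w.continuous.comp (pin_cont S 0)) fun θ => h0 _

theorem eP_mono {w U : C(V → T, ℝ)} (hw : pl w * mi w ∈ (PG (V → T)).S) (h0 : ∀ θ, 0 < w θ)
    (hU : U ∈ (PG (V → T)).cosS) {S S' : Set V} (hS : S ⊆ S') :
    eP w S U ≤ eP w S' U := by
  unfold eP
  rw [div_le_div_iff₀ (eP_den_pos h0 S) (eP_den_pos h0 S')]
  exact pin_mono hw hU hS

theorem eP_mul {w X Y : C(V → T, ℝ)} (hw : pl w * mi w ∈ (PG (V → T)).S) (h0 : ∀ θ, 0 < w θ)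
    (hX : X ∈ (PG (V → T)).cosS) (hY : Y ∈ (PG (V → T)).cosS) (S : Set V) :
    eP w S X * eP w S Y ≤ eP w S fun θ => X θ * Y θ := by
  unfold eP
  have h := infl_pin hw hX hY S
  have p := eP_den_pos h0 S
  rw [div_mul_div_comm, div_le_div_iff₀ (mul_pos p p) p]
  calc _ = ((∫ θ, w (pin S 0 θ) * X (pin S 0 θ) ∂(torusHaar V)) *
      (∫ θ, w (pin S 0 θ) * Y (pin S 0 θ) ∂(torusHaar V))) *
        ∫ θ, w (pin S 0 θ) ∂(torusHaar V) := by ring
    _ ≤ ((∫ θ, w (pin S 0 θ) * (X (pin S 0 θ) * Y (pin S 0 θ)) ∂(torusHaar V)) *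
        ∫ θ, w (pin S 0 θ) ∂(torusHaar V)) * ∫ θ, w (pin S 0 θ) ∂(torusHaar V) :=
        mul_le_mul_of_nonneg_right h p.le
    _ = _ := by ring

end gen

end Vale.Agent.P159.H773
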