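import Mathlib

/-!
P159 (helper773), fixed ratio transfer, part 9: the scalar lemma.
-/

open Filter Topology Finset
open scoped BigOperators

set_option linter.all false

namespace Vale.Agent.P159.H773

/-- `r v(r)` is almost increasing on `[r0, ∞)` -/
def Dbl (D : ℝ) (r0 : ℕ) (v : ℕ → ℝ) : Prop :=
  ∀ s r : ℕ, r0 ≤ s → s ≤ r → 0 < v r ∧ (s : ℝ) * v s ≤ D * ((r : ℝ) * v r)

section scal

variable {K D ε : ℝ} {g u v : ℕ → ℝ} {r0 : ℕ}

/-- one step -/
lemma rat_step (hK : 0 < K) (hD : 1 ≤ D) (hε : 0 ≤ ε) (hr0 : 4 ≤ r0) (hu : Antitone u)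
    (hu0 : ∀ n, 0 ≤ u n)
    (h1 : ∀ R : ℕ, 1 ≤ R → ((R : ℝ) + 1) ^ 2 * u (3 * R) ≤
      K * (1 + ∑ r ∈ range R, ((r : ℝ) + 1) * g (r + 1)))
    (hv : Dbl D r0 v) (h2 : ∀ r, r0 ≤ r → |g r - v r| ≤ ε * u (r / 4))
    {s2 : ℕ} (hs2 : r0 ≤ s2) :
    ∃ n2 : ℕ, ∀ n, n2 ≤ n → ∀ B : ℝ, 0 ≤ B → (∀ s, s2 ≤ s → s < n → u s ≤ B * v s) →
      u n ≤ ((1 + 5 * K * D ^ 2) + 40 * K * D ^ 2 * ε * B) * v n := by
  set E : ℝ := |1 + ∑ r ∈ range (4 * s2), ((r : ℝ) + 1) * g (r + 1)| with hE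
  have hE0 : 0 ≤ E := abs_nonneg _
  have hv0 : 0 < v r0 := (hv r0 r0 le_rfl le_rfl).1
  set δ : ℝ := (r0 : ℝ) * v r0 / D with hδ
  have hr0' : (0 : ℝ) < r0 := by exact_mod_cast (by omega : 0 < r0)
  have hD0 : 0 < D := by linarith
  have hδ0 : 0 < δ := by positivity
  refine ⟨max (12 * s2 + 3) (⌈25 * K * E / δ⌉₊ + 1), fun n hn B hB hw => ?_⟩
  have hn1 : 12 * s2 + 3 ≤ n := (le_max_left _ _).trans hn
  have hn2 : 25 * K * E / δ ≤ n := by
    have h3 : ((⌈25 * K * E / δ⌉₊ + 1 : ℕ) : ℝ) ≤ n := by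
      exact_mod_cast (le_max_right _ _).trans hn
    have h4 := Nat.le_ceil (25 * K * E / δ)
    push_cast at h3
    linarith
  set R := n / 3 with hR
  have hR4 : 4 * s2 ≤ R := by omega
  have hR1 : 1 ≤ R := by omega
  have hRn : 3 * R ≤ n := by omega
  have hR' : (0 : ℝ) < R := by exact_mod_cast hR1
  have hn' : (0 : ℝ) < n := by exact_mod_cast (by omega : 0 < n)
  have hn5 : (n : ℝ) ≤ 5 * R := by exact_mod_cast (by omega : n ≤ 5 * R)
  have hvR : 0 < v R := (hv R R (by omega) le_rfl).1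
  have hvn : 0 < v n := (hv n n (by omega) le_rfl).1
  -- the sum
  have hsum : 1 + ∑ r ∈ range R, ((r : ℝ) + 1) * g (r + 1) ≤
      E + (R : ℝ) * (D * (R * v R) * (1 + 8 * ε * B)) := by
    have e1 : range R = range (4 * s2) ∪ Ico (4 * s2) R := by
      ext r
      simp only [mem_range, mem_union, mem_Ico]
      omega
    have e2 : Disjoint (range (4 * s2)) (Ico (4 * s2) R) := by
      rw [Finset.disjoint_left]
      intro r h3 h4
      simp only [mem_range, mem_Ico] at h3 h4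
      omega
    rw [e1, sum_union e2, ← add_assoc]
    refine add_le_add (le_abs_self _) ?_
    have h3 : ∀ r ∈ Ico (4 * s2) R, ((r : ℝ) + 1) * g (r + 1) ≤
        D * (R * v R) * (1 + 8 * ε * B) := by
      intro r hr
      rw [mem_Ico] at hr
      have h4 := (abs_le.1 (h2 (r + 1) (by omega))).2
      have h5 := (hv (r + 1) R (by omega) (by omega)).2
      push_cast at h5
      set s := (r + 1) / 4 with hs
      have hs1 : s2 ≤ s := by omega
      have hsn : s < n := by omega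
      have h6 := hw s hs1 hsn
      have h7 := (hv s R (by omega) (by omega)).2
      have hs0 : (0 : ℝ) < s := by exact_mod_cast (by omega : 0 < s)
      have h8 : ((r : ℝ) + 1) ≤ 8 * s := by
        have : r + 1 ≤ 8 * s := by omega
        exact_mod_cast this
      have h9 : ((r : ℝ) + 1) * u s ≤ 8 * (B * (D * (R * v R))) := by
        calc ((r : ℝ) + 1) * u s ≤ (8 * s) * u s := mul_le_mul_of_nonneg_right h8 (hu0 s)
          _ ≤ (8 * s) * (B * v s) := mul_le_mul_of_nonneg_left h6 (by positivity)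
          _ = 8 * (B * (s * v s)) := by ring
          _ ≤ _ := by
            refine mul_le_mul_of_nonneg_left ?_ (by norm_num)
            exact mul_le_mul_of_nonneg_left h7 hB
      have hr1 : (0 : ℝ) ≤ (r : ℝ) + 1 := by positivity
      calc ((r : ℝ) + 1) * g (r + 1) ≤ ((r : ℝ) + 1) * (v (r + 1) + ε * u s) :=
            mul_le_mul_of_nonneg_left (by linarith) hr1
        _ = ((r : ℝ) + 1) * v (r + 1) + ε * (((r : ℝ) + 1) * u s) := by ring
        _ ≤ D * (R * v R) + ε * (8 * (B * (D * (R * v R)))) :=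
            add_le_add h5 (mul_le_mul_of_nonneg_left h9 hε)
        _ = _ := by ring
    refine (sum_le_card_nsmul _ _ _ h3).trans ?_
    rw [nsmul_eq_mul, Nat.card_Ico]
    refine mul_le_mul_of_nonneg_right ?_ (by positivity)
    exact_mod_cast (Nat.sub_le _ _)
  have h3 := (h1 R hR1).trans (mul_le_mul_of_nonneg_left hsum hK.le)
  have h4 : u n ≤ u (3 * R) := hu hRn
  -- divide
  have h5 : (R : ℝ) ^ 2 * u n ≤ K * (E + (R : ℝ) * (D * (R * v R) * (1 + 8 * ε * B))) := by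
    refine le_trans ?_ h3
    have h6 : (R : ℝ) ^ 2 ≤ ((R : ℝ) + 1) ^ 2 := by nlinarith
    calc (R : ℝ) ^ 2 * u n ≤ ((R : ℝ) + 1) ^ 2 * u n := mul_le_mul_of_nonneg_right h6 (hu0 n)
      _ ≤ _ := mul_le_mul_of_nonneg_left h4 (by positivity)
  have hR2 : (0 : ℝ) < (R : ℝ) ^ 2 := by positivity
  -- the constant term
  have h6 : δ ≤ n * v n := by
    have h7 := (hv r0 n le_rfl (by omega)).2
    rw [hδ, div_le_iff₀ hD0]
    linarith
  have h7 : K * E ≤ (R : ℝ) ^ 2 * v n := by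
    have h8 : 25 * K * E ≤ n * δ := by
      rw [div_le_iff₀ hδ0] at hn2
      exact hn2
    have h9 : (n : ℝ) * δ ≤ n * (n * v n) := mul_le_mul_of_nonneg_left h6 hn'.le
    have h10 : (n : ℝ) ^ 2 ≤ 25 * R ^ 2 := by nlinarith
    have h11 : (n : ℝ) ^ 2 * v n ≤ 25 * R ^ 2 * v n := mul_le_mul_of_nonneg_right h10 hvn.le
    nlinarith
  -- the main term
  have h8 : v R ≤ 5 * D * v n := by
    have h9 := (hv R n (by omega) (by omega)).2
    have h10 : (R : ℝ) * v R ≤ R * (5 * D * v n) := by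
      calc (R : ℝ) * v R ≤ D * (n * v n) := h9
        _ ≤ D * ((5 * R) * v n) :=
            mul_le_mul_of_nonneg_left (mul_le_mul_of_nonneg_right hn5 hvn.le) hD0.le
        _ = _ := by ring
    exact le_of_mul_le_mul_left h10 hR'
  refine le_of_mul_le_mul_left ?_ hR2
  have hc : 0 ≤ K * D * (1 + 8 * ε * B) := by positivity
  calc (R : ℝ) ^ 2 * u n ≤ K * E + R ^ 2 * (K * D * (1 + 8 * ε * B) * v R) := by
        refine h5.trans (le_of_eq ?_)
        ring
    _ ≤ R ^ 2 * v n + R ^ 2 * (K * D * (1 + 8 * ε * B) * (5 * D * v n)) := by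
        refine add_le_add h7 (mul_le_mul_of_nonneg_left ?_ hR2.le)
        exact mul_le_mul_of_nonneg_left h8 hc
    _ = _ := by ring

/-- **the scalar lemma** -/
theorem rat_scal (hK : 0 < K) (hD : 1 ≤ D) (hε : 0 ≤ ε) (hr0 : 4 ≤ r0) (hu : Antitone u)
    (hu0 : ∀ n, 0 ≤ u n)
    (h1 : ∀ R : ℕ, 1 ≤ R → ((R : ℝ) + 1) ^ 2 * u (3 * R) ≤
      K * (1 + ∑ r ∈ range R, ((r : ℝ) + 1) * g (r + 1)))
    (hv : Dbl D r0 v) (h2 : ∀ r, r0 ≤ r → |g r - v r| ≤ ε * u (r / 4))
    (hs : 160 * K * D ^ 2 * ε ≤ 1) :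
    ∃ n1 : ℕ, ∀ n, n1 ≤ n → u n ≤ 3 * (1 + 5 * K * D ^ 2) * v n ∧
      |g n - v n| ≤ (24 * D * (1 + 5 * K * D ^ 2)) * ε * v n := by
  set Q : ℝ := 1 + 5 * K * D ^ 2 with hQ
  have hQ1 : 1 ≤ Q := by rw [hQ]; nlinarith [mul_nonneg hK.le (sq_nonneg D)]
  have hvp : ∀ s, r0 ≤ s → 0 < v s := fun s h => (hv s s h le_rfl).1
  have hθ : 40 * K * D ^ 2 * ε ≤ 1 / 4 := by linarith
  -- boundedness
  obtain ⟨n2, hn2⟩ := rat_step hK hD hε hr0 hu hu0 h1 hv h2 (le_refl r0)
  set B : ℝ := 2 * Q + ∑ s ∈ Ico r0 n2, u s / v s with hB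
  have hsn : ∀ s ∈ Ico r0 n2, 0 ≤ u s / v s := fun s hs' =>
    div_nonneg (hu0 s) (hvp s (mem_Ico.1 hs').1).le
  have hBQ : 2 * Q ≤ B := by
    have := sum_nonneg hsn
    linarith
  have hB0 : 0 ≤ B := by linarith
  have hbd : ∀ s, r0 ≤ s → u s ≤ B * v s := by
    intro s
    induction s using Nat.strong_induction_on with
    | _ s ih =>
      intro hs'
      by_cases hsn2 : s < n2
      · have h3 : u s / v s ≤ ∑ s ∈ Ico r0 n2, u s / v s :=
          single_le_sum hsn (mem_Ico.2 ⟨hs', hsn2⟩)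
        have h4 : u s / v s ≤ B := by linarith
        rwa [div_le_iff₀ (hvp s hs')] at h4
      · have h3 := hn2 s (not_lt.1 hsn2) B hB0 fun t ht ht' => ih t ht' ht
        refine h3.trans (mul_le_mul_of_nonneg_right ?_ (hvp s hs').le)
        have : 40 * K * D ^ 2 * ε * B ≤ 1 / 4 * B := mul_le_mul_of_nonneg_right hθ hB0
        linarith
  -- iteration
  have hit : ∀ k : ℕ, ∃ s, r0 ≤ s ∧ ∀ n, s ≤ n → u n ≤ (2 * Q + B / 4 ^ k) * v n := by
    intro k
    induction k with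
    | zero =>
      refine ⟨r0, le_rfl, fun n hn => (hbd n hn).trans ?_⟩
      refine mul_le_mul_of_nonneg_right ?_ (hvp n hn).le
      simp only [pow_zero, div_one]
      linarith
    | succ k ih =>
      obtain ⟨s, hs1, hs2⟩ := ih
      obtain ⟨n3, hn3⟩ := rat_step hK hD hε hr0 hu hu0 h1 hv h2 hs1
      refine ⟨max s n3, hs1.trans (le_max_left _ _), fun n hn => ?_⟩
      have hn4 : s ≤ n := (le_max_left _ _).trans hn
      have h4k : (0 : ℝ) < 4 ^ k := by positivity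
      have hBk : 0 ≤ 2 * Q + B / 4 ^ k := by positivity
      have h3 := hn3 n ((le_max_right _ _).trans hn) (2 * Q + B / 4 ^ k) hBk
        fun t ht _ => hs2 t ht
      refine h3.trans (mul_le_mul_of_nonneg_right ?_ (hvp n (hs1.trans hn4)).le)
      have h5 : 40 * K * D ^ 2 * ε * (2 * Q + B / 4 ^ k) ≤ 1 / 4 * (2 * Q + B / 4 ^ k) :=
        mul_le_mul_of_nonneg_right hθ hBk
      have h6 : B / 4 ^ (k + 1) = 1 / 4 * (B / 4 ^ k) := by
        rw [pow_succ]
        field_simp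
      rw [h6]
      linarith
  obtain ⟨k, hk⟩ := pow_unbounded_of_one_lt (B / Q) (by norm_num : (1 : ℝ) < 4)
  have hk' : B / 4 ^ k ≤ Q := by
    have hQ0 : 0 < Q := by linarith
    rw [div_lt_iff₀ hQ0] at hk
    rw [div_le_iff₀ (by positivity)]
    linarith
  obtain ⟨s, hs1, hs2⟩ := hit k
  have hQb : ∀ n, s ≤ n → u n ≤ 3 * Q * v n := fun n hn => by
    refine (hs2 n hn).trans (mul_le_mul_of_nonneg_right ?_ (hvp n (hs1.trans hn)).le)
    linarith
  refine ⟨4 * s + 4, fun n hn => ⟨hQb n (by omega), ?_⟩⟩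
  have hn4 : s ≤ n / 4 := by omega
  have h3 := h2 n (by omega)
  have h4 := hQb (n / 4) hn4
  have h5 := (hv (n / 4) n (by omega) (by omega)).2
  have hvn := hvp n (by omega)
  set t := n / 4 with ht
  have ht0 : (0 : ℝ) < t := by exact_mod_cast (by omega : 0 < t)
  have hn8 : (n : ℝ) ≤ 8 * t := by exact_mod_cast (by omega : n ≤ 8 * t)
  have h6 : v t ≤ 8 * D * v n := by
    have h10 : (t : ℝ) * v t ≤ t * (8 * D * v n) := by
      calc (t : ℝ) * v t ≤ D * (n * v n) := h5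
        _ ≤ D * ((8 * t) * v n) :=
            mul_le_mul_of_nonneg_left (mul_le_mul_of_nonneg_right hn8 hvn.le) (by linarith)
        _ = _ := by ring
    exact le_of_mul_le_mul_left h10 ht0
  calc |g n - v n| ≤ ε * u t := h3
    _ ≤ ε * (3 * Q * v t) := mul_le_mul_of_nonneg_left h4 hε
    _ ≤ ε * (3 * Q * (8 * D * v n)) := by
        refine mul_le_mul_of_nonneg_left (mul_le_mul_of_nonneg_left h6 (by linarith)) hε
    _ = _ := by ring

end scal

end Vale.Agent.P159.H773
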