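import Vale.Agent.P159.H773.Path

/-!
P159 (helper773): the two point function of the neutral torus depends on the difference only.
-/

open MeasureTheory Filter Topology
open scoped BigOperators

set_option linter.all false

namespace Vale.Agent.P159.H773

open Vale.Agent.P159 Vale.Agent.P159.TM.H331
open Vale.Agent.P159.H770 (wTD Ed)
open Vale.Agent.P159.H353 (wI)

variable {M : ℕ} {b : ℝ}

/-- translated dislocation -/
def sh (z : Fin (M + 2) × Fin (M + 2)) (η : (Fin (M + 2) × Fin (M + 2)) × Bool → ℤ)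
    (c : (Fin (M + 2) × Fin (M + 2)) × Bool) : ℤ := η (c.1 - z, c.2)

/-- translated heights -/
def shH (z : Fin (M + 2) × Fin (M + 2)) :
    {h : Fin (M + 2) × Fin (M + 2) → ℤ // h 0 = 0} ≃
      {h : Fin (M + 2) × Fin (M + 2) → ℤ // h 0 = 0} where
  toFun h := ⟨fun x => h.1 (x - z) - h.1 (0 - z), sub_self _⟩
  invFun h := ⟨fun x => h.1 (x + z) - h.1 (0 + z), sub_self _⟩
  left_inv h := by
    apply Subtype.ext
    funext x
    show h.1 (x + z - z) - h.1 (0 - z) - (h.1 (0 + z - z) - h.1 (0 - z)) = h.1 x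
    rw [add_sub_cancel_right, add_sub_cancel_right, h.2]
    ring
  right_inv h := by
    apply Subtype.ext
    funext x
    show h.1 (x - z + z) - h.1 (0 + z) - (h.1 (0 - z + z) - h.1 (0 + z)) = h.1 x
    rw [sub_add_cancel, sub_add_cancel, h.2]
    ring

lemma wTD_prod (η : (Fin (M + 2) × Fin (M + 2)) × Bool → ℤ) (h : Fin (M + 2) × Fin (M + 2) → ℤ) :
    wTD (M + 2) b η h = ∏ c : (Fin (M + 2) × Fin (M + 2)) × Bool, wI b (cuT η h c) := by
  rw [← wJ_cuT b η h]
  unfold wJ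
  exact Equiv.prod_comp eA fun c => wI b (cuT η h c)

lemma cuT_shift (η : (Fin (M + 2) × Fin (M + 2)) × Bool → ℤ) (z : Fin (M + 2) × Fin (M + 2))
    (h : {h : Fin (M + 2) × Fin (M + 2) → ℤ // h 0 = 0})
    (c : (Fin (M + 2) × Fin (M + 2)) × Bool) :
    cuT (sh z η) (shH z h).1 c = cuT η h.1 (c.1 - z, c.2) := by
  obtain ⟨x, c⟩ := c
  have e1 : x + (0, 1) - z = x - z + (0, 1) := by abel
  have e2 : x + (1, 0) - z = x - z + (1, 0) := by abel
  unfold cuT sh shH
  simp only [Equiv.coe_fn_mk, e1, e2]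
  split_ifs <;> ring

lemma wTD_shift (η : (Fin (M + 2) × Fin (M + 2)) × Bool → ℤ) (z : Fin (M + 2) × Fin (M + 2))
    (h : {h : Fin (M + 2) × Fin (M + 2) → ℤ // h 0 = 0}) :
    wTD (M + 2) b (sh z η) (shH z h).1 = wTD (M + 2) b η h.1 := by
  rw [wTD_prod, wTD_prod]
  simp only [cuT_shift]
  exact Equiv.prod_comp ((Equiv.subRight z).prodCongr (Equiv.refl Bool))
    (fun c => wI b (cuT η h.1 c))

theorem ZN_shift (η : (Fin (M + 2) × Fin (M + 2)) × Bool → ℤ)
    (z : Fin (M + 2) × Fin (M + 2)) : ZN M b (sh z η) = ZN M b η := by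
  unfold ZN
  rw [← Equiv.tsum_eq (shH z)]
  exact tsum_congr fun h => wTD_shift η z h

lemma sgk_neg {a a' z : Fin (M + 2)} (h : (a : ℕ) + z < M + 2) (h' : (a' : ℕ) + z < M + 2) :
    sgk a a' ((0 - z : Fin (M + 2)) : ℕ) = 0 := by
  have hz := z.2
  by_cases h0 : z = 0
  · rw [h0]
    simp [sgk_zero]
  · have h1 : 0 < (z : ℕ) := Nat.pos_of_ne_zero fun h2 => h0 (Fin.ext h2)
    have h2 : ((0 - z : Fin (M + 2)) : ℕ) = M + 2 - z := by
      rw [Fin.val_sub, Fin.val_zero, add_zero, Nat.mod_eq_of_lt (by omega)]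
    rw [h2]
    unfold sgk
    rw [if_neg (by omega), if_neg (by omega), sub_self]

theorem sh_dsl {p q z : St M} (h1 : (p.1 : ℕ) + z.1 < M + 2) (h2 : (q.1 : ℕ) + z.1 < M + 2)
    (h3 : (p.2 : ℕ) + z.2 < M + 2) (h4 : (q.2 : ℕ) + z.2 < M + 2) :
    Dsl (sh z (pth p q)) (p + z) (q + z) where
  curl v := by
    have e : curl (sh z (pth p q)) v = curl (pth p q) (v - z) := by
      have e1 : v + (0, 1) - z = v - z + (0, 1) := by abel
      have e2 : v + (1, 0) - z = v - z + (1, 0) := by abel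
      unfold curl sh
      simp only [e1, e2]
    rw [e, (pth_dsl p q).curl]
    unfold src
    have e1 : v - z = p ↔ v = p + z := sub_eq_iff_eq_add
    have e2 : v - z = q ↔ v = q + z := sub_eq_iff_eq_add
    rw [if_congr e1 rfl rfl, if_congr e2 rfl rfl]
  row := by
    have e : ∑ j : Fin (M + 2), sh z (pth p q) ((0, j), true) =
        ∑ j : Fin (M + 2), pth p q ((0 - z.1, j), true) :=
      Equiv.sum_comp (Equiv.subRight z.2) fun j => pth p q ((0 - z.1, j), true)
    rw [e]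
    refine Finset.sum_eq_zero fun j _ => ?_
    unfold pth
    simp only [if_true]
    rw [sgk_neg h1 h2]
    simp
  col := by
    have e : ∑ i : Fin (M + 2), sh z (pth p q) ((i, 0), false) =
        ∑ i : Fin (M + 2), pth p q ((i, 0 - z.2), false) :=
      Equiv.sum_comp (Equiv.subRight z.1) fun i => pth p q ((i, 0 - z.2), false)
    rw [e]
    refine Finset.sum_eq_zero fun j _ => ?_
    unfold pth
    simp only [Bool.false_eq_true, if_false]
    rw [sgk_neg h3 h4]
    simp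

/-- **translation invariance** -/
theorem cT_shift (hb : 0 ≤ b) {p q z : St M} (h1 : (p.1 : ℕ) + z.1 < M + 2)
    (h2 : (q.1 : ℕ) + z.1 < M + 2) (h3 : (p.2 : ℕ) + z.2 < M + 2)
    (h4 : (q.2 : ℕ) + z.2 < M + 2) : cT M b (p + z) (q + z) = cT M b p q := by
  rw [cT_heights hb (sh_dsl h1 h2 h3 h4), ZN_shift, cT_pth hb]

/-- the two point function of the neutral torus of side `M + 2` at the distance `r` -/
noncomputable def cT0 (M : ℕ) (b : ℝ) (r : ℕ) : ℝ :=
  if h : r < M + 2 then cT M b (0, 0) (⟨r, h⟩, 0) else 0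

/-- height form -/
theorem cT0_eq (hb : 0 ≤ b) {r : ℕ} (h : r < M + 2) :
    cT0 M b r = ZN M b (pth (0, 0) (⟨r, h⟩, 0)) / ZN M b 0 := by
  unfold cT0
  rw [dif_pos h, cT_pth hb]

theorem cT0_shift (hb : 0 ≤ b) {a r : ℕ} (h : a + r < M + 2) :
    cT M b (⟨a, by omega⟩, ⟨a, by omega⟩) (⟨a + r, h⟩, ⟨a, by omega⟩) = cT0 M b r := by
  unfold cT0
  rw [dif_pos (by omega)]
  have h1 := cT_shift (M := M) (b := b) (p := (0, 0)) (q := (⟨r, by omega⟩, 0))
    (z := (⟨a, by omega⟩, ⟨a, by omega⟩)) hb (by simp; omega)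
    (by simp; omega) (by simp; omega) (by simp; omega)
  rw [← h1]
  congr 1
  · ext <;> simp
  · ext
    · simp only [Fin.val_add, Prod.mk_add_mk]
      rw [Nat.mod_eq_of_lt (by omega)]
      omega
    · simp

end Vale.Agent.P159.H773
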