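import Vale.Agent.P159.H773.Rat8
import Vale.Agent.P159.H773.Rat9
import Vale.Agent.P159.H773.Shift

/-!
P159 (helper773), fixed ratio transfer, part 10: **the transfer theorem**. If the two point functions
`v(r)` of the neutral massless tori of side `M(r) + 2 ≥ A r` satisfy the doubling condition
`s v(s) ≤ D r v(r)`, `r0 ≤ s ≤ r`, then for `A ≥ A0(D, b)`
`|log C_b(r) - log v(r)| ≤ C' A^{-1/(16 b + 1)}` for all large `r`.
-/

open MeasureTheory Filter Topology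
open scoped BigOperators

set_option linter.all false

namespace Vale.Agent.P159.H773

open Vale.Agent.P159 Vale.Agent.P159.TM.H331

variable {b : ℝ}

lemma cTp_eq (hb : 0 ≤ b) {M a r : ℕ} (h : a + r < M + 2) : cTp M b a r = cT0 M b r := by
  unfold cTp
  rw [dif_pos h]
  exact cT0_shift hb h

/-- plane versus neutral torus of side `M + 2 ≥ A r` -/
theorem C_sub_cT0 (hb : 0 ≤ b) {M r : ℕ} (hr : 4 ≤ r) {A : ℝ} (hA : 8 ≤ A)
    (hM : A * r ≤ M + 2) :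
    |XY.C b ((r : ℤ), 0) - cT0 M b r| ≤
      16 * A ^ (-(1 / (16 * b + 1)) : ℝ) * mm b (r / 4) ^ 2 := by
  have hr' : (4 : ℝ) ≤ r := by exact_mod_cast hr
  have h8 : 8 * r ≤ M + 2 := by
    have : (8 : ℝ) * r ≤ M + 2 := by nlinarith
    exact_mod_cast this
  have h1 := C_sub_cTp hb (M := M) hr (by omega)
  rw [cTp_eq hb (by omega)] at h1
  refine h1.trans (mul_le_mul_of_nonneg_right ?_ (sq_nonneg _))
  set c : ℝ := 1 / (16 * b + 1) with hc
  have hc0 : 0 < c := by positivity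
  have hc1 : c ≤ 1 := by
    rw [hc, div_le_one (by positivity)]
    linarith
  have e1 : Real.exp (c / 2) ≤ 2 := by
    have h2 : Real.exp (c / 2) ≤ Real.exp (1 / 2) := Real.exp_le_exp.2 (by linarith)
    have h3 : Real.exp (1 / 2) * Real.exp (1 / 2) = Real.exp 1 := by
      rw [← Real.exp_add]; norm_num
    have h4 := Real.exp_one_lt_d9
    have h5 : 0 < Real.exp (1 / 2) := Real.exp_pos _
    nlinarith
  have e2 : A / 8 ≤ ((4 * r : ℕ) + (((M + 1 - 4 * r) / 2 : ℕ) : ℝ)) / (4 * r : ℕ) := by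
    have h2 : M + 2 ≤ 2 * (4 * r + (M + 1 - 4 * r) / 2) := by omega
    have h3 : (M : ℝ) + 2 ≤ 2 * ((4 * r : ℕ) + (((M + 1 - 4 * r) / 2 : ℕ) : ℝ)) := by
      exact_mod_cast h2
    have h4 : (0 : ℝ) < (4 * r : ℕ) := by push_cast; linarith
    rw [div_le_div_iff₀ (by norm_num) h4]
    push_cast at h3 ⊢
    nlinarith
  have e3 := Real.rpow_le_rpow_of_nonpos (by linarith : (0 : ℝ) < A / 8) e2
    (by linarith : -c ≤ 0)
  have e4 : (A / 8) ^ (-c) ≤ 8 * A ^ (-c) := by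
    rw [Real.div_rpow (by linarith) (by norm_num), Real.rpow_neg (by norm_num : (0 : ℝ) ≤ 8),
      div_inv_eq_mul, mul_comm]
    refine mul_le_mul_of_nonneg_right ?_ (Real.rpow_nonneg (by linarith) _)
    calc (8 : ℝ) ^ c ≤ 8 ^ (1 : ℝ) := Real.rpow_le_rpow_of_exponent_le (by norm_num) hc1
      _ = 8 := Real.rpow_one 8
  have e5 : 0 ≤ A ^ (-c) := Real.rpow_nonneg (by linarith) _
  calc Real.exp (c / 2) * (((4 * r : ℕ) + (((M + 1 - 4 * r) / 2 : ℕ) : ℝ)) / (4 * r : ℕ)) ^ (-c) ≤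
        2 * (8 * A ^ (-c)) :=
        mul_le_mul e1 (e3.trans e4) (Real.rpow_nonneg (by positivity) _) (by norm_num)
    _ = _ := by ring

lemma abs_log_sub_le {g v δ : ℝ} (hv : 0 < v) (hδ : δ ≤ 1 / 2) (h : |g - v| ≤ δ * v) :
    0 < g ∧ |Real.log g - Real.log v| ≤ 2 * δ := by
  have hδ0 : 0 ≤ δ := by
    by_contra h0
    have := (abs_nonneg _).trans h
    nlinarith
  obtain ⟨h1, h2⟩ := abs_le.1 h
  have hg : 0 < g := by nlinarith
  refine ⟨hg, ?_⟩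
  rw [← Real.log_div hg.ne' hv.ne', abs_le]
  constructor
  · have h3 := Real.one_sub_inv_le_log_of_pos (div_pos hg hv)
    have h4 : (g / v)⁻¹ ≤ 1 + 2 * δ := by
      rw [inv_div, div_le_iff₀ hg]
      nlinarith
    linarith
  · have h3 := Real.log_le_sub_one_of_pos (div_pos hg hv)
    have h4 : g / v ≤ 1 + δ := by
      rw [div_le_iff₀ hv]
      linarith
    linarith

lemma Dbl.mono {D : ℝ} {r0 r1 : ℕ} {v : ℕ → ℝ} (h : Dbl D r0 v) (h1 : r0 ≤ r1) : Dbl D r1 v :=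
  fun s r hs hr => h s r (h1.trans hs) hr

/-- **FIXED RATIO TRANSFER** -/
theorem fixed_ratio (hb : 0 ≤ b) {D : ℝ} (hD : 1 ≤ D) :
    ∃ C' A0 : ℝ, 0 < C' ∧ 8 ≤ A0 ∧ ∀ A : ℝ, A0 ≤ A → ∀ (M : ℕ → ℕ) (r0 : ℕ),
      (∀ r, r0 ≤ r → A * r ≤ M r + 2) → Dbl D r0 (fun r => cT0 (M r) b r) →
      ∀ᶠ r : ℕ in atTop, 0 < XY.C b ((r : ℤ), 0) ∧
        |Real.log (XY.C b ((r : ℤ), 0)) - Real.log (cT0 (M r) b r)| ≤
          C' * A ^ (-(1 / (16 * b + 1)) : ℝ) := by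
  obtain ⟨K, hK, hax⟩ := mm_axis hb
  set c : ℝ := 1 / (16 * b + 1) with hc
  have hc0 : 0 < c := by positivity
  set Q : ℝ := 24 * D * (1 + 5 * K * D ^ 2) with hQ
  have hQ0 : 0 < Q := by positivity
  have hlim : Tendsto (fun A : ℝ => A ^ (-c)) atTop (𝓝 0) := tendsto_rpow_neg_atTop hc0
  have hP : 0 < 160 * K * D ^ 2 * 16 + 2 * (Q * 16) := by positivity
  obtain ⟨A1, hA1⟩ := eventually_atTop.1
    (hlim.eventually (Iio_mem_nhds (show (0 : ℝ) < 1 / (160 * K * D ^ 2 * 16 + 2 * (Q * 16)) by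
      positivity)))
  refine ⟨2 * (Q * 16), max A1 8, by positivity, le_max_right _ _,
    fun A hA M r0 hM hv => ?_⟩
  have hA8 : 8 ≤ A := (le_max_right _ _).trans hA
  have hAc : A ^ (-c) < 1 / (160 * K * D ^ 2 * 16 + 2 * (Q * 16)) :=
    hA1 A ((le_max_left _ _).trans hA)
  have hAc0 : 0 ≤ A ^ (-c) := Real.rpow_nonneg (by linarith) _
  rw [lt_div_iff₀ hP] at hAc
  have hs1 : 160 * K * D ^ 2 * (16 * A ^ (-c)) ≤ 1 := by
    have : 0 ≤ 2 * (Q * 16) * A ^ (-c) := by positivity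
    nlinarith
  have hs2 : Q * (16 * A ^ (-c)) ≤ 1 / 2 := by
    have : 0 ≤ 160 * K * D ^ 2 * 16 * A ^ (-c) := by positivity
    nlinarith
  obtain ⟨n1, hn1⟩ := rat_scal (K := K) (D := D) (ε := 16 * A ^ (-c))
    (g := fun r => XY.C b ((r : ℤ), 0)) (u := fun r => mm b r ^ 2)
    (v := fun r => cT0 (M r) b r) (r0 := max r0 4) hK hD (by positivity) (le_max_right _ _)
    (fun m n h => by
      have := mm_anti (b := b) hb h
      exact pow_le_pow_left₀ (mm_nonneg hb n) this 2)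
    (fun n => sq_nonneg _) hax (hv.mono (le_max_left _ _))
    (fun r hr => by
      have hr0 : r0 ≤ r := (le_max_left _ _).trans hr
      exact C_sub_cT0 hb ((le_max_right _ _).trans hr) hA8 (hM r hr0)) hs1
  filter_upwards [eventually_ge_atTop (max n1 r0)] with r hr
  have h1 := (hn1 r ((le_max_left _ _).trans hr)).2
  have hvr : 0 < cT0 (M r) b r := (hv r r ((le_max_right _ _).trans hr) le_rfl).1
  have h2 := abs_log_sub_le hvr hs2 h1
  refine ⟨h2.1, h2.2.trans (le_of_eq ?_)⟩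
  ring

/-! ### limits -/

/-- doubling of `v` from the asymptotics of `log v` -/
lemma Dbl.of_log {v Λ : ℕ → ℝ} {c δ DΛ : ℝ} {r0 : ℕ} (hδ : δ ≤ 1)
    (hΛ : ∀ s r : ℕ, r0 ≤ s → s ≤ r → (s : ℝ) * Real.exp (-Λ s) ≤ DΛ * (r * Real.exp (-Λ r)))
    (h : ∀ r, r0 ≤ r → 0 < v r ∧ |Real.log (v r) + Λ r - c| ≤ δ) :
    Dbl (Real.exp 2 * DΛ) r0 v := by
  intro s r hs hr
  obtain ⟨h1, h2⟩ := h s hs
  obtain ⟨h3, h4⟩ := h r (hs.trans hr)
  refine ⟨h3, ?_⟩
  have e1 : v s ≤ Real.exp (c + 1) * Real.exp (-Λ s) := by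
    rw [← Real.exp_add, ← Real.exp_log h1]
    refine Real.exp_le_exp.2 ?_
    have := (abs_le.1 h2).2
    linarith
  have e2 : Real.exp (c - 1) * Real.exp (-Λ r) ≤ v r := by
    rw [← Real.exp_add]
    refine le_trans (Real.exp_le_exp.2 ?_) (Real.exp_log h3).le
    have := (abs_le.1 h4).1
    linarith
  have e3 : Real.exp (c + 1) = Real.exp 2 * Real.exp (c - 1) := by
    rw [← Real.exp_add]
    congr 1
    ring
  have hD : 0 ≤ DΛ := by
    by_contra hn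
    have h5 := hΛ (r0 + 1) (r0 + 1) (Nat.le_succ _) le_rfl
    have h6 : (0 : ℝ) < ((r0 + 1 : ℕ) : ℝ) * Real.exp (-Λ (r0 + 1)) := by positivity
    nlinarith
  calc (s : ℝ) * v s ≤ s * (Real.exp (c + 1) * Real.exp (-Λ s)) :=
        mul_le_mul_of_nonneg_left e1 (Nat.cast_nonneg _)
    _ = Real.exp (c + 1) * (s * Real.exp (-Λ s)) := by ring
    _ ≤ Real.exp (c + 1) * (DΛ * (r * Real.exp (-Λ r))) :=
        mul_le_mul_of_nonneg_left (hΛ s r hs hr) (Real.exp_pos _).le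
    _ = Real.exp 2 * DΛ * (r * (Real.exp (c - 1) * Real.exp (-Λ r))) := by rw [e3]; ring
    _ ≤ Real.exp 2 * DΛ * (r * v r) := by
        refine mul_le_mul_of_nonneg_left ?_ (by positivity)
        exact mul_le_mul_of_nonneg_left e2 (Nat.cast_nonneg _)

/-- **LIMITS THROUGH FIXED RATIOS**: if for every large ratio `A = 2^i` the torus correlations
satisfy `limsup_r |log v^i(r) + Λ(r) - c_i| ≤ δ_i`, `δ_i → 0`, then `log C_b(r) + Λ(r)` converges. -/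
theorem ratio_lim (hb : 0 ≤ b) {Λ : ℕ → ℝ} {DΛ : ℝ} {s0 : ℕ}
    (hΛ : ∀ s r : ℕ, s0 ≤ s → s ≤ r → (s : ℝ) * Real.exp (-Λ s) ≤ DΛ * (r * Real.exp (-Λ r)))
    {δ : ℕ → ℝ} (hδ : Tendsto δ atTop (𝓝 0)) {i1 : ℕ}
    (h : ∀ i, i1 ≤ i → ∃ (M : ℕ → ℕ) (ci : ℝ), ∀ᶠ r : ℕ in atTop,
      ((2 : ℝ) ^ i * r ≤ M r + 2) ∧ 0 < cT0 (M r) b r ∧
        |Real.log (cT0 (M r) b r) + Λ r - ci| ≤ δ i) :
    (∀ᶠ r : ℕ in atTop, 0 < XY.C b ((r : ℤ), 0)) ∧
      ∃ c : ℝ, Tendsto (fun r : ℕ => Real.log (XY.C b ((r : ℤ), 0)) + Λ r) atTop (𝓝 c) := by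
  set D : ℝ := max 1 (Real.exp 2 * DΛ) with hD
  obtain ⟨C', A0, hC', hA0, hfr⟩ := fixed_ratio hb (le_max_left 1 (Real.exp 2 * DΛ))
  set c : ℝ := 1 / (16 * b + 1) with hc
  have hc0 : 0 < c := by positivity
  have hp : Tendsto (fun i : ℕ => (2 : ℝ) ^ i) atTop atTop :=
    tendsto_pow_atTop_atTop_of_one_lt (by norm_num)
  have hη : Tendsto (fun i : ℕ => δ i + C' * ((2 : ℝ) ^ i) ^ (-c)) atTop (𝓝 0) := by
    have h1 := ((tendsto_rpow_neg_atTop hc0).comp hp).const_mul C'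
    have h2 := hδ.add h1
    simpa using h2
  have key : ∀ ε : ℝ, 0 < ε → ∃ ci : ℝ, ∀ᶠ r : ℕ in atTop, 0 < XY.C b ((r : ℤ), 0) ∧
      |Real.log (XY.C b ((r : ℤ), 0)) + Λ r - ci| ≤ ε := by
    intro ε hε
    obtain ⟨i, hi1, hi2, hi3, hi4⟩ := ((hη.eventually (Iio_mem_nhds hε)).and
      ((hδ.eventually (Iio_mem_nhds one_pos)).and ((hp.eventually_ge_atTop A0).and
        (eventually_ge_atTop i1)))).exists
    obtain ⟨M, ci, hev⟩ := h i hi4
    obtain ⟨r1, hr1⟩ := eventually_atTop.1 hev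
    have hdbl : Dbl D (max r1 s0) (fun r => cT0 (M r) b r) := by
      have h1 := Dbl.of_log (v := fun r => cT0 (M r) b r) (Λ := Λ) (c := ci) (DΛ := DΛ)
        (r0 := max r1 s0) (le_of_lt hi2)
        (fun s r hs hr => hΛ s r ((le_max_right _ _).trans hs) hr)
        (fun r hr => (hr1 r ((le_max_left _ _).trans hr)).2)
      intro s r hs hr
      obtain ⟨h2, h3⟩ := h1 s r hs hr
      refine ⟨h2, h3.trans ?_⟩
      exact mul_le_mul_of_nonneg_right (le_max_right _ _) (by positivity)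
    have h1 := hfr _ hi3 M (max r1 s0)
      (fun r hr => (hr1 r ((le_max_left _ _).trans hr)).1) hdbl
    refine ⟨ci, ?_⟩
    filter_upwards [h1, hev] with r h2 h3
    refine ⟨h2.1, ?_⟩
    have h4 : Real.log (XY.C b ((r : ℤ), 0)) + Λ r - ci =
        (Real.log (XY.C b ((r : ℤ), 0)) - Real.log (cT0 (M r) b r)) +
          (Real.log (cT0 (M r) b r) + Λ r - ci) := by ring
    rw [h4]
    refine (abs_add_le _ _).trans ?_
    have h5 := h2.2
    have h6 := h3.2.2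
    have h7 : δ i + C' * ((2 : ℝ) ^ i) ^ (-c) < ε := hi1
    linarith
  refine ⟨?_, ?_⟩
  · obtain ⟨ci, hci⟩ := key 1 one_pos
    exact hci.mono fun r hr => hr.1
  · refine cauchySeq_tendsto_of_complete (Metric.cauchySeq_iff'.2 fun ε hε => ?_)
    obtain ⟨ci, hci⟩ := key (ε / 3) (by positivity)
    obtain ⟨r1, hr1⟩ := eventually_atTop.1 hci
    refine ⟨r1, fun r hr => ?_⟩
    have h1 := (hr1 r hr).2
    have h2 := (hr1 r1 le_rfl).2
    rw [Real.dist_eq]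
    have h3 : Real.log (XY.C b ((r : ℤ), 0)) + Λ r -
        (Real.log (XY.C b ((r1 : ℤ), 0)) + Λ r1) =
        (Real.log (XY.C b ((r : ℤ), 0)) + Λ r - ci) -
          (Real.log (XY.C b ((r1 : ℤ), 0)) + Λ r1 - ci) := by ring
    rw [h3]
    refine (abs_sub _ _).trans_lt ?_
    linarith

end Vale.Agent.P159.H773
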