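import Vale.Agent.P159.H773.Rat12

/-!
P159 (helper773), fixed ratio transfer, part 13: doubling from one dyadic step; transfer of bounds
(T1, T2) at ONE ratio; soft form (regular variation).
-/

open MeasureTheory Filter Topology Finset
open scoped BigOperators

set_option linter.all false

namespace Vale.Agent.P159.H773

open Vale.Agent.P159 Vale.Agent.P159.TM.H331
open Vale.Agent.P159.H817 (eD)

variable {b : ℝ}

/-- doubling from one dyadic step -/
theorem Dbl.of_step {v : ℕ → ℝ} {r0 : ℕ} (hp : ∀ r, r0 ≤ r → 0 < v r)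
    (h : ∀ s r, r0 ≤ s → s ≤ r → r ≤ 2 * s → v s ≤ 2 * v r) : Dbl 2 r0 v := by
  have key : ∀ n s r : ℕ, r - s ≤ n → r0 ≤ s → s ≤ r → (s : ℝ) * v s ≤ 2 * (r * v r) := by
    intro n
    induction n with
    | zero =>
      intro s r hn hs hr
      have : s = r := by omega
      subst this
      have := hp s hs
      have h1 : 0 ≤ (s : ℝ) * v s := by positivity
      linarith
    | succ n ih =>
      intro s r hn hs hr
      have hvr := hp r (hs.trans hr)
      by_cases h2 : r ≤ 2 * s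
      · have h3 := h s r hs hr h2
        calc (s : ℝ) * v s ≤ s * (2 * v r) := mul_le_mul_of_nonneg_left h3 (Nat.cast_nonneg _)
          _ ≤ r * (2 * v r) :=
              mul_le_mul_of_nonneg_right (by exact_mod_cast hr) (by positivity)
          _ = _ := by ring
      · rcases Nat.eq_zero_or_pos s with hs0 | hs0
        · subst hs0
          rw [Nat.cast_zero, zero_mul]
          positivity
        · have h3 := h s (2 * s) hs (by omega) le_rfl
          have h4 := ih (2 * s) r (by omega) (by omega) (by omega)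
          push_cast at h4
          calc (s : ℝ) * v s ≤ s * (2 * v (2 * s)) :=
                mul_le_mul_of_nonneg_left h3 (Nat.cast_nonneg _)
            _ = 2 * s * v (2 * s) := by ring
            _ ≤ _ := h4
  exact fun s r hs hr => ⟨hp r (hs.trans hr), key (r - s) s r le_rfl hs hr⟩

/-- doubling step in terms of the logarithm -/
theorem Dbl.of_logstep {v : ℕ → ℝ} {r0 : ℕ} (hp : ∀ r, r0 ≤ r → 0 < v r)
    (h : ∀ s r, r0 ≤ s → s ≤ r → r ≤ 2 * s → -Real.log 2 ≤ Real.log (v r) - Real.log (v s)) :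
    Dbl 2 r0 v := by
  refine Dbl.of_step hp fun s r hs hr h2 => ?_
  have h1 := h s r hs hr h2
  have hs' := hp s hs
  have hr' := hp r (hs.trans hr)
  have h3 : Real.log (v s) ≤ Real.log (2 * v r) := by
    rw [Real.log_mul two_ne_zero hr'.ne']
    linarith
  exact (Real.log_le_log_iff hs' (by positivity)).1 h3

/-- **transfer at one ratio**: if the family of neutral massless tori of side `N(r) ≥ A r`,
`A ≥ A0(b)`, loses at most a factor 2 in every dyadic step, then
`|log C_b(r) - log C_{N(r)}(r)| ≤ C' A^{-1/(16 b + 1)}` for all large `r` -/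
theorem fixed_ratio_step (hb : 0 < b) :
    ∃ C' A0 : ℝ, 0 < C' ∧ 8 ≤ A0 ∧ ∀ A : ℝ, A0 ≤ A → ∀ N : ℕ → ℕ,
      (∀ᶠ r : ℕ in atTop, A * r ≤ N r) →
      (∀ᶠ s : ℕ in atTop, ∀ r, s ≤ r → r ≤ 2 * s →
        -Real.log 2 ≤ Real.log (cT0 (N r - 2) b r) - Real.log (cT0 (N s - 2) b s)) →
      ∀ᶠ r : ℕ in atTop, 0 < XY.C b ((r : ℤ), 0) ∧
        |Real.log (XY.C b ((r : ℤ), 0)) - Real.log (cT0 (N r - 2) b r)| ≤
          C' * A ^ (-(1 / (16 * b + 1)) : ℝ) := by
  obtain ⟨C', A0, hC', hA0, h⟩ := fixed_ratio hb.le (one_le_two (α := ℝ))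
  refine ⟨C', A0, hC', hA0, fun A hA N hN hst => ?_⟩
  obtain ⟨r1, hr1⟩ := eventually_atTop.1 (hN.and (hst.and (eventually_ge_atTop 1)))
  have hM : ∀ r, r1 ≤ r → A * r ≤ ((N r - 2 : ℕ) : ℝ) + 2 := by
    intro r hr
    have h1 : (N r : ℝ) ≤ ((N r - 2 : ℕ) : ℝ) + 2 := by
      have h3 : N r ≤ N r - 2 + 2 := by omega
      exact_mod_cast h3
    exact (hr1 r hr).1.trans h1
  refine h A hA (fun r => N r - 2) r1 hM ?_
  refine Dbl.of_logstep (fun r hr => cT0_pos hb ?_) fun s r hs hr h2 => (hr1 s hs).2.1 r hr h2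
  have h1 := hM r hr
  have h2 : (1 : ℝ) ≤ r := by exact_mod_cast (hr1 r hr).2.2
  have h3 : (r : ℝ) < ((N r - 2 : ℕ) : ℝ) + 2 := by nlinarith
  exact_mod_cast h3

/-- **bounds of the plane from one fixed ratio**: there is `A0(b)` such that every family of side
`N(r) ≥ A0 r` satisfying the dyadic step has `|log C_b(r) - log C_{N(r)}(r)| ≤ 1` for all large `r`
-/
theorem fixed_ratio_one (hb : 0 < b) :
    ∃ A0 : ℝ, 8 ≤ A0 ∧ ∀ N : ℕ → ℕ, (∀ᶠ r : ℕ in atTop, A0 * r ≤ N r) →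
      (∀ᶠ s : ℕ in atTop, ∀ r, s ≤ r → r ≤ 2 * s →
        -Real.log 2 ≤ Real.log (cT0 (N r - 2) b r) - Real.log (cT0 (N s - 2) b s)) →
      ∀ᶠ r : ℕ in atTop, 0 < XY.C b ((r : ℤ), 0) ∧
        |Real.log (XY.C b ((r : ℤ), 0)) - Real.log (cT0 (N r - 2) b r)| ≤ 1 := by
  obtain ⟨C', A0, hC', hA0, h⟩ := fixed_ratio_step hb
  have hc0 : 0 < 1 / (16 * b + 1) := by positivity
  obtain ⟨A1, hA1⟩ := eventually_atTop.1 (((tendsto_rpow_neg_atTop hc0).const_mul C').eventually
    (Iio_mem_nhds (show C' * 0 < 1 by rw [mul_zero]; exact one_pos)))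
  refine ⟨max A0 A1, hA0.trans (le_max_left _ _), fun N hN hst => ?_⟩
  filter_upwards [h (max A0 A1) (le_max_left _ _) N hN hst] with r hr
  exact ⟨hr.1, hr.2.trans (le_of_lt (hA1 _ (le_max_right _ _)))⟩

/-! ### soft form -/

/-- **soft transfer**: if for every large `i` a family of ratio at least `2^i` satisfies
`log C_{N(R')}(R') - log C_{N(R)}(R) + (π/4)(e(R') - e(R)) = o(1)` for `R ≤ R' ≤ 2 R`, then
`log C_b(R') - log C_b(R) + (1/4)(log R' - log R) = o(1)` for `R ≤ R' ≤ 2 R`. -/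
theorem soft_xy (hb : 0 < b) {i1 : ℕ}
    (h : ∀ i, i1 ≤ i → ∃ N : ℕ → ℕ, (∀ᶠ r : ℕ in atTop, (2 : ℝ) ^ i * r ≤ N r) ∧
      ∀ η : ℝ, 0 < η → ∀ᶠ s : ℕ in atTop, ∀ r, s ≤ r → r ≤ 2 * s →
        |Real.log (cT0 (N r - 2) b r) - Real.log (cT0 (N s - 2) b s) +
          Real.pi / 4 * (eD (N r) r - eD (N s) s)| ≤ η) :
    (∀ᶠ r : ℕ in atTop, 0 < XY.C b ((r : ℤ), 0)) ∧
    ∀ η : ℝ, 0 < η → ∀ᶠ s : ℕ in atTop, ∀ r, s ≤ r → r ≤ 2 * s →
      |Real.log (XY.C b ((r : ℤ), 0)) - Real.log (XY.C b ((s : ℤ), 0)) +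
        1 / 4 * (Real.log r - Real.log s)| ≤ η := by
  obtain ⟨C', A0, hC', hA0, hfr⟩ := fixed_ratio_step hb
  obtain ⟨κ, hκ⟩ := eD_fam
  set c : ℝ := 1 / (16 * b + 1) with hc
  have hc0 : 0 < c := by positivity
  have hp : Tendsto (fun i : ℕ => (2 : ℝ) ^ i) atTop atTop :=
    tendsto_pow_atTop_atTop_of_one_lt (by norm_num)
  have hlim := ((tendsto_rpow_neg_atTop hc0).comp hp).const_mul C'
  rw [mul_zero] at hlim
  have hl2 : 0 < Real.log 2 := Real.log_pos (by norm_num)
  have hpi := Real.pi_pos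
  have key : ∀ η : ℝ, 0 < η → (∀ᶠ r : ℕ in atTop, 0 < XY.C b ((r : ℤ), 0)) ∧
      ∀ᶠ s : ℕ in atTop, ∀ r, s ≤ r → r ≤ 2 * s →
      |Real.log (XY.C b ((r : ℤ), 0)) - Real.log (XY.C b ((s : ℤ), 0)) +
        1 / 4 * (Real.log r - Real.log s)| ≤ η := by
    intro η hη
    set θ : ℝ := min (η / 8) (1 / 16) with hθ
    have hθ0 : 0 < θ := lt_min (by positivity) (by norm_num)
    have hθη : θ ≤ η / 8 := min_le_left _ _
    have hθ1 : θ ≤ 1 / 16 := min_le_right _ _
    obtain ⟨i, hi1, hi2, hi3, hi4⟩ := ((hlim.eventually (Iio_mem_nhds hθ0)).and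
      ((de_lim.eventually (Iio_mem_nhds hθ0)).and ((hp.eventually_ge_atTop A0).and
        (eventually_ge_atTop (max i1 1))))).exists
    obtain ⟨N, hN, hS⟩ := h i ((le_max_left _ _).trans hi4)
    have hE := hκ i ((le_max_right _ _).trans hi4) N hN
    have hSθ := hS θ hθ0
    have hi2' : de i ≤ θ := le_of_lt hi2
    -- the family itself
    have hfam : ∀ᶠ s : ℕ in atTop, ∀ r, s ≤ r → r ≤ 2 * s →
        |Real.log (cT0 (N r - 2) b r) - Real.log (cT0 (N s - 2) b s) +
          1 / 4 * (Real.log r - Real.log s)| ≤ 3 * θ := by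
      obtain ⟨s1, hs1⟩ := eventually_atTop.1 (hSθ.and hE)
      filter_upwards [eventually_ge_atTop s1] with s hs r hsr hr2
      have g1 := (hs1 s hs).1 r hsr hr2
      have g2 := (hs1 s hs).2
      have g3 := (hs1 r (hs.trans hsr)).2
      have e : Real.log (cT0 (N r - 2) b r) - Real.log (cT0 (N s - 2) b s) +
          1 / 4 * (Real.log r - Real.log s) =
          (Real.log (cT0 (N r - 2) b r) - Real.log (cT0 (N s - 2) b s) +
            Real.pi / 4 * (eD (N r) r - eD (N s) s)) -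
          Real.pi / 4 * ((eD (N r) r - 1 / Real.pi * Real.log r - κ) -
            (eD (N s) s - 1 / Real.pi * Real.log s - κ)) := by
        field_simp
        ring
      rw [e]
      refine (abs_sub _ _).trans ?_
      rw [abs_mul, abs_of_pos (by positivity : 0 < Real.pi / 4)]
      have g4 := (abs_sub (eD (N r) r - 1 / Real.pi * Real.log r - κ)
        (eD (N s) s - 1 / Real.pi * Real.log s - κ)).trans (add_le_add g3 g2)
      have g5 : Real.pi / 4 ≤ 1 := by have := Real.pi_le_four; linarith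
      have g6 : Real.pi / 4 * |(eD (N r) r - 1 / Real.pi * Real.log r - κ) -
          (eD (N s) s - 1 / Real.pi * Real.log s - κ)| ≤ 1 * (2 * θ) :=
        mul_le_mul g5 (by linarith) (abs_nonneg _) (by norm_num)
      linarith
    have hstep : ∀ᶠ s : ℕ in atTop, ∀ r, s ≤ r → r ≤ 2 * s →
        -Real.log 2 ≤ Real.log (cT0 (N r - 2) b r) - Real.log (cT0 (N s - 2) b s) := by
      filter_upwards [hfam, eventually_ge_atTop 1] with s g1 g0 r hsr hr2
      have g2 := (abs_le.1 (g1 r hsr hr2)).1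
      have hs0 : (0 : ℝ) < s := by exact_mod_cast g0
      have hr0 : (0 : ℝ) < r := by exact_mod_cast (g0.trans hsr)
      have g3 : Real.log r ≤ Real.log 2 + Real.log s := by
        rw [← Real.log_mul two_ne_zero hs0.ne']
        exact Real.log_le_log hr0 (by exact_mod_cast hr2)
      have g4 : (0.6931471803 : ℝ) < Real.log 2 := Real.log_two_gt_d9
      linarith
    have hpl := hfr _ hi3 N hN hstep
    refine ⟨hpl.mono fun r hr => hr.1, ?_⟩
    obtain ⟨s1, hs1⟩ := eventually_atTop.1 (hpl.and hfam)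
    filter_upwards [eventually_ge_atTop s1] with s hs r hsr hr2
    have g1 := (hs1 s hs).2 r hsr hr2
    have g2 := (hs1 s hs).1.2
    have g3 := (hs1 r (hs.trans hsr)).1.2
    have g4 : C' * ((2 : ℝ) ^ i) ^ (-c) < θ := hi1
    have e : Real.log (XY.C b ((r : ℤ), 0)) - Real.log (XY.C b ((s : ℤ), 0)) +
        1 / 4 * (Real.log r - Real.log s) =
        (Real.log (XY.C b ((r : ℤ), 0)) - Real.log (cT0 (N r - 2) b r)) -
        (Real.log (XY.C b ((s : ℤ), 0)) - Real.log (cT0 (N s - 2) b s)) +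
        (Real.log (cT0 (N r - 2) b r) - Real.log (cT0 (N s - 2) b s) +
          1 / 4 * (Real.log r - Real.log s)) := by ring
    rw [e]
    refine (abs_add_le _ _).trans ?_
    have g5 := abs_sub (Real.log (XY.C b ((r : ℤ), 0)) - Real.log (cT0 (N r - 2) b r))
      (Real.log (XY.C b ((s : ℤ), 0)) - Real.log (cT0 (N s - 2) b s))
    linarith
  exact ⟨(key 1 one_pos).1, fun η hη => (key η hη).2⟩

/-- chaining of the dyadic steps -/
lemma soft_chain {f : ℕ → ℝ}
    (h : ∀ η : ℝ, 0 < η → ∀ᶠ s : ℕ in atTop, ∀ r, s ≤ r → r ≤ 2 * s →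
      |f r - f s| ≤ η) (j : ℕ) :
    ∀ η : ℝ, 0 < η → ∀ᶠ s : ℕ in atTop, ∀ r, s ≤ r → r ≤ 2 ^ j * s → |f r - f s| ≤ η := by
  induction j with
  | zero =>
    intro η hη
    refine Eventually.of_forall fun s r h1 h2 => ?_
    have : r = s := by rw [pow_zero, one_mul] at h2; omega
    rw [this, sub_self, abs_zero]
    exact hη.le
  | succ j ih =>
    intro η hη
    obtain ⟨s1, hs1⟩ := eventually_atTop.1 ((ih (η / 2) (by positivity)).and
      (h (η / 2) (by positivity)))
    filter_upwards [eventually_ge_atTop s1] with s hs r h1 h2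
    by_cases h3 : r ≤ 2 ^ j * s
    · have := (hs1 s hs).1 r h1 h3
      linarith
    · have h4 : s ≤ 2 ^ j * s := Nat.le_mul_of_pos_left s (by positivity)
      have h5 := (hs1 s hs).1 (2 ^ j * s) h4 le_rfl
      have h6 := (hs1 (2 ^ j * s) (hs.trans h4)).2 r (by omega)
        (by rw [pow_succ] at h2; nlinarith)
      have e : f r - f s = (f r - f (2 ^ j * s)) + (f (2 ^ j * s) - f s) := by ring
      rw [e]
      refine (abs_add_le _ _).trans ?_
      linarith

/-- **regular variation**: `C_b(k r)/C_b(r) → k^{-1/4}` -/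
theorem soft_rv (hb : 0 ≤ b) (hC : ∀ᶠ r : ℕ in atTop, 0 < XY.C b ((r : ℤ), 0))
    (h : ∀ η : ℝ, 0 < η → ∀ᶠ s : ℕ in atTop, ∀ r, s ≤ r → r ≤ 2 * s →
      |Real.log (XY.C b ((r : ℤ), 0)) - Real.log (XY.C b ((s : ℤ), 0)) +
        1 / 4 * (Real.log r - Real.log s)| ≤ η) {k : ℕ} (hk : 1 ≤ k) :
    Tendsto (fun r : ℕ => corrInf b (((k * r : ℕ) : ℤ), 0) / corrInf b ((r : ℤ), 0)) atTop
      (𝓝 ((k : ℝ) ^ (-(1 / 4) : ℝ))) := by
  have hk0 : (0 : ℝ) < k := by exact_mod_cast hk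
  have h1 := soft_chain (f := fun r : ℕ => Real.log (XY.C b ((r : ℤ), 0)) + 1 / 4 * Real.log r)
    (fun η hη => (h η hη).mono fun s hs r h1 h2 => by
      have := hs r h1 h2
      have e : Real.log (XY.C b ((r : ℤ), 0)) + 1 / 4 * Real.log r -
          (Real.log (XY.C b ((s : ℤ), 0)) + 1 / 4 * Real.log s) =
          Real.log (XY.C b ((r : ℤ), 0)) - Real.log (XY.C b ((s : ℤ), 0)) +
            1 / 4 * (Real.log r - Real.log s) := by ring
      rw [e]
      exact this) k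
  have h2 : Tendsto (fun r : ℕ => Real.log (XY.C b (((k * r : ℕ) : ℤ), 0)) -
      Real.log (XY.C b ((r : ℤ), 0))) atTop (𝓝 (-(1 / 4) * Real.log k)) := by
    rw [Metric.tendsto_nhds]
    intro ε hε
    filter_upwards [h1 (ε / 2) (by positivity), eventually_ge_atTop 1] with r g1 g2
    have hr0 : (0 : ℝ) < r := by exact_mod_cast g2
    have g3 := g1 (k * r) (Nat.le_mul_of_pos_left r hk)
      (Nat.mul_le_mul_right r (Nat.lt_two_pow_self (n := k)).le)
    rw [Real.dist_eq]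
    have e0 : Real.log ((k * r : ℕ) : ℝ) = Real.log k + Real.log r := by
      rw [Nat.cast_mul, Real.log_mul hk0.ne' hr0.ne']
    have e : Real.log (XY.C b (((k * r : ℕ) : ℤ), 0)) - Real.log (XY.C b ((r : ℤ), 0)) -
        -(1 / 4) * Real.log k =
        Real.log (XY.C b (((k * r : ℕ) : ℤ), 0)) + 1 / 4 * Real.log ((k * r : ℕ) : ℝ) -
          (Real.log (XY.C b ((r : ℤ), 0)) + 1 / 4 * Real.log r) := by
      rw [e0]
      ring
    rw [e]
    linarith
  have h3 := (Real.continuous_exp.tendsto _).comp h2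
  have h4 : Real.exp (-(1 / 4) * Real.log k) = (k : ℝ) ^ (-(1 / 4) : ℝ) := by
    rw [Real.rpow_def_of_pos hk0, mul_comm]
  rw [h4] at h3
  have htop : Tendsto (fun r : ℕ => k * r) atTop atTop :=
    tendsto_id.const_mul_atTop' hk
  refine h3.congr' ?_
  filter_upwards [hC, htop.eventually hC] with r g1 g2
  show Real.exp (Real.log (XY.C b (((k * r : ℕ) : ℤ), 0)) - Real.log (XY.C b ((r : ℤ), 0))) = _
  rw [Real.exp_sub, Real.exp_log g1, Real.exp_log g2, XY.corrInf_eq hb, XY.corrInf_eq hb]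

end Vale.Agent.P159.H773
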