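import Vale.Agent.P159.H773.Rat2

/-!
P159 (helper773), fixed ratio transfer, part 3: a charge two crossing an annulus.
-/

open MeasureTheory Filter Topology
open scoped BigOperators

set_option linter.all false

namespace Vale.Agent.P159.H773

open Vale.Agent.P159 Vale.Agent.P159.H353 Vale.Agent.P159.T1.H42 Vale.Agent.P159.TM.H389
open Vale.Agent.P159.TM.H331

section gen

variable {V : Type} [Fintype V] {S S' P N : Set V} {o : V} {A B : C(V → T, ℝ)}

lemma WR_wt (n : ℕ) (c : V → V) : pl (WR n c) * mi (WR n c) ∈ (PG (V → T)).S := by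
  refine wt_cexp (Subsemiring.sum_mem _ fun v _ => ?_)
  exact Subsemiring.mul_mem _ (Pos.cosS_const _ _ (Nat.cast_nonneg n)) (PG_cos _)

lemma WR_pos (n : ℕ) (c : V → V) (θ : V → T) : 0 < WR n c θ := by
  rw [WR_apply]
  exact Real.exp_pos _

lemma WR_inv (n : ℕ) (c : V → V) : Inv (WR n c) := by
  intro θ a
  rw [WR_apply, WR_apply]
  congr 1
  refine Finset.sum_congr rfl fun v _ => ?_
  simp

lemma WR_fer (n : ℕ) (c : V → V) : Fer (WR n c) where
  wt := WR_wt n c
  cos := WR_cos n c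
  pos := WR_pos n c
  inv := WR_inv n c

lemma WR_pin (n : ℕ) (hd : Disjoint S S') (ho : o ∈ S) (θ : V → T) :
    WR n (ctr S o) (pin S' 0 θ) = WR n (ctr S o) θ := by
  rw [WR_apply, WR_apply]
  congr 1
  refine Finset.sum_congr rfl fun v hv => ?_
  have h1 : v ∈ S := (mem_mv_ctr.1 hv).1
  have h2 : v ∉ S' := fun h => Set.disjoint_left.1 hd h1 h
  have h3 : o ∉ S' := fun h => Set.disjoint_left.1 hd ho h
  rw [ctr_mem h1, pin_notMem h2, pin_notMem h3]

/-- tying the set `S` in the presence of pinned spins -/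
theorem tie_le {w U : C(V → T, ℝ)} (hw : pl w * mi w ∈ (PG (V → T)).S)
    (hU : U ∈ (PG (V → T)).cosS) (hd : Disjoint S S') (ho : o ∈ S) :
    (∫ θ, w (pin S' 0 fun v => θ (ctr S o v)) ∂(torusHaar V)) *
      (∫ θ, w (pin S' 0 θ) * U (pin S' 0 θ) ∂(torusHaar V)) ≤
    (∫ θ, w (pin S' 0 fun v => θ (ctr S o v)) * U (pin S' 0 fun v => θ (ctr S o v))
      ∂(torusHaar V)) * ∫ θ, w (pin S' 0 θ) ∂(torusHaar V) := by
  have cp := pin_cont S' (0 : V → T)
  have c1 : Continuous fun θ : V → T => w (pin S' 0 θ) := w.continuous.comp cp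
  have c2 : Continuous fun θ : V → T => w (pin S' 0 θ) * U (pin S' 0 θ) :=
    c1.mul (U.continuous.comp cp)
  have l1 := wr_lim (ctr_idem ho) c1
  have l2 := wr_lim (ctr_idem ho) c2
  refine le_of_tendsto_of_tendsto'
    (l1.mul_const (∫ θ, w (pin S' 0 θ) * U (pin S' 0 θ) ∂(torusHaar V)))
    (l2.mul_const (∫ θ, w (pin S' 0 θ) ∂(torusHaar V))) fun n => ?_
  have h := infl_pin (w := w) (X := WR n (ctr S o)) (Y := U) hw (WR_cos n _) hU S'
  simp only [WR_pin n hd ho] at h
  have q1 := NW_pos (V := V) n (ctr S o)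
  calc _ = (NW n (ctr S o))⁻¹ * ((∫ θ, w (pin S' 0 θ) * WR n (ctr S o) θ ∂(torusHaar V)) *
      (∫ θ, w (pin S' 0 θ) * U (pin S' 0 θ) ∂(torusHaar V))) := by
        rw [mul_assoc]
        congr 2
        refine integral_congr_ae (Eventually.of_forall fun θ => ?_)
        show WR n (ctr S o) θ * w (pin S' 0 θ) = _
        ring
    _ ≤ (NW n (ctr S o))⁻¹ * ((∫ θ, w (pin S' 0 θ) * (WR n (ctr S o) θ * U (pin S' 0 θ))
        ∂(torusHaar V)) * ∫ θ, w (pin S' 0 θ) ∂(torusHaar V)) :=
          mul_le_mul_of_nonneg_left h (inv_nonneg.2 q1.le)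
    _ = _ := by
        rw [mul_assoc]
        congr 2
        refine integral_congr_ae (Eventually.of_forall fun θ => ?_)
        show _ = WR n (ctr S o) θ * (w (pin S' 0 θ) * U (pin S' 0 θ))
        ring

/-- integral over one spin -/
lemma int_eval (o : V) {g : T → ℝ} (hg : Continuous g) :
    ∫ ζ : V → T, g (ζ o) ∂(torusHaar V) = ∫ x, g x ∂(AddCircle.haarAddCircle : Measure T) := by
  have hmp := measurePreserving_eval (fun _ : V => (AddCircle.haarAddCircle : Measure T)) o
  have h1 := integral_map (μ := torusHaar V) (hmp.measurable).aemeasurable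
    (f := g) hg.aestronglyMeasurable
  have hm : Measure.map (Function.eval o) (torusHaar V) =
      (AddCircle.haarAddCircle : Measure T) := hmp.map_eq
  rw [hm] at h1
  exact h1.symm

/-- disintegration of a tied set -/
lemma int_tied (ho : o ∈ S) {f : (V → T) → ℝ} (hf : Continuous f) :
    ∫ θ, f (fun v => θ (ctr S o v)) ∂(torusHaar V) =
      ∫ x, (∫ θ, f (pin S (fun _ => x) θ) ∂(torusHaar V))
        ∂(AddCircle.haarAddCircle : Measure T) := by
  rw [← integral_pin {o} (f := fun θ => f (fun v => θ (ctr S o v)))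
    (hf.comp (relab_cont _))]
  have e : ∀ ζ : V → T, ∫ θ, f (fun v => pin {o} ζ θ (ctr S o v)) ∂(torusHaar V) =
      ∫ θ, f (pin S (fun _ => ζ o) θ) ∂(torusHaar V) := by
    intro ζ
    refine integral_congr_ae (Eventually.of_forall fun θ => ?_)
    show f _ = f _
    congr 1
    funext v
    by_cases h : v ∈ S
    · rw [ctr_mem h, pin_mem (by simp), pin_mem h]
    · have hv : v ∉ ({o} : Set V) := by
        simp only [Set.mem_singleton_iff]
        exact fun h1 => h (h1 ▸ ho)
      rw [ctr_notMem h, pin_notMem hv, pin_notMem h]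
  simp_rw [e]
  refine int_eval o (g := fun x => ∫ θ, f (pin S (fun _ => x) θ) ∂(torusHaar V)) ?_
  have h1 := pin_int_cont S hf
  exact h1.comp (continuous_pi fun _ => continuous_id)

/-- rotation of the tied set -/
lemma int_rot {f : (V → T) → ℝ} (hf : Continuous f) (x : T) :
    ∫ θ, f (pin S (fun _ => x) θ) ∂(torusHaar V) =
      ∫ θ, f (pin S 0 θ + fun _ => x) ∂(torusHaar V) := by
  rw [← integral_add_right_eq_self (fun θ : V → T => f (pin S (fun _ => x) θ)) (fun _ => x)]
  refine integral_congr_ae (Eventually.of_forall fun θ => ?_)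
  show f _ = f _
  congr 1
  funext v
  by_cases h : v ∈ S
  · rw [pin_mem h, Pi.add_apply, pin_mem h]
    simp
  · rw [pin_notMem h, Pi.add_apply, Pi.add_apply, pin_notMem h]

/-- the annulus with a tied and a pinned set -/
lemma ann_rot (hAi : Inv A) (hd : Disjoint S S') (x : T) :
    ∫ θ, A (pin S' 0 (pin S (fun _ => x) θ)) ∂(torusHaar V) = Aph A S S' (-x) := by
  unfold Aph
  rw [← integral_add_right_eq_self (fun θ : V → T => A (pin S' 0 (pin S (fun _ => x) θ)))
    (fun _ => x)]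
  refine integral_congr_ae (Eventually.of_forall fun θ => ?_)
  show A _ = A _
  rw [← hAi (pin (S ∪ S') (two S' (-x)) θ) x]
  congr 1
  funext v
  by_cases h' : v ∈ S'
  · rw [pin_mem h', Pi.add_apply, pin_mem (show v ∈ S ∪ S' from Or.inr h'), two_mem h']
    simp
  · by_cases h : v ∈ S
    · rw [pin_notMem h', pin_mem h, Pi.add_apply, pin_mem (show v ∈ S ∪ S' from Or.inl h),
        two_notMem h', zero_add]
    · rw [pin_notMem h', pin_notMem h, Pi.add_apply, Pi.add_apply,
        pin_notMem fun h2 => h2.elim h h']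

lemma int_odd {f : (V → T) → ℝ} (hf : ∀ θ, f (-θ) = -f θ) :
    ∫ θ, f θ ∂(torusHaar V) = 0 := by
  have h1 := integral_neg_eq_self f (torusHaar V)
  have h2 : ∫ θ, f (-θ) ∂(torusHaar V) = -∫ θ, f θ ∂(torusHaar V) := by
    rw [← integral_neg]
    exact integral_congr_ae (Eventually.of_forall fun θ => hf θ)
  linarith

lemma pin_neg (S : Set V) (θ : V → T) : pin S 0 (-θ) = -pin S 0 θ := by
  funext v
  by_cases h : v ∈ S
  · rw [pin_mem h, Pi.neg_apply, pin_mem h]
    simp
  · rw [pin_notMem h, Pi.neg_apply, Pi.neg_apply, pin_notMem h]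

variable (hAi : Inv A) (hBi : Inv B) (hBe : ∀ θ, B (-θ) = B θ) (hSP : S ⊆ P)
  (hBP : Dep P B) (hAN : Dep N A) (hPN : P ∩ N ⊆ S) (hPS' : Disjoint P S')

/-- factorization with a tied set, value of the tied spins fixed -/
lemma fact_tied (hSP : S ⊆ P) (hAN : Dep N A) (hPN : P ∩ N ⊆ S) (hPS' : Disjoint P S')
    {F : (V → T) → ℝ} (hF : Continuous F) (hFP : Dep P F) (x : T) :
    ∫ θ, F (pin S' 0 (pin S (fun _ => x) θ)) * A (pin S' 0 (pin S (fun _ => x) θ))
      ∂(torusHaar V) =
    (∫ θ, F (pin S (fun _ => x) θ) ∂(torusHaar V)) *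
      ∫ θ, A (pin S' 0 (pin S (fun _ => x) θ)) ∂(torusHaar V) := by
  have e : ∀ θ : V → T, F (pin S' 0 (pin S (fun _ => x) θ)) = F (pin S (fun _ => x) θ) := by
    intro θ
    refine hFP _ _ fun v hv => ?_
    rw [pin_notMem fun h => Set.disjoint_left.1 hPS' hv h]
  simp_rw [e]
  have cp := pin_cont S (fun _ => x : V → T)
  refine indep (S := P \ S) (hF.comp cp) (A.continuous.comp ((pin_cont S' 0).comp cp)) ?_ ?_
  · intro θ θ' h1
    refine hFP _ _ fun v hv => ?_
    by_cases hS : v ∈ S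
    · rw [pin_mem hS, pin_mem hS]
    · rw [pin_notMem hS, pin_notMem hS]
      exact h1 v ⟨hv, hS⟩
  · intro θ θ' h1
    refine hAN _ _ fun v hv => ?_
    by_cases hS' : v ∈ S'
    · rw [pin_mem hS', pin_mem hS']
    · rw [pin_notMem hS', pin_notMem hS']
      by_cases hS : v ∈ S
      · rw [pin_mem hS, pin_mem hS]
      · rw [pin_notMem hS, pin_notMem hS]
        exact h1 v fun h2 => hS (hPN ⟨h2.1, hv⟩)

theorem tied_one (hd : Disjoint S S') (ho : o ∈ S) (hAi : Inv A) (hBi : Inv B) (hSP : S ⊆ P)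
    (hBP : Dep P B) (hAN : Dep N A) (hPN : P ∩ N ⊆ S) (hPS' : Disjoint P S') :
    ∫ θ, (B * A) (pin S' 0 fun v => θ (ctr S o v)) ∂(torusHaar V) =
      (∫ θ, B (pin S 0 θ) ∂(torusHaar V)) *
        ∫ x, Aph A S S' x ∂(AddCircle.haarAddCircle : Measure T) := by
  rw [int_tied ho (f := fun θ => (B * A) (pin S' 0 θ))
    ((B * A).continuous.comp (pin_cont S' 0))]
  have e1 : ∀ x : T, ∫ θ, (B * A) (pin S' 0 (pin S (fun _ => x) θ)) ∂(torusHaar V) =
      (∫ θ, B (pin S 0 θ) ∂(torusHaar V)) * Aph A S S' (-x) := by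
    intro x
    have h1 := fact_tied (A := A) hSP hAN hPN hPS' B.continuous hBP x
    have h2 := int_rot (S := S) B.continuous x
    rw [ann_rot hAi hd] at h1
    rw [h2] at h1
    refine Eq.trans ?_ (h1.trans ?_)
    · rfl
    · congr 1
      exact integral_congr_ae (Eventually.of_forall fun θ => hBi _ _)
  simp_rw [e1]
  rw [integral_const_mul]
  congr 1
  exact integral_neg_eq_self (fun x => Aph A S S' x) _

theorem tied_two (hd : Disjoint S S') (ho : o ∈ S) (hAi : Inv A) (hBi : Inv B)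
    (hBe : ∀ θ, B (-θ) = B θ) (hSP : S ⊆ P)
    (hBP : Dep P B) (hAN : Dep N A) (hPN : P ∩ N ⊆ S) (hPS' : Disjoint P S') {p q : V}
    (hp : p ∈ P) (hq : q ∈ P) :
    ∫ θ, (B * A) (pin S' 0 fun v => θ (ctr S o v)) *
      cc (ch2 p q 1) (pin S' 0 fun v => θ (ctr S o v)) ∂(torusHaar V) =
      (∫ θ, B (pin S 0 θ) * cc (ch2 p q 1) (pin S 0 θ) ∂(torusHaar V)) *
        ∫ x, cosT (x + x) * Aph A S S' x ∂(AddCircle.haarAddCircle : Measure T) := by
  set U : C(V → T, ℝ) := cc (ch2 p q 1) with hU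
  have hUv : ∀ θ : V → T, U θ = cosT (θ p + θ q) := by
    intro θ
    show cosT (θ p + (1 : ℤ) • θ q) = _
    rw [one_zsmul]
  rw [int_tied ho (f := fun θ => (B * A) (pin S' 0 θ) * U (pin S' 0 θ))
    (((B * A).continuous.comp (pin_cont S' 0)).mul (U.continuous.comp (pin_cont S' 0)))]
  have hFP : Dep P fun θ => B θ * U θ := by
    intro θ θ' h
    show B θ * U θ = B θ' * U θ'
    rw [hBP θ θ' h, hUv, hUv, h p hp, h q hq]
  have e1 : ∀ x : T, ∫ θ, (B * A) (pin S' 0 (pin S (fun _ => x) θ)) *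
      U (pin S' 0 (pin S (fun _ => x) θ)) ∂(torusHaar V) =
      (∫ θ, B (pin S 0 θ) * U (pin S 0 θ) ∂(torusHaar V)) *
        (cosT (x + x) * Aph A S S' (-x)) := by
    intro x
    have h1 := fact_tied (A := A) (F := fun θ => B θ * U θ) hSP hAN hPN hPS'
      (B.continuous.mul U.continuous) hFP x
    have h2 := int_rot (S := S) (f := fun θ => B θ * U θ) (B.continuous.mul U.continuous) x
    rw [ann_rot hAi hd, h2] at h1
    have e2 : ∫ θ, (B * A) (pin S' 0 (pin S (fun _ => x) θ)) *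
        U (pin S' 0 (pin S (fun _ => x) θ)) ∂(torusHaar V) =
        ∫ θ, B (pin S' 0 (pin S (fun _ => x) θ)) * U (pin S' 0 (pin S (fun _ => x) θ)) *
          A (pin S' 0 (pin S (fun _ => x) θ)) ∂(torusHaar V) := by
      refine integral_congr_ae (Eventually.of_forall fun θ => ?_)
      show B _ * A _ * U _ = B _ * U _ * A _
      ring
    rw [e2, h1]
    have e3 : ∫ θ, B (pin S 0 θ + fun _ => x) * U (pin S 0 θ + fun _ => x) ∂(torusHaar V) =
        (∫ θ, B (pin S 0 θ) * U (pin S 0 θ) ∂(torusHaar V)) * cosT (x + x) := by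
      have e4 : ∀ θ : V → T, B (pin S 0 θ + fun _ => x) * U (pin S 0 θ + fun _ => x) =
          B (pin S 0 θ) * U (pin S 0 θ) * cosT (x + x) -
            B (pin S 0 θ) * sinT (pin S 0 θ p + pin S 0 θ q) * sinT (x + x) := by
        intro θ
        rw [hBi, hUv, hUv, Pi.add_apply, Pi.add_apply]
        have e5 : pin S 0 θ p + x + (pin S 0 θ q + x) =
            (pin S 0 θ p + pin S 0 θ q) + (x + x) := by abel
        have e6 : cosT ((pin S 0 θ p + pin S 0 θ q) + (x + x)) =
            cosT (pin S 0 θ p + pin S 0 θ q) * cosT (x + x) -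
              sinT (pin S 0 θ p + pin S 0 θ q) * sinT (x + x) := Real.Angle.cos_add _ _
        show B (pin S 0 θ) * cosT (pin S 0 θ p + x + (pin S 0 θ q + x)) = _
        rw [e5, e6]
        ring
      simp_rw [e4]
      have cp := pin_cont S (0 : V → T)
      have c1 : Continuous fun θ : V → T => B (pin S 0 θ) * U (pin S 0 θ) * cosT (x + x) :=
        ((B.continuous.comp cp).mul (U.continuous.comp cp)).mul continuous_const
      have c2 : Continuous fun θ : V → T =>
          B (pin S 0 θ) * sinT (pin S 0 θ p + pin S 0 θ q) * sinT (x + x) :=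
        ((B.continuous.comp cp).mul (cont_sin.comp
          (((continuous_apply p).comp cp).add ((continuous_apply q).comp cp)))).mul
            continuous_const
      rw [integral_sub (cint c1) (cint c2), integral_mul_const, integral_mul_const]
      have e7 : ∫ θ, B (pin S 0 θ) * sinT (pin S 0 θ p + pin S 0 θ q) ∂(torusHaar V) = 0 := by
        refine int_odd fun θ => ?_
        rw [pin_neg, hBe, Pi.neg_apply, Pi.neg_apply, ← neg_add, sinT_neg]
        ring
      rw [e7]
      ring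
    rw [e3]
    ring
  simp_rw [e1]
  rw [integral_const_mul]
  congr 1
  rw [← integral_neg_eq_self (fun x : T => cosT (x + x) * Aph A S S' (-x))]
  refine integral_congr_ae (Eventually.of_forall fun x => ?_)
  show cosT (-x + -x) * Aph A S S' (- -x) = cosT (x + x) * Aph A S S' x
  rw [neg_neg, ← neg_add, cosT_neg]

/-- **a charge two crossing an annulus** -/
theorem charge_two (hA : Fer A) (hB : Fer B) (hd : Disjoint S S') (ho : o ∈ S)
    (hBe : ∀ θ, B (-θ) = B θ) (hSP : S ⊆ P)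
    (hBP : Dep P B) (hAN : Dep N A) (hPN : P ∩ N ⊆ S) (hPS' : Disjoint P S') {p q : V}
    (hp : p ∈ P) (hq : q ∈ P) {ρ : ℝ}
    (hρ : |∫ x, cosT (x + x) * Aph A S S' x ∂(AddCircle.haarAddCircle : Measure T)| ≤
      ρ * ∫ x, Aph A S S' x ∂(AddCircle.haarAddCircle : Measure T)) :
    eP (B * A) S' (cc (ch2 p q 1)) ≤ ρ * eP B S (cc (ch2 p q 1)) := by
  set U : C(V → T, ℝ) := cc (ch2 p q 1) with hU
  have hUc : U ∈ (PG (V → T)).cosS := PG_cos _
  have h := tie_le (w := B * A) (U := U) (hB.mul hA).wt hUc hd ho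
  rw [tied_one hd ho hA.inv hB.inv hSP hBP hAN hPN hPS',
    tied_two hd ho hA.inv hB.inv hBe hSP hBP hAN hPN hPS' hp hq] at h
  have p1 : 0 < ∫ θ, B (pin S 0 θ) ∂(torusHaar V) := eP_den_pos hB.pos S
  have p2 : 0 < ∫ θ, (B * A) (pin S' 0 θ) ∂(torusHaar V) := eP_den_pos (hB.mul hA).pos S'
  have hAc : Continuous fun x : T => Aph A S S' x := Aph_cont A.continuous S S'
  have p3 : 0 < ∫ x, Aph A S S' x ∂(AddCircle.haarAddCircle : Measure T) := by
    have h1 := Continuous.integral_pos_of_hasCompactSupport_nonneg_nonzero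
      (μ := (AddCircle.haarAddCircle : Measure T)) hAc (HasCompactSupport.of_compactSpace _)
      (fun x => (Aph_pos A.continuous hA.pos S S' x).le)
      (x := 0) (Aph_pos A.continuous hA.pos S S' 0).ne'
    exact h1
  have p4 : 0 ≤ ∫ θ, B (pin S 0 θ) * U (pin S 0 θ) ∂(torusHaar V) := by
    have h1 : ∀ n : ℕ, 0 ≤ ∫ θ, PS n S θ * (B θ * U θ) ∂(torusHaar V) := by
      intro n
      have h2 := pos_int (w := PS n S * B) (U := U) (wt_mul (PS_wt n S) hB.wt)
        (fun θ => mul_pos (PK_pos _ _ _ _) (hB.pos θ)) hUc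
      refine h2.trans (le_of_eq ?_)
      refine integral_congr_ae (Eventually.of_forall fun θ => ?_)
      show PS n S θ * B θ * U θ = _
      ring
    have c1 : Continuous fun θ : V → T => B θ * U θ := by fun_prop
    exact ge_of_tendsto' (PS_peak S c1) fun n =>
      mul_nonneg (inv_nonneg.2 (NN_pos n (fs S) 0).le) (h1 n)
  unfold eP
  rw [← mul_div_assoc, div_le_div_iff₀ p2 p1]
  set X := ∫ x, cosT (x + x) * Aph A S S' x ∂(AddCircle.haarAddCircle : Measure T)
  set Y := ∫ x, Aph A S S' x ∂(AddCircle.haarAddCircle : Measure T)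
  have hX : X ≤ ρ * Y := (le_abs_self _).trans hρ
  refine le_of_mul_le_mul_left ?_ p3
  calc Y * ((∫ θ, (B * A) (pin S' 0 θ) * U (pin S' 0 θ) ∂(torusHaar V)) *
        ∫ θ, B (pin S 0 θ) ∂(torusHaar V)) =
        (∫ θ, B (pin S 0 θ) ∂(torusHaar V)) * Y *
          (∫ θ, (B * A) (pin S' 0 θ) * U (pin S' 0 θ) ∂(torusHaar V)) := by ring
    _ ≤ (∫ θ, B (pin S 0 θ) * U (pin S 0 θ) ∂(torusHaar V)) * X *
          ∫ θ, (B * A) (pin S' 0 θ) ∂(torusHaar V) := h
    _ ≤ (∫ θ, B (pin S 0 θ) * U (pin S 0 θ) ∂(torusHaar V)) * (ρ * Y) *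
          ∫ θ, (B * A) (pin S' 0 θ) ∂(torusHaar V) :=
        mul_le_mul_of_nonneg_right (mul_le_mul_of_nonneg_left hX p4) p2.le
    _ = _ := by ring

end gen

section coef

variable {V : Type} [Fintype V] {ι : Type} [Fintype ι] {J : ι → ℝ} {s t : ι → V}
  {S S' : Set V} {ψ : V → ℝ}

/-- second Fourier coefficient of the annulus -/
theorem coef_two (hJ : ∀ i, 0 ≤ J i) (hd : Disjoint S S') (h0 : ∀ v ∈ S, ψ v = 0)
    (h1 : ∀ v ∈ S', ψ v = 1) (τ : ℝ) :
    |∫ x, cosT (x + x) * Aph (cexp (EN J s t)) S S' x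
        ∂(AddCircle.haarAddCircle : Measure T)| ≤
      Real.exp (Ecost J s t ψ τ - 2 * τ) *
        ∫ x, Aph (cexp (EN J s t)) S S' x ∂(AddCircle.haarAddCircle : Measure T) := by
  have h := coef_le (J := J) (s := s) (t := t) hJ hd h0 h1 2 (-τ)
  rw [Ecost_neg] at h
  have e1 : ((2 : ℤ) : ℝ) * -τ + Ecost J s t ψ τ = Ecost J s t ψ τ - 2 * τ := by
    push_cast
    ring
  rw [e1] at h
  refine le_trans ?_ h
  set F : T → ℝ := fun x => Aph (cexp (EN J s t)) S S' x with hF
  have hFc : Continuous F := Aph_cont (cexp (EN J s t)).continuous S S'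
  have h2 : (fourierCoeff (fun φ : T => ((F φ : ℝ) : ℂ)) 2).re =
      ∫ x, cosT (x + x) * F x ∂(AddCircle.haarAddCircle : Measure T) := by
    unfold fourierCoeff
    have hc : Continuous fun x : T => (fourier (-2) x : ℂ) • ((F x : ℝ) : ℂ) :=
      (map_continuous (fourier (-2))).smul (Complex.continuous_ofReal.comp hFc)
    have hi : Integrable (fun x : T => (fourier (-2) x : ℂ) • ((F x : ℝ) : ℂ))
        (AddCircle.haarAddCircle : Measure T) :=
      hc.integrable_of_hasCompactSupport (HasCompactSupport.of_compactSpace _)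
    have h3 := Complex.reCLM.integral_comp_comm hi
    rw [← Complex.reCLM_apply, ← h3]
    refine integral_congr_ae (Eventually.of_forall fun x => ?_)
    show ((fourier (-2) x : ℂ) • ((F x : ℝ) : ℂ)).re = cosT (x + x) * F x
    have h4 : (fourier (-2) x : ℂ) = (fourier 1 (-(x + x)) : ℂ) := by
      rw [fourier_apply, fourier_apply]
      congr 2
      rw [one_zsmul, neg_zsmul, two_zsmul]
    have h5 : cosT (x + x) = (fourier 1 (-(x + x)) : ℂ).re := by
      rw [← cosT_re, cosT_neg]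
    rw [smul_eq_mul, Complex.re_mul_ofReal, h4, h5]
  rw [← h2]
  exact (Complex.abs_re_le_norm _)

end coef

end Vale.Agent.P159.H773
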