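import Vale.Agent.P159.H773.Rat3

/-!
P159 (helper773), fixed ratio transfer, part 4: the charge two correlation of a wired region is at
most `C (d / R) ^ (-c)` times the square of the magnetization of a small box.
-/

open MeasureTheory Filter Topology
open scoped BigOperators

set_option linter.all false

namespace Vale.Agent.P159.H773

open Vale.Agent.P159 Vale.Agent.P159.H353 Vale.Agent.P159.T1.H42 Vale.Agent.P159.TM.H389
open Vale.Agent.P159.TM.H331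

variable {M : ℕ} {b : ℝ}

/-! ### two separated regions -/

/-- separated regions -/
def Sep (Λ1 Λ2 : Finset (ℤ × ℤ)) : Prop := ∀ u ∈ Λ1, ∀ v ∈ Λ2, 2 ≤ XY.nm (u - v)

lemma cexp_EN_neg {V : Type} [Fintype V] {ι : Type} [Fintype ι] (J : ι → ℝ) (s t : ι → V)
    (θ : V → T) : cexp (EN J s t) (-θ) = cexp (EN J s t) θ := by
  show Real.exp (EN J s t (-θ)) = Real.exp (EN J s t θ)
  rw [EN_apply, EN_apply]
  congr 1
  refine Finset.sum_congr rfl fun i _ => ?_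
  rw [Pi.neg_apply, Pi.neg_apply, ← neg_sub_neg, neg_neg, neg_neg, ← cosT_neg, neg_sub]

lemma bond_nm (e : Bd M) : XY.nm (cv (bs e) - cv (bt e)) ≤ 1 := by
  rcases e with ⟨i, j⟩ | ⟨i, j⟩
  · simp only [bs, bt, cv, XY.nm, Prod.mk_sub_mk, Fin.val_castSucc, Fin.val_succ]
    push_cast
    omega
  · simp only [bs, bt, cv, XY.nm, Prod.mk_sub_mk, Fin.val_castSucc, Fin.val_succ]
    push_cast
    omega

lemma nm_sub_comm (u v : ℤ × ℤ) : XY.nm (u - v) = XY.nm (v - u) := by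
  rw [← XY.nm_neg, neg_sub]

lemma notMem_off {Λ : Finset (ℤ × ℤ)} {v : St M} (h : cv v ∈ Λ) : v ∉ off M Λ := fun h' => h' h

/-- the weight of two separated regions factorizes -/
lemma WF_two {Λ1 Λ2 : Finset (ℤ × ℤ)} (hs : Sep Λ1 Λ2) (θ : St M → T) :
    WF M b (pin (off M (Λ1 ∪ Λ2)) 0 θ) * WF M b 0 =
      WF M b (pin (off M Λ1) 0 θ) * WF M b (pin (off M Λ2) 0 θ) := by
  show Real.exp (EN _ _ _ _) * Real.exp (EN _ _ _ _) =
    Real.exp (EN _ _ _ _) * Real.exp (EN _ _ _ _)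
  rw [← Real.exp_add, ← Real.exp_add, EN_apply, EN_apply, EN_apply, EN_apply,
    ← Finset.sum_add_distrib, ← Finset.sum_add_distrib]
  congr 1
  refine Finset.sum_congr rfl fun e _ => ?_
  have hd : ∀ v : St M, cv v ∈ Λ1 → cv v ∉ Λ2 := by
    intro v h1 h2
    have := hs _ h1 _ h2
    rw [sub_self, XY.nm_zero] at this
    omega
  have hst : ¬ (cv (bs e) ∈ Λ1 ∧ cv (bt e) ∈ Λ2) := by
    rintro ⟨h1, h2⟩
    have := hs _ h1 _ h2
    have := bond_nm e
    omega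
  have hts : ¬ (cv (bt e) ∈ Λ1 ∧ cv (bs e) ∈ Λ2) := by
    rintro ⟨h1, h2⟩
    have h3 := hs _ h1 _ h2
    rw [nm_sub_comm] at h3
    have := bond_nm e
    omega
  have q : ∀ v : St M, (cv v ∈ Λ1 ∧ cv v ∉ Λ2 ∧ pin (off M (Λ1 ∪ Λ2)) 0 θ v = θ v ∧
      pin (off M Λ1) 0 θ v = θ v ∧ pin (off M Λ2) 0 θ v = 0) ∨
      (cv v ∉ Λ1 ∧ cv v ∈ Λ2 ∧ pin (off M (Λ1 ∪ Λ2)) 0 θ v = θ v ∧
      pin (off M Λ1) 0 θ v = 0 ∧ pin (off M Λ2) 0 θ v = θ v) ∨
      (cv v ∉ Λ1 ∧ cv v ∉ Λ2 ∧ pin (off M (Λ1 ∪ Λ2)) 0 θ v = 0 ∧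
      pin (off M Λ1) 0 θ v = 0 ∧ pin (off M Λ2) 0 θ v = 0) := by
    intro v
    by_cases h1 : cv v ∈ Λ1
    · have h2 := hd v h1
      refine Or.inl ⟨h1, h2, ?_, ?_, ?_⟩
      · exact pin_notMem fun h => h (Finset.mem_union_left _ h1)
      · exact pin_notMem fun h => h h1
      · exact pin_mem (show v ∈ off M Λ2 from h2)
    · by_cases h2 : cv v ∈ Λ2
      · refine Or.inr (Or.inl ⟨h1, h2, ?_, ?_, ?_⟩)
        · exact pin_notMem fun h => h (Finset.mem_union_right _ h2)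
        · exact pin_mem (show v ∈ off M Λ1 from h1)
        · exact pin_notMem fun h => h h2
      · refine Or.inr (Or.inr ⟨h1, h2, ?_, ?_, ?_⟩)
        · refine pin_mem (show v ∈ off M (Λ1 ∪ Λ2) from fun h => ?_)
          rcases Finset.mem_union.1 h with h | h
          · exact h1 h
          · exact h2 h
        · exact pin_mem (show v ∈ off M Λ1 from h1)
        · exact pin_mem (show v ∈ off M Λ2 from h2)
  have hz : cosT ((0 : St M → T) (bs e) - (0 : St M → T) (bt e)) = 1 := by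
    rw [Pi.zero_apply, Pi.zero_apply, sub_zero, cosT_zero]
  rw [hz]
  rcases q (bs e) with ⟨a1, a2, a3, a4, a5⟩ | ⟨a1, a2, a3, a4, a5⟩ | ⟨a1, a2, a3, a4, a5⟩ <;>
    rcases q (bt e) with ⟨c1, c2, c3, c4, c5⟩ | ⟨c1, c2, c3, c4, c5⟩ | ⟨c1, c2, c3, c4, c5⟩
  · rw [a3, a4, a5, c3, c4, c5, sub_zero, cosT_zero]
  · exact absurd ⟨a1, c2⟩ hst
  · rw [a3, a4, a5, c3, c4, c5, sub_zero, sub_zero, cosT_zero]
  · exact absurd ⟨c1, a2⟩ hts
  · rw [a3, a4, a5, c3, c4, c5, sub_zero, cosT_zero]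
    ring
  · rw [a3, a4, a5, c3, c4, c5, sub_zero, sub_zero, cosT_zero]
    ring
  · rw [a3, a4, a5, c3, c4, c5, sub_zero, cosT_zero]
  · rw [a3, a4, a5, c3, c4, c5, sub_zero, cosT_zero]
    ring
  · rw [a3, a4, a5, c3, c4, c5, sub_zero, cosT_zero]

lemma WF_neg (θ : St M → T) : WF M b (-θ) = WF M b θ := cexp_EN_neg _ _ _ _

lemma sin_zero (S : Set (St M)) (p : St M) :
    ∫ θ, WF M b (pin S 0 θ) * sinT (pin S 0 θ p) ∂(torusHaar (St M)) = 0 := by
  refine int_odd fun θ => ?_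
  rw [pin_neg, WF_neg, Pi.neg_apply, sinT_neg]
  ring

/-- two separated regions -/
theorem eP_two {Λ1 Λ2 : Finset (ℤ × ℤ)} (hs : Sep Λ1 Λ2) {p q : St M}
    (hp : cv p ∈ Λ1) (hq : cv q ∈ Λ2) :
    eP (WF M b) (off M (Λ1 ∪ Λ2)) (fun θ => cosT (θ p + θ q)) =
      eP (WF M b) (off M Λ1) (fun θ => cosT (θ p)) *
        eP (WF M b) (off M Λ2) (fun θ => cosT (θ q)) := by
  have hd : ∀ v : St M, cv v ∈ Λ1 → cv v ∉ Λ2 := by
    intro v h1 h2
    have := hs _ h1 _ h2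
    rw [sub_self, XY.nm_zero] at this
    omega
  have w0 : 0 < WF M b 0 := Real.exp_pos _
  set p1 := fun θ : St M → T => pin (off M Λ1) 0 θ with hp1
  set p2 := fun θ : St M → T => pin (off M Λ2) 0 θ with hp2
  have c1 : Continuous p1 := pin_cont _ 0
  have c2 : Continuous p2 := pin_cont _ 0
  have hW := fun θ => WF_two (M := M) (b := b) hs θ
  have hind : ∀ {f g : T → ℝ}, Continuous f → Continuous g →
      ∫ θ, (WF M b (p1 θ) * f (p1 θ p)) * (WF M b (p2 θ) * g (p2 θ q)) ∂(torusHaar (St M)) =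
        (∫ θ, WF M b (p1 θ) * f (p1 θ p) ∂(torusHaar (St M))) *
          ∫ θ, WF M b (p2 θ) * g (p2 θ q) ∂(torusHaar (St M)) := by
    intro f g hf hg
    refine indep (S := {v : St M | cv v ∈ Λ1})
      (((WF M b).continuous.comp c1).mul (hf.comp ((continuous_apply p).comp c1)))
      (((WF M b).continuous.comp c2).mul (hg.comp ((continuous_apply q).comp c2))) ?_ ?_
    · intro θ θ' h
      have e : p1 θ = p1 θ' := by
        funext v
        by_cases hv : cv v ∈ Λ1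
        · have hv' : v ∉ off M Λ1 := fun h => h hv
          simp only [hp1]
          rw [pin_notMem hv', pin_notMem hv']
          exact h v hv
        · simp only [hp1]
          rw [pin_mem (show v ∈ off M Λ1 from hv), pin_mem (show v ∈ off M Λ1 from hv)]
      show WF M b (p1 θ) * f (p1 θ p) = WF M b (p1 θ') * f (p1 θ' p)
      rw [e]
    · intro θ θ' h
      have e : p2 θ = p2 θ' := by
        funext v
        by_cases hv : cv v ∈ Λ2
        · have hv' : v ∉ off M Λ2 := fun h => h hv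
          simp only [hp2]
          rw [pin_notMem hv', pin_notMem hv']
          exact h v fun h1 => hd v h1 hv
        · simp only [hp2]
          rw [pin_mem (show v ∈ off M Λ2 from hv), pin_mem (show v ∈ off M Λ2 from hv)]
      show WF M b (p2 θ) * g (p2 θ q) = WF M b (p2 θ') * g (p2 θ' q)
      rw [e]
  have hpv : ∀ θ : St M → T, pin (off M (Λ1 ∪ Λ2)) 0 θ p = p1 θ p := by
    intro θ
    simp only [hp1]
    rw [pin_notMem (notMem_off (Finset.mem_union_left _ hp)), pin_notMem (notMem_off hp)]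
  have hqv : ∀ θ : St M → T, pin (off M (Λ1 ∪ Λ2)) 0 θ q = p2 θ q := by
    intro θ
    simp only [hp2]
    rw [pin_notMem (notMem_off (Finset.mem_union_right _ hq)), pin_notMem (notMem_off hq)]
  have e1 : (∫ θ, WF M b (pin (off M (Λ1 ∪ Λ2)) 0 θ) *
      cosT (pin (off M (Λ1 ∪ Λ2)) 0 θ p + pin (off M (Λ1 ∪ Λ2)) 0 θ q) ∂(torusHaar (St M))) *
        WF M b 0 = (∫ θ, WF M b (p1 θ) * cosT (p1 θ p) ∂(torusHaar (St M))) *
          ∫ θ, WF M b (p2 θ) * cosT (p2 θ q) ∂(torusHaar (St M)) := by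
    have hc := hind cont_cos cont_cos
    have hsn := hind cont_sin cont_sin
    have z1 : ∫ θ, WF M b (p1 θ) * sinT (p1 θ p) ∂(torusHaar (St M)) = 0 := sin_zero _ p
    rw [z1, zero_mul] at hsn
    rw [← hc, ← integral_mul_const, ← sub_zero (∫ θ, (WF M b (p1 θ) * cosT (p1 θ p)) *
      (WF M b (p2 θ) * cosT (p2 θ q)) ∂(torusHaar (St M))), ← hsn, ← integral_sub]
    · refine integral_congr_ae (Eventually.of_forall fun θ => ?_)
      have e2 : cosT (p1 θ p + p2 θ q) =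
          cosT (p1 θ p) * cosT (p2 θ q) - sinT (p1 θ p) * sinT (p2 θ q) := Real.Angle.cos_add _ _
      show WF M b (pin (off M (Λ1 ∪ Λ2)) 0 θ) * cosT (pin (off M (Λ1 ∪ Λ2)) 0 θ p +
        pin (off M (Λ1 ∪ Λ2)) 0 θ q) * WF M b 0 = _
      rw [hpv, hqv, e2, mul_right_comm, hW θ]
      show _ = (WF M b (p1 θ) * cosT (p1 θ p)) * (WF M b (p2 θ) * cosT (p2 θ q)) -
        (WF M b (p1 θ) * sinT (p1 θ p)) * (WF M b (p2 θ) * sinT (p2 θ q))
      ring
    · exact cint ((((WF M b).continuous.comp c1).mul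
        (cont_cos.comp ((continuous_apply p).comp c1))).mul
        (((WF M b).continuous.comp c2).mul (cont_cos.comp ((continuous_apply q).comp c2))))
    · exact cint ((((WF M b).continuous.comp c1).mul
        (cont_sin.comp ((continuous_apply p).comp c1))).mul
        (((WF M b).continuous.comp c2).mul (cont_sin.comp ((continuous_apply q).comp c2))))
  have e2 : (∫ θ, WF M b (pin (off M (Λ1 ∪ Λ2)) 0 θ) ∂(torusHaar (St M))) * WF M b 0 =
      (∫ θ, WF M b (p1 θ) ∂(torusHaar (St M))) * ∫ θ, WF M b (p2 θ) ∂(torusHaar (St M)) := by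
    have hc := hind (f := fun _ => 1) (g := fun _ => 1) continuous_const continuous_const
    simp only [mul_one] at hc
    rw [← hc, ← integral_mul_const]
    exact integral_congr_ae (Eventually.of_forall fun θ => hW θ)
  unfold eP
  rw [← mul_div_mul_right _ _ w0.ne', e1, e2, mul_div_mul_comm]

theorem EW_two' {Λ1 Λ2 : Finset (ℤ × ℤ)} (hs : Sep Λ1 Λ2) (h1 : Λ1 ⊆ inner (M + 1))
    (h2 : Λ2 ⊆ inner (M + 1)) {p q : ℤ × ℤ} (hp : p ∈ Λ1) (hq : q ∈ Λ2) :
    EW b (Λ1 ∪ Λ2) (fun ω => cosT (ω p + ω q)) =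
      EW b Λ1 (fun ω => cosT (ω p)) * EW b Λ2 fun ω => cosT (ω q) := by
  have ep : cv (ci (M := M) ⟨p, h1 hp⟩) = p := cv_ci _
  have eq : cv (ci (M := M) ⟨q, h2 hq⟩) = q := cv_ci _
  have h := eP_two (M := M) (b := b) hs (p := ci ⟨p, h1 hp⟩) (q := ci ⟨q, h2 hq⟩)
    (by rw [ep]; exact hp) (by rw [eq]; exact hq)
  have k1 : Continuous fun θ : St M → T => cosT (θ (ci ⟨p, h1 hp⟩) + θ (ci ⟨q, h2 hq⟩)) :=
    cont_cos.comp ((continuous_apply _).add (continuous_apply _))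
  have k2 : Continuous fun θ : St M → T => cosT (θ (ci ⟨p, h1 hp⟩)) :=
    cont_cos.comp (continuous_apply _)
  have k3 : Continuous fun θ : St M → T => cosT (θ (ci ⟨q, h2 hq⟩)) :=
    cont_cos.comp (continuous_apply _)
  have g1 := eP_eq_EW (b := b) (M := M) (Finset.union_subset h1 h2) k1
      (f := fun ω => cosT (ω p + ω q)) (fun φ => by
        show cosT (ext φ (cv (ci ⟨p, h1 hp⟩)) + ext φ (cv (ci ⟨q, h2 hq⟩))) = _
        rw [ep, eq])
  have g2 := eP_eq_EW (b := b) (M := M) h1 k2 (f := fun ω => cosT (ω p)) (fun φ => by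
        show cosT (ext φ (cv (ci ⟨p, h1 hp⟩))) = _
        rw [ep])
  have g3 := eP_eq_EW (b := b) (M := M) h2 k3 (f := fun ω => cosT (ω q)) (fun φ => by
        show cosT (ext φ (cv (ci ⟨q, h2 hq⟩))) = _
        rw [eq])
  rw [← g1, ← g2, ← g3]
  exact h

lemma tr_union (Λ1 Λ2 : Finset (ℤ × ℤ)) (z : ℤ × ℤ) : tr (Λ1 ∪ Λ2) z = tr Λ1 z ∪ tr Λ2 z := by
  ext v
  rw [Finset.mem_union, mem_tr, mem_tr, mem_tr, Finset.mem_union]

lemma Sep_tr {Λ1 Λ2 : Finset (ℤ × ℤ)} (hs : Sep Λ1 Λ2) (z : ℤ × ℤ) : Sep (tr Λ1 z) (tr Λ2 z) := by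
  intro u hu v hv
  have := hs _ (mem_tr.1 hu) _ (mem_tr.1 hv)
  rwa [sub_sub_sub_cancel_right] at this

lemma cos1_cont (p : ℤ × ℤ) : Continuous fun ω : ℤ × ℤ → T => cosT (ω p) :=
  cont_cos.comp (continuous_apply p)

theorem EW_tr1 (b : ℝ) (Λ : Finset (ℤ × ℤ)) (z p : ℤ × ℤ) :
    EW b (tr Λ z) (fun ω => cosT (ω (p + z))) = EW b Λ fun ω => cosT (ω p) := by
  rw [EW_tr b Λ z (cos1_cont _)]
  simp only [add_sub_cancel_right]

lemma eP_nonneg {V : Type} [Fintype V] {w U : C(V → T, ℝ)}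
    (hw : pl w * mi w ∈ (PG (V → T)).S) (h0 : ∀ θ, 0 < w θ)
    (hU : U ∈ (PG (V → T)).cosS) (S : Set V) : 0 ≤ eP w S U := by
  unfold eP
  refine div_nonneg ?_ (eP_den_pos h0 S).le
  have h1 : ∀ n : ℕ, 0 ≤ ∫ θ, PS n S θ * (w θ * U θ) ∂(torusHaar V) := by
    intro n
    have h2 := pos_int (w := PS n S * w) (U := U) (wt_mul (PS_wt n S) hw)
      (fun θ => mul_pos (PK_pos _ _ _ _) (h0 θ)) hU
    refine h2.trans (le_of_eq ?_)
    refine integral_congr_ae (Eventually.of_forall fun θ => ?_)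
    show PS n S θ * w θ * U θ = _
    ring
  have c1 : Continuous fun θ : V → T => w θ * U θ := by fun_prop
  exact ge_of_tendsto' (PS_peak S c1) fun n =>
    mul_nonneg (inv_nonneg.2 (NN_pos n (fs S) 0).le) (h1 n)

theorem EW_nonneg (hb : 0 ≤ b) {Λ : Finset (ℤ × ℤ)} {p q : ℤ × ℤ} (hp : p ∈ Λ) (hq : q ∈ Λ)
    (s : ℤ) : 0 ≤ EW b Λ fun ω => cosT (ω p + s • ω q) := by
  obtain ⟨M, z, hM⟩ := exists_inner Λ
  have hp' : p + z ∈ inner (M + 1) := hM (by rw [mem_tr]; simpa using hp)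
  have hq' : q + z ∈ inner (M + 1) := hM (by rw [mem_tr]; simpa using hq)
  have e1 : cv (ci (M := M) ⟨p + z, hp'⟩) = p + z := cv_ci _
  have e2 : cv (ci (M := M) ⟨q + z, hq'⟩) = q + z := cv_ci _
  have h1 := eP_ch2 (b := b) (M := M) hM (ci ⟨p + z, hp'⟩) (ci ⟨q + z, hq'⟩) s
  rw [e1, e2, EW_tr2] at h1
  rw [← h1]
  exact eP_nonneg (WF_fer hb).wt (WF_fer hb).pos (PG_cos _) _

/-- **two separated wired regions** -/
theorem EW_two {Λ1 Λ2 : Finset (ℤ × ℤ)} (hs : Sep Λ1 Λ2) {p q : ℤ × ℤ} (hp : p ∈ Λ1)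
    (hq : q ∈ Λ2) :
    EW b (Λ1 ∪ Λ2) (fun ω => cosT (ω p + ω q)) =
      EW b Λ1 (fun ω => cosT (ω p)) * EW b Λ2 fun ω => cosT (ω q) := by
  obtain ⟨M, z, hM⟩ := exists_inner (Λ1 ∪ Λ2)
  rw [tr_union] at hM
  have h := EW_two' (b := b) (M := M) (Sep_tr hs z) (Finset.union_subset_left hM)
    (Finset.union_subset_right hM) (p := p + z) (q := q + z)
    (by rw [mem_tr]; simpa using hp) (by rw [mem_tr]; simpa using hq)
  have e := EW_tr2 b (Λ1 ∪ Λ2) z p q 1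
  simp only [one_zsmul] at e
  rw [← tr_union, e, EW_tr1, EW_tr1] at h
  exact h

end Vale.Agent.P159.H773
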