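import Vale.Agent.P159.H773.Rat4

/-!
P159 (helper773), fixed ratio transfer, part 5: the annulus between a square and the boundary of a
wired box, charge two.
-/

open MeasureTheory Filter Topology
open scoped BigOperators

set_option linter.all false

namespace Vale.Agent.P159.H773

open Vale.Agent.P159 Vale.Agent.P159.H353 Vale.Agent.P159.T1.H42 Vale.Agent.P159.TM.H389
open Vale.Agent.P159.TM.H331

variable {M P Q R d : ℕ} {b : ℝ}

/-- weight inside the square -/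
noncomputable def BI (M : ℕ) (b : ℝ) (P Q R : ℕ) : C(St M → T, ℝ) :=
  cexp (EN (fun _ : {e : Bd M // inP P Q R e} => b) (fun e => bs e.1) (fun e => bt e.1))

lemma WF_split (M : ℕ) (b : ℝ) (P Q R : ℕ) : WF M b = BI M b P Q R * ann M b P Q R := by
  ext θ
  show Real.exp (EN _ _ _ θ) = Real.exp (EN _ _ _ θ) * Real.exp (EN _ _ _ θ)
  rw [← Real.exp_add, EN_apply, EN_apply, EN_apply]
  congr 1
  exact (Fintype.sum_subtype_add_sum_subtype (inP P Q R)
    fun e : Bd M => b * cosT (θ (bs e) - θ (bt e))).symm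

lemma BI_fer (hb : 0 ≤ b) : Fer (BI M b P Q R) := Fer.EN (fun _ => hb) _ _

lemma ann_fer (hb : 0 ≤ b) : Fer (ann M b P Q R) := Fer.EN (fun _ => hb) _ _

/-- boundary of the square -/
def sqR (M P Q R : ℕ) : Set (St M) :=
  {v | v ∈ sqS M P Q R ∧ (v.1.1 = P ∨ v.1.1 = P + R ∨ v.2.1 = Q ∨ v.2.1 = Q + R)}

/-- complement of the open square -/
def sqN (M P Q R : ℕ) : Set (St M) :=
  {v | ¬ ((P < v.1.1 ∧ v.1.1 < P + R) ∧ (Q < v.2.1 ∧ v.2.1 < Q + R))}

lemma BI_dep : Dep (sqS M P Q R) (BI M b P Q R) := by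
  intro θ θ' h
  show Real.exp (EN _ _ _ θ) = Real.exp (EN _ _ _ θ')
  rw [EN_apply, EN_apply]
  congr 1
  refine Finset.sum_congr rfl fun e _ => ?_
  obtain ⟨e, he⟩ := e
  have h1 : bs e ∈ sqS M P Q R ∧ bt e ∈ sqS M P Q R := by
    rcases e with ⟨i, j⟩ | ⟨i, j⟩
    · simp only [inP] at he
      simp only [sqS, bs, bt, Set.mem_setOf_eq, Fin.val_castSucc, Fin.val_succ]
      omega
    · simp only [inP] at he
      simp only [sqS, bs, bt, Set.mem_setOf_eq, Fin.val_castSucc, Fin.val_succ]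
      omega
  rw [h _ h1.1, h _ h1.2]

lemma ann_dep : Dep (sqN M P Q R) (ann M b P Q R) := by
  intro θ θ' h
  show Real.exp (EN _ _ _ θ) = Real.exp (EN _ _ _ θ')
  rw [EN_apply, EN_apply]
  congr 1
  refine Finset.sum_congr rfl fun e _ => ?_
  obtain ⟨e, he⟩ := e
  have h1 : bs e ∈ sqN M P Q R ∧ bt e ∈ sqN M P Q R := by
    rcases e with ⟨i, j⟩ | ⟨i, j⟩
    · simp only [inP] at he
      simp only [sqN, bs, bt, Set.mem_setOf_eq, Fin.val_castSucc, Fin.val_succ]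
      omega
    · simp only [inP] at he
      simp only [sqN, bs, bt, Set.mem_setOf_eq, Fin.val_castSucc, Fin.val_succ]
      omega
  rw [h _ h1.1, h _ h1.2]

lemma sq_inter : sqS M P Q R ∩ sqN M P Q R ⊆ sqR M P Q R := by
  rintro v ⟨h1, h2⟩
  refine ⟨h1, ?_⟩
  simp only [sqS, sqN, Set.mem_setOf_eq] at h1 h2
  omega

lemma sqR_sub : sqR M P Q R ⊆ sqS M P Q R := fun v hv => hv.1

lemma sqR_subN : sqR M P Q R ⊆ sqN M P Q R := by
  rintro v ⟨h1, h2⟩
  simp only [sqS, sqN, Set.mem_setOf_eq] at h1 ⊢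
  omega

lemma off_sq : off M (tr (inner R) ((P : ℤ), (Q : ℤ))) = sqN M P Q R := by
  ext v
  show cv v ∉ tr (inner R) ((P : ℤ), (Q : ℤ)) ↔ _
  rw [mem_tr, mem_inner_iff]
  simp only [cv, sqN, Set.mem_setOf_eq, Prod.mk_sub_mk]
  omega

/-- pinning the boundary of the square -/
lemma eP_sq (hb : 0 ≤ b) {F : (St M → T) → ℝ} (hF : Dep (sqS M P Q R) F) :
    eP (BI M b P Q R) (sqR M P Q R) F = eP (WF M b) (sqN M P Q R) F := by
  have e : ∀ θ : St M → T, ∀ v ∈ sqS M P Q R,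
      pin (sqN M P Q R) 0 θ v = pin (sqR M P Q R) 0 θ v := by
    intro θ v hv
    by_cases h : v ∈ sqN M P Q R
    · rw [pin_mem h, pin_mem (sq_inter ⟨hv, h⟩)]
    · rw [pin_notMem h, pin_notMem fun h' => h (sqR_subN h')]
  have e1 : ∀ θ : St M → T, WF M b (pin (sqN M P Q R) 0 θ) =
      BI M b P Q R (pin (sqR M P Q R) 0 θ) * ann M b P Q R 0 := by
    intro θ
    rw [WF_split M b P Q R]
    show BI M b P Q R (pin (sqN M P Q R) 0 θ) * ann M b P Q R (pin (sqN M P Q R) 0 θ) = _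
    rw [BI_dep _ _ (e θ), ann_dep (pin (sqN M P Q R) 0 θ) 0 fun v hv => pin_mem hv]
  have e2 : ∀ θ : St M → T, F (pin (sqN M P Q R) 0 θ) = F (pin (sqR M P Q R) 0 θ) :=
    fun θ => hF _ _ (e θ)
  have p0 : 0 < ann M b P Q R 0 := (ann_fer hb).pos 0
  unfold eP
  simp_rw [e1, e2]
  have e3 : ∀ θ : St M → T, BI M b P Q R (pin (sqR M P Q R) 0 θ) * ann M b P Q R 0 *
      F (pin (sqR M P Q R) 0 θ) = (BI M b P Q R (pin (sqR M P Q R) 0 θ) *
        F (pin (sqR M P Q R) 0 θ)) * ann M b P Q R 0 := fun θ => by ring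
  simp_rw [e3]
  rw [integral_mul_const, integral_mul_const, mul_div_mul_right _ _ p0.ne']

lemma ringS_off : ringS M = off M (inner (M + 1)) := by
  ext v
  have h := ringS_iff v
  constructor
  · intro hv h2
    exact (h.2 h2) hv
  · intro hv
    by_contra h2
    exact hv (h.1 h2)

/-- **charge two and the annulus between a square and the boundary of the box** -/
theorem charge_two_box (hb : 0 ≤ b) (hR : 1 ≤ R) (hd : 1 ≤ d) (hdP : d ≤ P) (hdQ : d ≤ Q)
    (hP : P + R + d ≤ M + 1) (hQ : Q + R + d ≤ M + 1) {p q : ℤ × ℤ}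
    (hp : p ∈ tr (inner R) ((P : ℤ), (Q : ℤ))) (hq : q ∈ tr (inner R) ((P : ℤ), (Q : ℤ))) :
    EW b (inner (M + 1)) (fun ω => cosT (ω p + ω q)) ≤
      Real.exp (1 / (16 * b + 1) / 2) *
        (((R : ℝ) + d) / R) ^ (-(1 / (16 * b + 1)) : ℝ) *
        EW b (tr (inner R) ((P : ℤ), (Q : ℤ))) fun ω => cosT (ω p + ω q) := by
  set κ : ℝ := 1 / (16 * b + 1) with hκ
  have hκ0 : 0 < κ := by positivity
  have hκ1 : κ ≤ 1 := by
    rw [hκ, div_le_one (by positivity)]
    linarith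
  have hκb : 8 * b * κ ^ 2 ≤ κ / 2 := by
    have h1 : 16 * b * κ ≤ 1 := by
      rw [hκ, mul_one_div, div_le_one (by positivity)]
      linarith
    nlinarith
  have hR' : (0 : ℝ) < R := by exact_mod_cast hR
  have hd' : (0 : ℝ) < d := by exact_mod_cast hd
  have hL := logL_pos hR hd
  have hPM : P ≤ M + 1 := by omega
  have hQM : Q ≤ M + 1 := by omega
  have hE := Ecost_le (N := M) (p := P) (q := Q) hb hR hd hPM hQM hκ0.le hκ1
  set L := Real.log (((R : ℝ) + d) / R) with hLd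
  have hin : tr (inner R) ((P : ℤ), (Q : ℤ)) ⊆ inner (M + 1) := by
    intro v hv
    rw [mem_tr, mem_inner_iff] at hv
    rw [mem_inner_iff]
    simp only [Prod.fst_sub, Prod.snd_sub] at hv
    push_cast
    omega
  set p' : St M := ci ⟨p, hin hp⟩ with hp'
  set q' : St M := ci ⟨q, hin hq⟩ with hq'
  have ep : cv p' = p := cv_ci _
  have eq : cv q' = q := cv_ci _
  have hsq : ∀ {v : St M}, cv v ∈ tr (inner R) ((P : ℤ), (Q : ℤ)) → v ∈ sqS M P Q R := by
    intro v hv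
    rw [mem_tr, mem_inner_iff] at hv
    simp only [cv, Prod.mk_sub_mk] at hv
    simp only [sqS, Set.mem_setOf_eq]
    omega
  have hpS : p' ∈ sqS M P Q R := hsq (by rw [ep]; exact hp)
  have hqS : q' ∈ sqS M P Q R := hsq (by rw [eq]; exact hq)
  have hdj : Disjoint (sqS M P Q R) (ringS M) := sq_ring_disj hd hdP hdQ hP hQ
  have hdj' : Disjoint (sqR M P Q R) (ringS M) := Set.disjoint_of_subset_left sqR_sub hdj
  have ho : ((⟨P, by omega⟩, ⟨Q, by omega⟩) : St M) ∈ sqR M P Q R :=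
    ⟨⟨⟨le_rfl, Nat.le_add_right _ _⟩, le_rfl, Nat.le_add_right _ _⟩, Or.inl rfl⟩
  have h0 : ∀ v ∈ sqR M P Q R, psiS M P Q R d v = 0 := fun v hv => psi_sq hR hv.1
  have h1 : ∀ v ∈ ringS M, psiS M P Q R d v = 1 := fun v hv =>
    psi_ring hR hd hdP hdQ hP hQ hv
  have hco := coef_two (J := fun _ : {e : Bd M // ¬ inP P Q R e} => b)
    (s := fun e => bs e.1) (t := fun e => bt e.1) (ψ := psiS M P Q R d) (fun _ => hb)
    hdj' h0 h1 (κ * L)
  have hch := charge_two (A := ann M b P Q R) (B := BI M b P Q R) (S := sqR M P Q R)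
    (S' := ringS M) (P := sqS M P Q R) (N := sqN M P Q R) (ann_fer hb) (BI_fer hb) hdj' ho
    (fun θ => cexp_EN_neg _ _ _ _) sqR_sub BI_dep ann_dep sq_inter hdj hpS hqS hco
  have hU : ∀ θ : St M → T, cc (ch2 p' q' 1) θ = cosT (θ p' + θ q') := by
    intro θ
    show cosT (θ p' + (1 : ℤ) • θ q') = _
    rw [one_zsmul]
  have hUD : Dep (sqS M P Q R) (cc (ch2 p' q' 1)) := by
    intro θ θ' h
    rw [hU, hU, h _ hpS, h _ hqS]
  rw [← WF_split, eP_sq hb hUD, ← off_sq, ringS_off,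
    eP_eq_EW (f := fun ω => cosT (ω p + ω q)) subset_rfl (cc (ch2 p' q' 1)).continuous
      (fun φ => by
        show cc (ch2 p' q' 1) (fun v => ext φ (cv v)) = _
        rw [hU, ep, eq]),
    eP_eq_EW (f := fun ω => cosT (ω p + ω q)) hin (cc (ch2 p' q' 1)).continuous
      (fun φ => by
        show cc (ch2 p' q' 1) (fun v => ext φ (cv v)) = _
        rw [hU, ep, eq])] at hch
  refine hch.trans ?_
  have hpos : 0 ≤ EW b (tr (inner R) ((P : ℤ), (Q : ℤ))) fun ω => cosT (ω p + ω q) := by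
    have h2 := EW_nonneg (b := b) hb hp hq 1
    simpa only [one_zsmul] using h2
  refine mul_le_mul_of_nonneg_right ?_ hpos
  have e5 : (((R : ℝ) + d) / R) ^ (-κ : ℝ) = Real.exp (-(κ * L)) := by
    rw [Real.rpow_def_of_pos (by positivity), ← hLd]
    congr 1
    ring
  rw [e5, ← Real.exp_add]
  refine Real.exp_le_exp.2 ?_
  have h5 : 8 * b * κ ^ 2 * (1 + L) ≤ κ / 2 * (1 + L) :=
    mul_le_mul_of_nonneg_right hκb (by positivity)
  have h6 : 0 ≤ κ * L := by positivity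
  calc _ ≤ 8 * b * κ ^ 2 * (1 + L) - 2 * (κ * L) := by linarith [hE]
    _ ≤ κ / 2 * (1 + L) - 2 * (κ * L) := by linarith
    _ ≤ _ := by nlinarith

end Vale.Agent.P159.H773
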