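import Vale.Agent.P159.H773.Rat6
import Vale.Agent.P159.H556.Mms

/-!
P159 (helper773), fixed ratio transfer, part 7: ratio mixing for the square of the total spin of a
square: the magnetization is bounded by the average of the two point function of the plane.
-/

open MeasureTheory Filter Topology
open scoped BigOperators

set_option linter.all false

namespace Vale.Agent.P159.H773

open Vale.Agent.P159 Vale.Agent.P159.H353 Vale.Agent.P159.T1.H42 Vale.Agent.P159.TM.H389
open Vale.Agent.P159.TM.H331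

variable {M P Q R d : ℕ} {b : ℝ}

/-- **ratio mixing**: positive functions of the spins in the square, wired and free boundary -/
theorem rm_pin (hb : 0 ≤ b) {K : ℝ} (hK : AnnK M b P Q R K)
    (hd : Disjoint (sqS M P Q R) (ringS M)) {F : (St M → T) → ℝ} (hF : Continuous F)
    (hF0 : ∀ θ, 0 ≤ F θ) (hFi : Inv F) (hFd : Dep (sqS M P Q R) F) :
    (∫ θ, WF M b (pin (ringS M) 0 θ) * F (pin (ringS M) 0 θ) ∂(torusHaar (St M))) *
      (∫ θ, WF M b θ ∂(torusHaar (St M))) ≤
    K * ((∫ θ, WF M b (pin (ringS M) 0 θ) ∂(torusHaar (St M))) *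
      ∫ θ, WF M b θ * F θ ∂(torusHaar (St M))) := by
  obtain ⟨o, o', ho, ho', hA⟩ := hK
  set a := ann M b P Q R with ha
  set B := BI M b P Q R with hB
  have hWF : ∀ θ, WF M b θ = B θ * a θ := fun θ => by rw [WF_split M b P Q R]; rfl
  set Y := (∫ θ, a (pin (sqS M P Q R) 0 θ) ∂(torusHaar (St M))) *
        ∫ θ, a (pin (ringS M) 0 θ) ∂(torusHaar (St M)) with hY
  have hY0 : 0 < Y := mul_pos (eP_den_pos (ann_fer hb).pos _) (eP_den_pos (ann_fer hb).pos _)
  have key : ∀ n, (∫ θ, WR n (ctr (ringS M) o') θ * (WF M b θ * F θ) ∂(torusHaar (St M))) *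
      (∫ θ, WF M b θ ∂(torusHaar (St M))) ≤
      K * ((∫ θ, WR n (ctr (ringS M) o') θ * WF M b θ ∂(torusHaar (St M))) *
        ∫ θ, WF M b θ * F θ ∂(torusHaar (St M))) := by
    intro n
    have hDQ : Dep (ringS M) (WR n (ctr (ringS M) o')) := by
      intro θ θ' h
      rw [WR_apply, WR_apply]
      congr 1
      refine Finset.sum_congr rfl fun v hv => ?_
      have h1 : v ∈ ringS M := (mem_mv_ctr.1 hv).1
      rw [ctr_mem h1, h _ h1, h _ ho']
    have h := rm (a := a) (B := B) (D := WR n (ctr (ringS M) o')) (F := F)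
      (S := sqS M P Q R) (S' := ringS M) (P := sqS M P Q R) (M := sqN M P Q R)
      (Q := ringS M) (o := o) (o' := o') (ann_fer hb) (BI_fer hb).cos
      (fun θ => ((BI_fer hb).pos θ).le) (WR_fer n _) hF hF0 ann_dep BI_dep hFd hDQ
      subset_rfl (fun v hv => hv.1) hd (fun v hv => hv.1) hd ho ho'
    rw [← hY] at h
    have x1 : ∫ θ, F θ * B θ * (a θ * WR n (ctr (ringS M) o') θ) ∂(torusHaar (St M)) =
        ∫ θ, WR n (ctr (ringS M) o') θ * (WF M b θ * F θ) ∂(torusHaar (St M)) := by
      refine integral_congr_ae (Eventually.of_forall fun θ => ?_)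
      show F θ * B θ * (a θ * WR n (ctr (ringS M) o') θ) =
        WR n (ctr (ringS M) o') θ * (WF M b θ * F θ)
      rw [hWF]
      ring
    have x2 : ∫ θ, B θ * a θ ∂(torusHaar (St M)) = ∫ θ, WF M b θ ∂(torusHaar (St M)) :=
      integral_congr_ae (Eventually.of_forall fun θ => (hWF θ).symm)
    have x3 : ∫ θ, B θ * (a θ * WR n (ctr (ringS M) o') θ) ∂(torusHaar (St M)) =
        ∫ θ, WR n (ctr (ringS M) o') θ * WF M b θ ∂(torusHaar (St M)) := by
      refine integral_congr_ae (Eventually.of_forall fun θ => ?_)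
      show B θ * (a θ * WR n (ctr (ringS M) o') θ) = WR n (ctr (ringS M) o') θ * WF M b θ
      rw [hWF]
      ring
    have x4 : ∫ θ, F θ * B θ * a θ ∂(torusHaar (St M)) =
        ∫ θ, WF M b θ * F θ ∂(torusHaar (St M)) := by
      refine integral_congr_ae (Eventually.of_forall fun θ => ?_)
      show F θ * B θ * a θ = WF M b θ * F θ
      rw [hWF]
      ring
    rw [x1, x2, x3, x4] at h
    set X1 := ∫ θ, WR n (ctr (ringS M) o') θ * (WF M b θ * F θ) ∂(torusHaar (St M)) with hX1
    set X2 := ∫ θ, WF M b θ ∂(torusHaar (St M)) with hX2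
    set X3 := ∫ θ, WR n (ctr (ringS M) o') θ * WF M b θ ∂(torusHaar (St M)) with hX3
    set X4 := ∫ θ, WF M b θ * F θ ∂(torusHaar (St M)) with hX4
    have hX34 : 0 ≤ X3 * X4 := by
      refine mul_nonneg ?_ ?_
      · exact integral_nonneg fun θ => mul_nonneg (WR_pos _ _ _).le ((WF_fer hb).pos θ).le
      · exact integral_nonneg fun θ => mul_nonneg ((WF_fer hb).pos θ).le (hF0 θ)
    refine le_of_mul_le_mul_right ?_ hY0
    calc _ = X1 * X2 * Y := by ring
      _ ≤ _ := h
      _ ≤ (K * Y) * (X3 * X4) := mul_le_mul_of_nonneg_right hA hX34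
      _ = _ := by ring
  have c1 : Continuous fun θ : St M → T => WF M b θ * F θ := (WF M b).continuous.mul hF
  have i1 : Inv fun θ : St M → T => WF M b θ * F θ := (WF_fer hb).inv.mul hFi
  have l1 := lim_one (S := ringS M) c1 i1 ho'
  have l2 := lim_one (S := ringS M) (WF M b).continuous (WF_fer hb).inv ho'
  refine le_of_tendsto_of_tendsto' (l1.mul_const (∫ θ, WF M b θ ∂(torusHaar (St M))))
    ((l2.mul_const (∫ θ, WF M b θ * F θ ∂(torusHaar (St M)))).const_mul K) fun n => ?_
  have q1 := NW_pos (V := St M) n (ctr (ringS M) o')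
  calc _ = (NW n (ctr (ringS M) o'))⁻¹ *
        ((∫ θ, WR n (ctr (ringS M) o') θ * (WF M b θ * F θ) ∂(torusHaar (St M))) *
        ∫ θ, WF M b θ ∂(torusHaar (St M))) := by ring
    _ ≤ (NW n (ctr (ringS M) o'))⁻¹ *
        (K * ((∫ θ, WR n (ctr (ringS M) o') θ * WF M b θ ∂(torusHaar (St M))) *
        ∫ θ, WF M b θ * F θ ∂(torusHaar (St M)))) :=
          mul_le_mul_of_nonneg_left (key n) (inv_nonneg.2 q1.le)
    _ = _ := by ring

/-! ### the free box and the plane -/

lemma cF_le_C (hb : 0 ≤ b) (x y : St M) : cF M b x y ≤ XY.C b (cv y - cv x) := by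
  rw [cF_eq]
  have hm : ∀ v : St M, cv v ∈ QQ M := fun v =>
    Finset.mem_image_of_mem _ (Finset.mem_univ v)
  have h1 := XY.corr_embed (fun v : St M => (⟨cv v, hm v⟩ : QQ M))
    (fun v w h => cv_inj (by simpa using h)) (J := fun u v : St M => nn b (cv u) (cv v))
    (J' := fun u v : QQ M => nn b u v)
    (fun u v => XY.nn_nonneg hb _ _) (fun u v => XY.nn_nonneg hb _ _) (fun u v => le_rfl) x y
  refine h1.trans ?_
  have h2 : XY.corr (fun u v : QQ M => nn b u v) ⟨cv x, hm x⟩ ⟨cv y, hm y⟩ =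
      XY.corr (fun u v : QQ M => b * XY.A u v) ⟨cv x, hm x⟩ ⟨cv y, hm y⟩ := by
    have h : (fun u v : QQ M => b * XY.A u v)
        = fun u v : QQ M => (nn b u v + nn b v u) / 2 := by
      funext u v
      rw [XY.nn_eq b u v, XY.nn_eq b v u]
      unfold XY.A
      ring
    rw [h]
    unfold XY.corr XY.ev XY.un XY.part
    simp_rw [XY.energy_symm (fun u v : QQ M => nn b u v)]
  rw [h2, ← XY.KS_of_mem b (hm x) (hm y), ← XY.CI_eq hb]
  exact XY.KS_le_CI _ hb _ _

/-- square of the total spin -/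
noncomputable def FF (X : Finset (St M)) (θ : St M → T) : ℝ :=
  (∑ x ∈ X, cosT (θ x)) ^ 2 + (∑ x ∈ X, sinT (θ x)) ^ 2

lemma FF_eq (X : Finset (St M)) (θ : St M → T) :
    FF X θ = ∑ x ∈ X, ∑ y ∈ X, cosT (θ x - θ y) := by
  unfold FF
  rw [pow_two, pow_two, Finset.sum_mul_sum, Finset.sum_mul_sum, ← Finset.sum_add_distrib]
  refine Finset.sum_congr rfl fun x _ => ?_
  rw [← Finset.sum_add_distrib]
  refine Finset.sum_congr rfl fun y _ => ?_
  have h3 : cosT (θ x + -θ y) = cosT (θ x) * cosT (-θ y) - sinT (θ x) * sinT (-θ y) :=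
    Real.Angle.cos_add _ _
  rw [sub_eq_add_neg, h3, cosT_neg, sinT_neg]
  ring

lemma FF_cont (X : Finset (St M)) : Continuous (FF X) := by
  unfold FF
  exact ((continuous_finsetSum _ fun x _ => cont_cos.comp (continuous_apply x)).pow 2).add
    ((continuous_finsetSum _ fun x _ => cont_sin.comp (continuous_apply x)).pow 2)

/-- magnetization and the average of the two point function -/
theorem mm_le_avg (hb : 0 ≤ b) {K m : ℝ} (hK : AnnK M b P Q R K)
    (hd : Disjoint (sqS M P Q R) (ringS M)) {X : Finset (St M)}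
    (hX : ∀ x ∈ X, x ∈ sqS M P Q R) (hm0 : 0 ≤ m)
    (hm : ∀ x ∈ X, m ≤ EW b (inner (M + 1)) fun ω => cosT (ω (cv x))) :
    ((X.card : ℝ) * m) ^ 2 ≤ K * ∑ x ∈ X, ∑ y ∈ X, XY.C b (cv y - cv x) := by
  have hwt := (WF_fer (M := M) hb).wt
  have hpos := (WF_fer (M := M) hb).pos
  have z1 : 0 < ∫ θ, WF M b (pin (ringS M) 0 θ) ∂(torusHaar (St M)) := eP_den_pos hpos _
  have z2 : 0 < ∫ θ, WF M b θ ∂(torusHaar (St M)) := ipos (WF M b).continuous hpos
  -- ratio mixing
  have h1 := rm_pin (F := FF X) hb hK hd (FF_cont X) (fun θ => by unfold FF; positivity)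
    (by
      intro θ a
      rw [FF_eq, FF_eq]
      refine Finset.sum_congr rfl fun x _ => Finset.sum_congr rfl fun y _ => ?_
      rw [Pi.add_apply, Pi.add_apply, add_sub_add_right_eq_sub])
    (by
      intro θ θ' h
      unfold FF
      rw [Finset.sum_congr (f := fun x => cosT (θ x)) (g := fun x => cosT (θ' x)) rfl
        fun x hx => by rw [h x (hX x hx)],
        Finset.sum_congr (f := fun x => sinT (θ x)) (g := fun x => sinT (θ' x)) rfl
        fun x hx => by rw [h x (hX x hx)]])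
  -- free side
  have h2 : ∫ θ, WF M b θ * FF X θ ∂(torusHaar (St M)) =
      (∑ x ∈ X, ∑ y ∈ X, cF M b x y) * ∫ θ, WF M b θ ∂(torusHaar (St M)) := by
    have e : ∀ θ : St M → T, WF M b θ * FF X θ = ∑ x ∈ X, ∑ y ∈ X, cd x y θ * WF M b θ := by
      intro θ
      rw [FF_eq, Finset.mul_sum]
      refine Finset.sum_congr rfl fun x _ => ?_
      rw [Finset.mul_sum]
      refine Finset.sum_congr rfl fun y _ => ?_
      rw [cd_apply, mul_comm]
    simp_rw [e]
    have cxy : ∀ x y : St M, Continuous fun θ : St M → T => cd x y θ * WF M b θ := fun x y =>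
      (cd x y).continuous.mul (WF M b).continuous
    have cx : ∀ x : St M, Continuous fun θ : St M → T => ∑ y ∈ X, cd x y θ * WF M b θ :=
      fun x => continuous_finsetSum _ fun y _ => cxy x y
    rw [integral_finsetSum X fun x _ => cint (cx x), Finset.sum_mul]
    refine Finset.sum_congr rfl fun x _ => ?_
    rw [integral_finsetSum X fun y _ => cint (cxy x y), Finset.sum_mul]
    refine Finset.sum_congr rfl fun y _ => ?_
    unfold cF
    rw [div_mul_cancel₀ _ z2.ne']
  -- wired side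
  set U : C(St M → T, ℝ) := ∑ x ∈ X, cc (ch2 x x 0) with hU
  have hUv : ∀ θ : St M → T, U θ = ∑ x ∈ X, cosT (θ x) := by
    intro θ
    rw [hU, ContinuousMap.coe_sum, Finset.sum_apply]
    refine Finset.sum_congr rfl fun x _ => ?_
    show cosT (θ x + (0 : ℤ) • θ x) = _
    rw [zero_zsmul, add_zero]
  have hUc : U ∈ (PG (St M → T)).cosS := Subsemiring.sum_mem _ fun x _ => PG_cos _
  have h3 := eP_mul hwt hpos hUc hUc (ringS M)
  have h4 : eP (WF M b) (ringS M) (fun θ => U θ * U θ) ≤ eP (WF M b) (ringS M) (FF X) := by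
    unfold eP
    refine div_le_div_of_nonneg_right ?_ z1.le
    have cp := pin_cont (ringS M) (0 : St M → T)
    refine int_mono_ae ?_ ?_ fun θ => ?_
    · exact ((WF M b).continuous.comp cp).mul
        ((U.continuous.comp cp).mul (U.continuous.comp cp))
    · exact ((WF M b).continuous.comp cp).mul ((FF_cont X).comp cp)
    · refine mul_le_mul_of_nonneg_left ?_ (hpos _).le
      show U (pin (ringS M) 0 θ) * U (pin (ringS M) 0 θ) ≤ _
      rw [hUv]
      unfold FF
      nlinarith [sq_nonneg (∑ x ∈ X, sinT (pin (ringS M) 0 θ x))]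
  have h5 : (X.card : ℝ) * m ≤ eP (WF M b) (ringS M) U := by
    have e : eP (WF M b) (ringS M) U =
        ∑ x ∈ X, EW b (inner (M + 1)) fun ω => cosT (ω (cv x)) := by
      have e1 : ∀ x : St M, EW b (inner (M + 1)) (fun ω => cosT (ω (cv x))) =
          eP (WF M b) (ringS M) fun θ => cosT (θ x) := by
        intro x
        rw [ringS_off]
        exact (eP_eq_EW subset_rfl (cont_cos.comp (continuous_apply x))
          (f := fun ω => cosT (ω (cv x))) fun φ => rfl).symm
      rw [Finset.sum_congr rfl fun x _ => e1 x]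
      unfold eP
      rw [← Finset.sum_div]
      congr 1
      have cp := pin_cont (ringS M) (0 : St M → T)
      have cx : ∀ x : St M, Continuous fun θ : St M → T => WF M b (pin (ringS M) 0 θ) *
          (fun θ => cosT (θ x)) (pin (ringS M) 0 θ) := fun x =>
        ((WF M b).continuous.comp cp).mul (cont_cos.comp ((continuous_apply x).comp cp))
      rw [← integral_finsetSum X fun x _ => cint (cx x)]
      refine integral_congr_ae (Eventually.of_forall fun θ => ?_)
      show WF M b (pin (ringS M) 0 θ) * U (pin (ringS M) 0 θ) = _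
      rw [hUv, Finset.mul_sum]
    rw [e, ← nsmul_eq_mul]
    exact Finset.card_nsmul_le_sum _ _ _ hm
  have h6 : ((X.card : ℝ) * m) ^ 2 ≤ eP (WF M b) (ringS M) (FF X) := by
    have h7 : 0 ≤ (X.card : ℝ) * m := by positivity
    calc ((X.card : ℝ) * m) ^ 2 ≤ eP (WF M b) (ringS M) U ^ 2 := pow_le_pow_left₀ h7 h5 2
      _ = eP (WF M b) (ringS M) U * eP (WF M b) (ringS M) U := pow_two _
      _ ≤ _ := h3
      _ ≤ _ := h4
  have hK0 : 0 ≤ K := by
    by_contra hK1
    obtain ⟨o, o', ho, ho', hA⟩ := hK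
    have hY0 : 0 < (∫ θ, ann M b P Q R (pin (sqS M P Q R) 0 θ) ∂(torusHaar (St M))) *
        ∫ θ, ann M b P Q R (pin (ringS M) 0 θ) ∂(torusHaar (St M)) :=
      mul_pos (eP_den_pos (ann_fer hb).pos _) (eP_den_pos (ann_fer hb).pos _)
    have hZ0 : 0 < Zww (ann M b P Q R) (sqS M P Q R) o (ringS M) o' *
        ∫ θ, ann M b P Q R θ ∂(torusHaar (St M)) :=
      mul_pos (ipos ((ann M b P Q R).continuous.comp (relab_cont _))
        fun θ => (ann_fer hb).pos _) (ipos (ann M b P Q R).continuous (ann_fer hb).pos)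
    nlinarith
  have h8 : eP (WF M b) (ringS M) (FF X) ≤ K * ∑ x ∈ X, ∑ y ∈ X, cF M b x y := by
    unfold eP
    rw [div_le_iff₀ z1]
    rw [h2] at h1
    refine le_of_mul_le_mul_right ?_ z2
    calc _ ≤ _ := h1
      _ = _ := by ring
  refine h6.trans (h8.trans (mul_le_mul_of_nonneg_left ?_ hK0))
  exact Finset.sum_le_sum fun x _ => Finset.sum_le_sum fun y _ => cF_le_C hb x y

end Vale.Agent.P159.H773
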