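import Vale.Agent.P159.H773.Rat7

/-!
P159 (helper773), fixed ratio transfer, part 8: the square of the magnetization of the wired box of
radius `3 R` is at most a constant times the average of the two point function over `|z| ≤ R`.
-/

open MeasureTheory Filter Topology
open scoped BigOperators

set_option linter.all false

namespace Vale.Agent.P159.H773

open Vale.Agent.P159 Vale.Agent.P159.H353 Vale.Agent.P159.T1.H42 Vale.Agent.P159.TM.H389
open Vale.Agent.P159.TM.H331

variable {b : ℝ}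

/-- a square of sites of the box -/
noncomputable def XX (M R : ℕ) : Finset (St M) := fs (sqS M R R R)

lemma mem_XX {M R : ℕ} {v : St M} : v ∈ XX M R ↔ v ∈ sqS M R R R := by
  unfold XX
  rw [← Finset.mem_coe, coe_fs]

lemma card_XX {M R : ℕ} (hM : 2 * R ≤ M) : (R + 1) ^ 2 ≤ (XX M R).card := by
  have h : (Finset.univ : Finset (Fin (R + 1) × Fin (R + 1))).card ≤ (XX M R).card := by
    refine Finset.card_le_card_of_injOn
      (fun p => (⟨R + p.1.1, by have := p.1.2; omega⟩, ⟨R + p.2.1, by have := p.2.2; omega⟩))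
      (fun p _ => ?_) (fun p _ p' _ h => ?_)
    · rw [Finset.mem_coe, mem_XX]
      have h1 := p.1.2
      have h2 := p.2.2
      simp only [sqS, Set.mem_setOf_eq]
      omega
    · simp only [Prod.mk.injEq, Fin.mk.injEq, add_right_inj] at h
      exact Prod.ext (Fin.ext h.1) (Fin.ext h.2)
  simpa [pow_two] using h

/-- **the magnetization and the average of the two point function** -/
theorem mm_avg (hb : 0 ≤ b) : ∃ K : ℝ, 0 < K ∧ ∀ R : ℕ, 1 ≤ R →
    ((R : ℝ) + 1) ^ 2 * mm b (3 * R) ^ 2 ≤ K * ∑ z ∈ box R, XY.C b z := by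
  obtain ⟨C, c, hC, hc, hann⟩ := annk hb
  refine ⟨1 + C, by positivity, fun R hR => ?_⟩
  have hM : 3 * R = (3 * R - 1) + 1 := by omega
  set M := 3 * R - 1 with hMd
  have hK := hann M R R R R hR le_rfl le_rfl le_rfl (by omega) (by omega)
  have hR' : (0 : ℝ) < R := by exact_mod_cast hR
  rw [div_self hR'.ne', Real.one_rpow, mul_one] at hK
  have hdj : Disjoint (sqS M R R R) (ringS M) :=
    sq_ring_disj hR le_rfl le_rfl (by omega) (by omega)
  have hm0 := mm_nonneg hb (3 * R)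
  have h := mm_le_avg (X := XX M R) (m := mm b (3 * R)) hb hK hdj (fun x hx => mem_XX.1 hx) hm0
    (fun x hx => by
      have hx' := mem_XX.1 hx
      simp only [sqS, Set.mem_setOf_eq] at hx'
      rw [← mm_tr b (3 * R) (cv x)]
      refine EW_mono1 hb ?_ (mem_tr_box _)
      intro v hv
      rw [mem_inner_iff] at hv
      rw [mem_tr, XY.mem_box]
      simp only [cv, Prod.fst_sub, Prod.snd_sub]
      push_cast at hv
      omega)
  have h2 : ∑ x ∈ XX M R, ∑ y ∈ XX M R, XY.C b (cv y - cv x) ≤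
      (XX M R).card * ∑ z ∈ box R, XY.C b z := by
    rw [← nsmul_eq_mul]
    refine Finset.sum_le_card_nsmul _ _ _ fun x hx => ?_
    have h3 : ∑ y ∈ XX M R, XY.C b (cv y - cv x) =
        ∑ z ∈ (XX M R).image (fun y => cv y - cv x), XY.C b z := by
      rw [Finset.sum_image fun y _ y' _ h => cv_inj (sub_left_injective h)]
    rw [h3]
    refine Finset.sum_le_sum_of_subset_of_nonneg ?_ fun z _ _ => XY.C_nonneg hb z
    intro z hz
    obtain ⟨y, hy, rfl⟩ := Finset.mem_image.1 hz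
    have hx' := mem_XX.1 hx
    have hy' := mem_XX.1 hy
    simp only [sqS, Set.mem_setOf_eq] at hx' hy'
    rw [XY.mem_box]
    simp only [cv, Prod.fst_sub, Prod.snd_sub]
    omega
  have hcard : ((R : ℝ) + 1) ^ 2 ≤ (XX M R).card := by
    exact_mod_cast card_XX (M := M) (R := R) (by omega)
  have hc0 : (0 : ℝ) < (XX M R).card := lt_of_lt_of_le (by positivity) hcard
  have h4 : ((XX M R).card : ℝ) * mm b (3 * R) ^ 2 ≤ (1 + C) * ∑ z ∈ box R, XY.C b z := by
    refine le_of_mul_le_mul_left ?_ hc0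
    calc ((XX M R).card : ℝ) * (((XX M R).card : ℝ) * mm b (3 * R) ^ 2) =
        (((XX M R).card : ℝ) * mm b (3 * R)) ^ 2 := by ring
      _ ≤ _ := h
      _ ≤ (1 + C) * ((XX M R).card * ∑ z ∈ box R, XY.C b z) :=
          mul_le_mul_of_nonneg_left h2 (by positivity)
      _ = _ := by ring
  refine le_trans ?_ h4
  exact mul_le_mul_of_nonneg_right hcard (by positivity)

/-- in terms of the two point function on the axis -/
theorem mm_axis (hb : 0 ≤ b) : ∃ K : ℝ, 0 < K ∧ ∀ R : ℕ, 1 ≤ R →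
    ((R : ℝ) + 1) ^ 2 * mm b (3 * R) ^ 2 ≤
      K * (1 + ∑ r ∈ Finset.range R, ((r : ℝ) + 1) * XY.C b (((r + 1 : ℕ) : ℤ), 0)) := by
  obtain ⟨K, hK, h⟩ := mm_avg hb
  refine ⟨8 * K, by positivity, fun R hR => (h R hR).trans ?_⟩
  have h1 : ∑ z ∈ box R, XY.C b z ≤ ∑ z ∈ box R, XY.C b ((XY.nm z : ℤ), 0) :=
    Finset.sum_le_sum fun z _ => Vale.Agent.P159.H556.mms hb z
  have h2 := XY.sum_box_radial (fun n => XY.C b ((n : ℤ), 0)) R
  have h3 : XY.C b (((0 : ℕ) : ℤ), 0) = 1 := by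
    have : (((0 : ℕ) : ℤ), (0 : ℤ)) = (0 : ℤ × ℤ) := rfl
    rw [this, XY.C_zero]
  have h4 : ∑ z ∈ box R, XY.C b z ≤
      8 * (1 + ∑ r ∈ Finset.range R, ((r : ℝ) + 1) * XY.C b (((r + 1 : ℕ) : ℤ), 0)) := by
    refine h1.trans (h2.le.trans ?_)
    rw [h3, mul_add, Finset.mul_sum]
    have h5 : ∀ r ∈ Finset.range R, 8 * ((r : ℝ) + 1) * XY.C b (((r + 1 : ℕ) : ℤ), 0) =
        8 * (((r : ℝ) + 1) * XY.C b (((r + 1 : ℕ) : ℤ), 0)) := fun r _ => by ring
    rw [Finset.sum_congr rfl h5]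
    linarith
  calc K * ∑ z ∈ box R, XY.C b z ≤ K * (8 * (1 + ∑ r ∈ Finset.range R, ((r : ℝ) + 1) *
        XY.C b (((r + 1 : ℕ) : ℤ), 0))) := mul_le_mul_of_nonneg_left h4 hK.le
    _ = _ := by ring

end Vale.Agent.P159.H773
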