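import Vale.Agent.P159.H686.Loc1
import Vale.Agent.P159.H963.Core2

/-!
P159 / helper773, module RW1: the real part `RealW` of the comparison of the pairs of one window
(686's Loc1) from the energy and the remainder of single decorations.
-/

open Finset

set_option linter.all false

namespace Vale.Agent.P159.H773

open Vale.Agent.P159.TM.Spec (V)
open Vale.Agent.P159.H37 (qf)
open Vale.Agent.P159.H963 (Anm)
open Vale.Agent.P159.H963.Core (RF RF_convex RF_tr RF_nonneg dec_tr gr_tr)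
open Vale.Agent.P159.H817 (Dec dec edec gr nrm rh Qf EZ EZ_gr kap0 flat_qf flat_of_FL GB)
open Vale.Agent.P159.H686 (RealW sd_dbl)

noncomputable section

section one

variable {N : ℕ} [NeZero N] {b t a η : ℝ} {n : ℕ}

/-- **the functional at a real field**: flat form defect and remainder -/
theorem rh_real (hb : 0 < b) (ht : 0 < t) (ha : 0 < a) (hη : 0 ≤ η) (hn : 1 ≤ n)
    (fl : H972.FL b t a η N) (X : V N → ℝ) :
    |rh N b t a n (gr X)| ≤ kap0 a t (2 * η) n * nrm (gr X) / 2 + RF N b t X := by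
  have h1 := flat_qf hb ht ha (by linarith : (0 : ℝ) ≤ 2 * η) hn
    (fun k hk => flat_of_FL ht hη fl hk) X
  have h2 := EZ_gr (N := N) hb ht X
  have h3 := RF_nonneg (N := N) hb ht X
  unfold rh
  rw [h2]
  unfold H963.Core.RF at h3 ⊢
  rw [abs_le] at h1 ⊢
  constructor <;> linarith [h1.1, h1.2]

lemma gr_neg (F : V N → ℝ) : gr (-F) = fun e => -gr F e := by
  funext ⟨x, c⟩
  rw [H817.gr_eq, H817.gr_eq]
  simp only [Pi.neg_apply]
  ring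

lemma gr_addf (F G : V N → ℝ) (e : V N × Bool) : gr (F + G) e = gr F e + gr G e := by
  obtain ⟨x, c⟩ := e
  rw [H817.gr_eq, H817.gr_eq, H817.gr_eq]
  simp only [Pi.add_apply]
  ring

lemma nrm_neg (F : V N → ℝ) : nrm (gr (-F)) = nrm (gr F) := by
  unfold H817.nrm
  refine Finset.sum_congr rfl fun e _ => ?_
  rw [gr_neg]
  ring

lemma nrm_add3 (F G H : V N → ℝ) :
    nrm (gr (F + G + H)) ≤ 3 * (nrm (gr F) + nrm (gr G) + nrm (gr H)) := by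
  unfold H817.nrm
  rw [← Finset.sum_add_distrib, ← Finset.sum_add_distrib, Finset.mul_sum]
  refine Finset.sum_le_sum fun e _ => ?_
  rw [gr_addf, gr_addf]
  nlinarith [sq_nonneg (gr F e - gr G e), sq_nonneg (gr G e - gr H e), sq_nonneg (gr H e - gr F e)]

lemma nrm_tr (c : V N) (F : V N → ℝ) : nrm (gr fun x => F (x + c)) = nrm (gr F) := by
  rw [gr_tr]
  unfold H817.nrm
  exact Fintype.sum_equiv (Equiv.prodCongr (Equiv.addRight c) (Equiv.refl Bool)) _ _ fun e => rfl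

lemma nrm_dec (F : ℤ → ℤ → ℝ) (p : V N) : nrm (gr (dec F p)) = nrm (gr (dec F (0 : V N))) := by
  rw [dec_tr F p, nrm_tr]

lemma RF_dec (hb : 0 < b) (ht : 0 < t) (s : ℝ) (F : ℤ → ℤ → ℝ) (p : V N) :
    RF N b t (s • dec F p) = RF N b t (s • dec F (0 : V N)) := by
  have h := RF_tr (N := N) hb ht (-p) (s • dec F (0 : V N))
  rw [← h]
  congr 1
  rw [dec_tr F p]
  rfl

lemma RF_even (hb : 0 < b) (ht : 0 < t) (F : V N → ℝ) : RF N b t (-F) = RF N b t F := by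
  have h1 := EZ_gr (N := N) hb ht F
  have h2 := EZ_gr (N := N) hb ht (-F)
  have h3 : EZ N b t (gr (-F)) = EZ N b t (gr F) := by
    rw [gr_neg]
    exact H817.EZ_neg hb ht (H817.EG.gr F)
  rw [h3, h1, H37.qf_neg] at h2
  unfold H963.Core.RF
  linarith

/-- the remainder of three pieces -/
lemma RF_three (hb : 0 < b) (ht : 0 < t) (F G H : V N → ℝ) :
    RF N b t (F + G + H) ≤
      RF N b t ((4 : ℝ) • F) / 4 + RF N b t ((4 : ℝ) • G) / 4 + RF N b t ((2 : ℝ) • H) / 2 := by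
  have hc := RF_convex (N := N) hb ht
  have h1 := hc.2 (Set.mem_univ ((4 : ℝ) • F)) (Set.mem_univ ((4 : ℝ) • G))
    (show (0 : ℝ) ≤ 1 / 2 by norm_num) (show (0 : ℝ) ≤ 1 / 2 by norm_num) (by norm_num)
  have h2 := hc.2 (Set.mem_univ ((1 / 2 : ℝ) • (4 : ℝ) • F + (1 / 2 : ℝ) • (4 : ℝ) • G))
    (Set.mem_univ ((2 : ℝ) • H)) (show (0 : ℝ) ≤ 1 / 2 by norm_num)
    (show (0 : ℝ) ≤ 1 / 2 by norm_num) (by norm_num)
  have e : F + G + H = (1 / 2 : ℝ) • ((1 / 2 : ℝ) • (4 : ℝ) • F + (1 / 2 : ℝ) • (4 : ℝ) • G) +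
        (1 / 2 : ℝ) • ((2 : ℝ) • H) := by
    funext x
    simp only [Pi.add_apply, Pi.smul_apply, smul_eq_mul]
    ring
  rw [e]
  simp only [smul_eq_mul] at h1 h2
  linarith

/-- **a decorated real field with an ideal correction** -/
theorem rh_edec (hb : 0 < b) (ht : 0 < t) (ha : 0 < a) (hη : 0 ≤ η) (hn : 1 ≤ n)
    (fl : H972.FL b t a η N) {F0 F1 : ℤ → ℤ → ℝ} {p q : V N} {g : V N → ℝ} {G Gs ρ ρs : ℝ}
    (h0 : nrm (gr (dec F0 (0 : V N))) ≤ G) (h1 : nrm (gr (dec F1 (0 : V N))) ≤ G)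
    (hg : nrm (gr g) ≤ Gs) (r0 : RF N b t ((4 : ℝ) • dec F0 (0 : V N)) ≤ ρ)
    (r1 : RF N b t ((4 : ℝ) • dec F1 (0 : V N)) ≤ ρ) (rg : RF N b t ((2 : ℝ) • g) ≤ ρs) :
    |rh N b t a n (gr fun x => edec F0 F1 p q x + -g x)| ≤
      kap0 a t (2 * η) n * (3 * (2 * G + Gs)) / 2 + (ρ / 2 + ρs / 2) := by
  have e : (fun x => edec F0 F1 p q x + -g x) = dec F0 p + dec F1 q + -g := by
    funext x
    simp [H817.edec]
  rw [e]
  have k1 := rh_real (n := n) hb ht ha hη hn fl (dec F0 p + dec F1 q + -g)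
  have k2 := nrm_add3 (dec F0 p) (dec F1 q) (-g)
  have k3 := RF_three hb ht (dec F0 p) (dec F1 q) (-g)
  rw [nrm_neg, nrm_dec F0 p, nrm_dec F1 q] at k2
  rw [smul_neg, RF_even hb ht, RF_dec hb ht 4 F0 p, RF_dec hb ht 4 F1 q] at k3
  have k4 : nrm (gr (dec F0 p + dec F1 q + -g)) ≤ 3 * (2 * G + Gs) := by linarith
  have k5 : 0 ≤ kap0 a t (2 * η) n := by
    unfold H817.kap0
    have := H817.Db_pos (n := n) (m := t / a) hn (by positivity)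
    positivity
  have k6 := mul_le_mul_of_nonneg_left k4 k5
  linarith

end one

/-! ### the window -/

section win

/-- **the conditions on a decoration**, on all the tori of the window `2^k0 ≤ R ≤ 2^k1` -/
def ClR (i : ℕ) (b t : ℝ) (k0 k1 : ℕ) (G ρ : ℝ) : Dec :=
  {F | ∀ k, k0 ≤ k → k ≤ k1 → nrm (gr (dec F (0 : V (sd i (2 ^ k))))) ≤ G ∧
    RF (sd i (2 ^ k)) b t ((4 : ℝ) • dec F (0 : V (sd i (2 ^ k)))) ≤ ρ}

lemma sd_clog (i : ℕ) (R : ℕ) : sd i R = sd i (2 ^ Nat.clog 2 R) := by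
  rw [sd_pow]
  unfold sd
  rw [← pow_add]

lemma clog_win {k0 k1 R : ℕ} (h0 : 2 ^ k0 ≤ R) (h1 : R ≤ 2 ^ k1) :
    k0 ≤ Nat.clog 2 R ∧ Nat.clog 2 R ≤ k1 := by
  constructor
  · have h2 := Nat.le_pow_clog (b := 2) (by norm_num) R
    exact (Nat.pow_le_pow_iff_right (by norm_num)).1 (h0.trans h2)
  · exact (Nat.clog_le_iff_le_pow (by norm_num)).2 h1

/-- transport of a statement about the tori `sd i (2^k)` to `sd i R` -/
lemma of_clog {i : ℕ} {k0 k1 : ℕ} {P : ∀ N [NeZero N], Prop}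
    (h : ∀ k, k0 ≤ k → k ≤ k1 → P (sd i (2 ^ k))) {R : ℕ} (h0 : 2 ^ k0 ≤ R) (h1 : R ≤ 2 ^ k1) :
    P (sd i R) := by
  obtain ⟨c0, c1⟩ := clog_win h0 h1
  have key : ∀ N [NeZero N], N = sd i (2 ^ Nat.clog 2 R) → P N := by
    intro N hN e
    subst e
    exact h _ c0 c1
  exact key _ (sd_clog i R)

lemma cl_at {i : ℕ} {b t : ℝ} {k0 k1 : ℕ} {G ρ : ℝ} {F : ℤ → ℤ → ℝ}
    (h : F ∈ ClR i b t k0 k1 G ρ) {R : ℕ} (h0 : 2 ^ k0 ≤ R) (h1 : R ≤ 2 ^ k1) :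
    nrm (gr (dec F (0 : V (sd i R)))) ≤ G ∧
      RF (sd i R) b t ((4 : ℝ) • dec F (0 : V (sd i R))) ≤ ρ :=
  of_clog (P := fun N _ => nrm (gr (dec F (0 : V N))) ≤ G ∧
    RF N b t ((4 : ℝ) • dec F (0 : V N)) ≤ ρ) h h0 h1

/-- **`RealW` (number `ε₄` of 686's Loc1)** -/
theorem realW_of {i : ℕ} {b t a η : ℝ} {n : ℕ} {D0 D1 : Dec} {k0 k1 : ℕ}
    {gs : ∀ R, V (sd i R) → ℝ} {G Gs ρ ρs : ℝ} (hb : 0 < b) (ht : 0 < t) (ha : 0 < a)
    (hη : 0 ≤ η) (hn : 1 ≤ n) (fl : ∀ k, k0 ≤ k → k ≤ k1 → H972.FL b t a η (sd i (2 ^ k)))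
    (c0 : ∀ F ∈ D0, F ∈ ClR i b t k0 k1 G ρ) (c1 : ∀ F ∈ D1, F ∈ ClR i b t k0 k1 G ρ)
    (gn : ∀ R, 2 ^ k0 ≤ R → R ≤ 2 ^ k1 → nrm (gr (gs R)) ≤ Gs)
    (gR : ∀ R, 2 ^ k0 ≤ R → R ≤ 2 ^ k1 → RF (sd i R) b t ((2 : ℝ) • gs R) ≤ ρs) :
    RealW i b t a n D0 D1 k0 k1 gs (3 * kap0 a t (2 * η) n * (2 * G + Gs) + (ρ + ρs)) := by
  intro R hR0 hR1 F0 h0 F1 h1
  have hkk : 2 ^ k0 ≤ 2 ^ k1 := hR0.trans hR1
  have key : ∀ S, 2 ^ k0 ≤ S → S ≤ 2 ^ k1 → ∀ q : V (sd i S),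
      |rh (sd i S) b t a n (gr fun x => edec F0 F1 0 q x + -gs S x)| ≤
        kap0 a t (2 * η) n * (3 * (2 * G + Gs)) / 2 + (ρ / 2 + ρs / 2) := fun S g0 g1 q => by
    have fS : H972.FL b t a η (sd i S) := of_clog (P := fun N _ => H972.FL b t a η N) fl g0 g1
    exact rh_edec hb ht ha hη hn fS (cl_at (c0 F0 h0) g0 g1).1 (cl_at (c1 F1 h1) g0 g1).1
      (gn S g0 g1) (cl_at (c0 F0 h0) g0 g1).2 (cl_at (c1 F1 h1) g0 g1).2 (gR S g0 g1)
  have a1 := key R hR0 hR1 (R • H817.e1)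
  have a2 := key (2 ^ k0) le_rfl hkk ((2 ^ k0) • H817.e1)
  refine (abs_sub _ _).trans ((add_le_add a1 a2).trans (le_of_eq ?_))
  ring

end win

end

end Vale.Agent.P159.H773
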