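import Vale.Agent.P159.H817.Id10

/-!
P159 / helper773, module RW2: the real part of the class of decorations (817's `RealT`) is closed
under change of sign and under the reflection `rfl2`, and measurable.
-/

open Finset Matrix

set_option linter.all false

namespace Vale.Agent.P159.H773

open Vale.Agent.P159.TM.Spec (V)
open Vale.Agent.P159.TM.SpecC (wT)
open Vale.Agent.P159.TM.H764 (EE dt cN)
open Vale.Agent.P159.H37 (qf Rs Gm wM)
open Vale.Agent.P159.H963 (Anm ntr nwt nM pin Pn)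
open Vale.Agent.P159.H864 (Inv mlt swp ref1 lapM TI)
open Vale.Agent.P159.H963.Core (RF RF_convex RF_tr RF_nonneg dec_tr nS nS_tr sS)
open Vale.Agent.P159.H817 (Dec dec edec gr nrm rfl2 sR sRe sF SuppD Pt RealT e1 e2)

noncomputable section

section one

variable {N : ℕ} [NeZero N] {b t a : ℝ}

lemma sRe_eq : (sRe : V N ≃ V N) = (swp.trans ref1).trans swp := by
  ext x <;> rfl

lemma sRe_apply (x : V N) : (sRe : V N ≃ V N) x = (x.1, -x.2) := rfl

lemma inv_wT_sR (b : ℝ) : Inv (wT b N) (sRe : V N ≃ V N) := by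
  rw [sRe_eq]
  exact H864.inv_comp (H864.inv_comp (H864.inv_wT_swp b) (H864.inv_wT_ref1 b))
    (H864.inv_wT_swp b)

lemma ntr_one_perm (e : V N ≃ V N) (t : ℝ) (x y : V N) :
    ntr (t • (1 : Matrix (V N) (V N) ℝ)) t (e x) (e y) =
      ntr (t • (1 : Matrix (V N) (V N) ℝ)) t x y := by
  rw [H963.ntr_apply, H963.ntr_apply, Matrix.smul_apply, Matrix.smul_apply]
  congr 2
  by_cases h : x = y
  · subst h
    simp
  · rw [Matrix.one_apply_ne h, Matrix.one_apply_ne (fun h' => h (e.injective h'))]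

lemma inv_nwt_sR (b t : ℝ) : Inv (nwt N b t 0) (sRe : V N ≃ V N) := by
  intro h
  have h1 := H864.inv_wM (inv_wT_sR (N := N) b) (ntr_one_perm (sRe : V N ≃ V N) t) h
  have h2 : (sRe : V N ≃ V N) 0 = 0 := by
    rw [sRe_apply]
    ext <;> simp
  unfold H963.nwt H963.nM H963.pin
  rw [Function.comp_apply, h2, h1]

lemma Pt_perm (e : V N ≃ V N) (t : ℝ) (F : V N → ℝ) : Pt t (F ∘ e) = Pt t F ∘ e := by
  rw [← H817.ntr_sc_mulVec, ← H817.ntr_sc_mulVec]
  funext x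
  rw [Function.comp_apply]
  unfold Matrix.mulVec dotProduct
  rw [← Equiv.sum_comp e fun y => ntr (t • (1 : Matrix (V N) (V N) ℝ)) t (e x) y * F y]
  refine Finset.sum_congr rfl fun y _ => ?_
  rw [ntr_one_perm e t x y]
  rfl

/-- the remainder is invariant under the reflection -/
theorem RF_sR (b t : ℝ) (F : V N → ℝ) : RF N b t (F ∘ (sRe : V N ≃ V N)) = RF N b t F := by
  unfold H963.Core.RF
  rw [Pt_perm]
  exact H864.Rs_perm (inv_nwt_sR b t) _

lemma EE_sR (k : V N) : EE ((sRe : V N ≃ V N) k) = EE k := by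
  rw [sRe_apply]
  unfold TM.H764.EE
  simp only [TM.H764.cN_neg]

lemma dt_sR (k x y : V N) : dt ((sRe : V N ≃ V N) k) ((sRe : V N ≃ V N) y -
    (sRe : V N ≃ V N) x) = dt k (y - x) := by
  simp only [sRe_apply]
  unfold TM.H764.dt
  simp only [Prod.fst_sub, Prod.snd_sub]
  ring

lemma mlt_sR {φ : V N → ℝ} (h : ∀ k, φ ((sRe : V N ≃ V N) k) = φ k) (x y : V N) :
    mlt φ ((sRe : V N ≃ V N) x) ((sRe : V N ≃ V N) y) = mlt φ x y := by
  unfold H864.mlt
  rw [Matrix.of_apply, Matrix.of_apply]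
  congr 1
  rw [← Equiv.sum_comp (sRe : V N ≃ V N)]
  refine Finset.sum_congr rfl fun k _ => ?_
  rw [h, dt_sR]

lemma mlt_sR_mulVec {φ : V N → ℝ} (h : ∀ k, φ ((sRe : V N ≃ V N) k) = φ k) (F : V N → ℝ) :
    mlt φ *ᵥ (F ∘ (sRe : V N ≃ V N)) = (mlt φ *ᵥ F) ∘ (sRe : V N ≃ V N) := by
  funext x
  rw [Function.comp_apply]
  unfold Matrix.mulVec dotProduct
  rw [← Equiv.sum_comp (sRe : V N ≃ V N) fun y => mlt φ ((sRe : V N ≃ V N) x) y * F y]
  refine Finset.sum_congr rfl fun y _ => ?_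
  rw [mlt_sR h]
  rfl

/-- the smoothed energy is invariant under the reflection -/
theorem nS_sR (a t : ℝ) (F : V N → ℝ) : nS a t (F ∘ (sRe : V N ≃ V N)) = nS a t F := by
  have h1 : ∀ k : V N, sS a t ((sRe : V N ≃ V N) k) = sS a t k := fun k => by
    unfold H963.Core.sS
    rw [EE_sR]
  unfold H963.Core.nS
  rw [mlt_sR_mulVec h1]
  have h2 : ∀ x y : V N, (lapM : Matrix (V N) (V N) ℝ) ((sRe : V N ≃ V N) x)
      ((sRe : V N ≃ V N) y) = lapM x y := fun x y => by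
    unfold H864.lapM
    exact mlt_sR EE_sR x y
  exact H864.qf_perm h2 _

lemma nS_neg (a t : ℝ) (F : V N → ℝ) : nS a t (-F) = nS a t F := by
  unfold H963.Core.nS
  rw [Matrix.mulVec_neg, H37.qf_neg]

lemma nS_dec (a t : ℝ) (F : ℤ → ℤ → ℝ) (p : V N) :
    nS a t (dec F p) = nS a t (dec F (0 : V N)) := by
  rw [dec_tr F p, nS_tr]

/-- **the conditions of one torus** on a decoration -/
def ClT (N : ℕ) [NeZero N] (b t a r1 B1 : ℝ) : Dec :=
  {F | RF N b t ((3 : ℝ) • dec F (0 : V N)) ≤ r1 ∧ nS a t (dec F (0 : V N)) ≤ B1}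

lemma dec_neg (F : ℤ → ℤ → ℝ) (p : V N) : dec (fun u v => -F u v) p = -dec F p := rfl

lemma ClT_neg (hb : 0 < b) (ht : 0 < t) {r1 B1 : ℝ} {F : ℤ → ℤ → ℝ}
    (h : F ∈ ClT N b t a r1 B1) : (fun u v => -F u v) ∈ ClT N b t a r1 B1 := by
  obtain ⟨h1, h2⟩ := h
  refine ⟨?_, ?_⟩
  · rw [dec_neg, smul_neg]
    exact (H817.RF_neg hb ht _).le.trans h1
  · rw [dec_neg, nS_neg]
    exact h2

lemma dec_rfl2 {l : ℕ} {F : ℤ → ℤ → ℝ} (h : SuppD l F) (h' : SuppD l (rfl2 F))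
    (hl : 2 * l + 4 < N) : dec (rfl2 F) (sF (0 : V N)) = dec F (0 : V N) ∘ (sRe : V N ≃ V N) := by
  funext x
  exact (H817.dec_sR h h' hl 0 x).symm

lemma ClT_rfl2 (hb : 0 < b) (ht : 0 < t) {r1 B1 : ℝ} {l : ℕ} {F : ℤ → ℤ → ℝ} (h : SuppD l F)
    (h' : SuppD l (rfl2 F)) (hl : 2 * l + 4 < N) (hF : F ∈ ClT N b t a r1 B1) :
    rfl2 F ∈ ClT N b t a r1 B1 := by
  obtain ⟨h1, h2⟩ := hF
  have e := dec_rfl2 (N := N) h h' hl
  refine ⟨?_, ?_⟩
  · rw [← H817.RF_dec hb ht (rfl2 F) (sF (0 : V N)), e]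
    have e1 : (3 : ℝ) • (dec F (0 : V N) ∘ (sRe : V N ≃ V N)) =
        ((3 : ℝ) • dec F (0 : V N)) ∘ (sRe : V N ≃ V N) := rfl
    rw [e1, RF_sR]
    exact h1
  · rw [← nS_dec a t (rfl2 F) (sF (0 : V N)), e, nS_sR]
    exact h2

end one

end

end Vale.Agent.P159.H773
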