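import Vale.Agent.P159.H773.Rw2
import Vale.Agent.P159.H692.Fn1

/-!
P159 / helper773, module RW3: a condition on the window data which is typical for the pair `2^k`
(its own torus) is typical for every pair of the window (by `Cmp`); the class of decorations `ClD`
(real part), closed under `-` and `rfl2`, with its probability.
-/

open MeasureTheory Finset Matrix

set_option linter.all false

namespace Vale.Agent.P159.H773

open Vale.Agent.P159.H686 (Cmp)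

variable {Ω Ω' X : Type*} [MeasurableSpace Ω] [MeasurableSpace Ω'] [MeasurableSpace X]
  {ν : Measure Ω} {ν' : Measure Ω'} {w : Ω → X} {w' : Ω' → X} {h τ : ℝ}

/-- events of the windows -/
lemma cmpE_abs (H : Cmp ν ν' w w' h τ) (hw : Measurable w) (hw' : Measurable w') {S : Set X}
    (hS : MeasurableSet S) : |ν'.real (w' ⁻¹' S) - ν.real (w ⁻¹' S)| ≤ h * ν.real (w ⁻¹' S) + τ := by
  classical
  have h1 := H (S.indicator fun _ => 1) 1 (measurable_const.indicator hS)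
    (fun z => Set.indicator_nonneg (fun _ _ => zero_le_one) z)
    (fun z => Set.indicator_le_self' (fun _ _ => zero_le_one) z)
  have e1 : ∫ x, S.indicator (fun _ => (1 : ℝ)) (w x) ∂ν = ν.real (w ⁻¹' S) := by
    have : (fun x => S.indicator (fun _ => (1 : ℝ)) (w x)) =
        (w ⁻¹' S).indicator fun _ => (1 : ℝ) := rfl
    rw [this, integral_indicator_const _ (hw hS), smul_eq_mul, mul_one]
  have e2 : ∫ x, S.indicator (fun _ => (1 : ℝ)) (w' x) ∂ν' = ν'.real (w' ⁻¹' S) := by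
    have : (fun x => S.indicator (fun _ => (1 : ℝ)) (w' x)) =
        (w' ⁻¹' S).indicator fun _ => (1 : ℝ) := rfl
    rw [this, integral_indicator_const _ (hw' hS), smul_eq_mul, mul_one]
  rw [e1, e2, mul_one] at h1
  exact h1

lemma cmpE_le (H : Cmp ν ν' w w' h τ) (hw : Measurable w) (hw' : Measurable w') {S : Set X}
    (hS : MeasurableSet S) : ν'.real (w' ⁻¹' S) ≤ (1 + h) * ν.real (w ⁻¹' S) + τ := by
  have := (abs_le.1 (cmpE_abs H hw hw' hS)).2
  linarith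

lemma cmpE_ge (H : Cmp ν ν' w w' h τ) (hw : Measurable w) (hw' : Measurable w') {S : Set X}
    (hS : MeasurableSet S) : (1 - h) * ν.real (w ⁻¹' S) ≤ ν'.real (w' ⁻¹' S) + τ := by
  have := (abs_le.1 (cmpE_abs H hw hw' hS)).1
  linarith

end Vale.Agent.P159.H773

namespace Vale.Agent.P159.H773

open Vale.Agent.P159.TM.Spec (V)
open Vale.Agent.P159.TM.SpecC (wT)
open Vale.Agent.P159.H37 (qf Rs)
open Vale.Agent.P159.H963 (nwt)
open Vale.Agent.P159.H963.Core (RF nS)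
open Vale.Agent.P159.H708 (Bx)
open Vale.Agent.P159.H686 (Cmp)
open Vale.Agent.P159.H817 (Dec dec rfl2 SuppD Pt RealT)

noncomputable section

/-! ### transfer of an event between the pairs of one window -/

section transfer

variable {b t h τ p : ℝ} {i k0 k1 : ℕ} {X : Type*} [MeasurableSpace X]
  {W : ∀ R, (V (sd i R) → ℝ) → X}

/-- **one event** typical for the pair `2^k` is typical for every pair of the window -/
theorem ev_win {k : ℕ} (hk0 : k0 ≤ k) (hk1 : k ≤ k1) (hh : h ≤ 1 / 40)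
    (hW : ∀ R, Measurable (W R))
    (hc : ∀ R, 2 ^ k0 ≤ R → R ≤ 2 ^ k1 → Cmp (nuF b (sd i) t (2 ^ k0)) (nuF b (sd i) t R)
      (W (2 ^ k0)) (W R) h τ) {S : Set X} (hS : MeasurableSet S)
    (own : (nuF b (sd i) t (2 ^ k)).real (W (2 ^ k) ⁻¹' S) ≤ p) {R : ℕ} (h0 : 2 ^ k0 ≤ R)
    (h1 : R ≤ 2 ^ k1) : (nuF b (sd i) t R).real (W R ⁻¹' S) ≤ 2 * p + 4 * τ := by
  have a1 := cmpE_le (hc R h0 h1) (hW _) (hW _) hS
  have a2 := cmpE_ge (hc (2 ^ k) (Nat.pow_le_pow_right (by norm_num) hk0)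
    (Nat.pow_le_pow_right (by norm_num) hk1)) (hW _) (hW _) hS
  have a3 : 0 ≤ (nuF b (sd i) t (2 ^ k0)).real (W (2 ^ k0) ⁻¹' S) := measureReal_nonneg
  have a4 : 0 ≤ (nuF b (sd i) t R).real (W R ⁻¹' S) := measureReal_nonneg
  have a5 : (39 / 40 : ℝ) * (nuF b (sd i) t (2 ^ k0)).real (W (2 ^ k0) ⁻¹' S) ≤ p + τ := by
    have : (39 / 40 : ℝ) * (nuF b (sd i) t (2 ^ k0)).real (W (2 ^ k0) ⁻¹' S) ≤
        (1 - h) * (nuF b (sd i) t (2 ^ k0)).real (W (2 ^ k0) ⁻¹' S) :=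
      mul_le_mul_of_nonneg_right (by linarith) a3
    linarith
  have a6 : (1 + h) * (nuF b (sd i) t (2 ^ k0)).real (W (2 ^ k0) ⁻¹' S) ≤
      41 / 40 * (nuF b (sd i) t (2 ^ k0)).real (W (2 ^ k0) ⁻¹' S) :=
    mul_le_mul_of_nonneg_right (by linarith) a3
  have a7 : 0 ≤ p + τ := (mul_nonneg (by norm_num) a3).trans a5
  have a8 : 0 ≤ p := measureReal_nonneg.trans own
  have a9 : 0 ≤ τ ∨ τ < 0 := le_or_gt 0 τ
  rcases a9 with h9 | h9
  · linarith
  · -- `τ` is nonnegative since `Cmp` holds for the empty event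
    exfalso
    have b1 := cmpE_le (hc R h0 h1) (hW _) (hW _) (MeasurableSet.empty)
    simp only [Set.preimage_empty, measureReal_empty, mul_zero, zero_add] at b1
    linarith

/-- **a family of events, one for every torus of the window** -/
theorem ev_win_all (hh : h ≤ 1 / 40) (hW : ∀ R, Measurable (W R))
    (hc : ∀ R, 2 ^ k0 ≤ R → R ≤ 2 ^ k1 → Cmp (nuF b (sd i) t (2 ^ k0)) (nuF b (sd i) t R)
      (W (2 ^ k0)) (W R) h τ) {S : ℕ → Set X} (hS : ∀ k, MeasurableSet (S k))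
    (own : ∀ k, k0 ≤ k → k ≤ k1 → (nuF b (sd i) t (2 ^ k)).real (W (2 ^ k) ⁻¹' S k) ≤ p) {R : ℕ}
    (h0 : 2 ^ k0 ≤ R) (h1 : R ≤ 2 ^ k1) :
    (nuF b (sd i) t R).real (⋃ k ∈ Finset.Icc k0 k1, W R ⁻¹' S k) ≤
      ((k1 : ℝ) - k0 + 1) * (2 * p + 4 * τ) := by
  have hkk : k0 ≤ k1 := (Nat.pow_le_pow_iff_right (by norm_num)).1 (h0.trans h1)
  refine (measureReal_biUnion_finset_le _ _).trans ?_
  refine (Finset.sum_le_card_nsmul _ _ (2 * p + 4 * τ) fun k hk => ?_).trans (le_of_eq ?_)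
  · rw [Finset.mem_Icc] at hk
    exact ev_win hk.1 hk.2 hh hW hc (hS k) (own k hk.1 hk.2) h0 h1
  · rw [Nat.card_Icc, nsmul_eq_mul]
    congr 1
    rw [Nat.cast_sub (by omega)]
    push_cast
    ring

end transfer

/-! ### the class of decorations -/

section cls

/-- **the class of decorations, real part**: support, and the conditions `ClT` on all the tori
`sd i (2^k)` of the window -/
def ClD (i : ℕ) (b t a r1 B1 : ℝ) (l0 k0 k1 : ℕ) : Dec :=
  {F | SuppD l0 F ∧ SuppD l0 (rfl2 F) ∧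
    ∀ k, k0 ≤ k → k ≤ k1 → F ∈ ClT (sd i (2 ^ k)) b t a r1 B1}

variable {i : ℕ} {b t a r1 B1 : ℝ} {l0 k0 k1 : ℕ}

lemma rfl2_rfl2 (F : ℤ → ℤ → ℝ) : rfl2 (rfl2 F) = F := by
  funext u v
  unfold H817.rfl2
  rw [sub_sub_cancel]

lemma SuppD_neg {l : ℕ} {F : ℤ → ℤ → ℝ} (h : SuppD l F) : SuppD l (fun u v => -F u v) :=
  fun u v huv => h u v fun h0 => huv (by simp [h0])

/-- a decoration supported in `[-l, l] x [1 - l, l]` has a reflection supported in the same box -/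
lemma SuppD_rfl2 {l : ℕ} {F : ℤ → ℤ → ℝ}
    (h : ∀ u v, F u v ≠ 0 → u.natAbs ≤ l ∧ 1 - (l : ℤ) ≤ v ∧ v ≤ l) : SuppD l (rfl2 F) := by
  intro u v huv
  have := h u (1 - v) huv
  omega

lemma ClD_neg (hb : 0 < b) (ht : 0 < t) {F : ℤ → ℤ → ℝ} (h : F ∈ ClD i b t a r1 B1 l0 k0 k1) :
    (fun u v => -F u v) ∈ ClD i b t a r1 B1 l0 k0 k1 := by
  obtain ⟨h1, h2, h3⟩ := h
  exact ⟨SuppD_neg h1, SuppD_neg h2, fun k hk0 hk1 => ClT_neg hb ht (h3 k hk0 hk1)⟩

lemma ClD_rfl2 (hb : 0 < b) (ht : 0 < t) (hl : 2 * l0 + 4 < 2 ^ (i + k0)) {F : ℤ → ℤ → ℝ}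
    (h : F ∈ ClD i b t a r1 B1 l0 k0 k1) : rfl2 F ∈ ClD i b t a r1 B1 l0 k0 k1 := by
  obtain ⟨h1, h2, h3⟩ := h
  refine ⟨h2, by rw [rfl2_rfl2]; exact h1, fun k hk0 hk1 => ClT_rfl2 hb ht h1 h2 ?_ (h3 k hk0 hk1)⟩
  rw [sd_pow]
  exact hl.trans_le (Nat.pow_le_pow_right (by norm_num) (by omega))

/-- the fields `neg01`, `neg10`, `rfl1` of `SysI`: change of sign and reflection -/
lemma ClD_nrfl (hb : 0 < b) (ht : 0 < t) (hl : 2 * l0 + 4 < 2 ^ (i + k0)) {F : ℤ → ℤ → ℝ}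
    (h : F ∈ ClD i b t a r1 B1 l0 k0 k1) :
    (fun u v => -rfl2 F u v) ∈ ClD i b t a r1 B1 l0 k0 k1 :=
  ClD_neg hb ht (ClD_rfl2 hb ht hl h)

/-- 817's `RealT` -/
lemma ClD_realT {η : ℝ} {k : ℕ} (hk0 : k0 ≤ k) (hk1 : k ≤ k1)
    (hP : ∀ q : V (sd i (2 ^ k)), q ≠ 0 → |H963.Pin (sd i (2 ^ k)) b t q - a * TM.H764.EE q| ≤
      η * TM.H764.EE q * (1 + TM.H764.EE q / t)) {D0 D1 : Dec}
    (c0 : D0 ⊆ ClD i b t a r1 B1 l0 k0 k1) (c1 : D1 ⊆ ClD i b t a r1 B1 l0 k0 k1) :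
    RealT (sd i (2 ^ k)) b t a η D0 D1 r1 B1 :=
  ⟨hP, fun F hF => by
    rcases hF with h | h
    · exact ((c0 h).2.2 k hk0 hk1).1
    · exact ((c1 h).2.2 k hk0 hk1).1, fun F hF => by
    rcases hF with h | h
    · exact ((c0 h).2.2 k hk0 hk1).2
    · exact ((c1 h).2.2 k hk0 hk1).2⟩

end cls

/-! ### measurability and probability -/

section prob

variable {b t a : ℝ}

lemma cont_RF {N : ℕ} [NeZero N] (hb : 0 < b) (ht : 0 < t) : Continuous (RF N b t) := by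
  have h1 : Continuous fun J : V N → ℝ => Rs (nwt N b t 0) J :=
    H692.continuous_Rs (H963.em_nwt hb.le ht 0)
  have h2 : Continuous fun F : V N → ℝ => Pt t F := by
    unfold H817.Pt
    exact Continuous.matrix_mulVec continuous_const (continuous_const_smul t)
  exact h1.comp h2

lemma cont_nS {N : ℕ} [NeZero N] (a t : ℝ) : Continuous (nS a t : (V N → ℝ) → ℝ) := by
  unfold H963.Core.nS
  have h2 : Continuous fun F : V N → ℝ => Matrix.mulVec (H864.mlt (H963.Core.sS a t)) F :=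
    Continuous.matrix_mulVec continuous_const continuous_id
  unfold H37.qf
  fun_prop

/-- decorations made from a window -/
lemma meas_decT {N : ℕ} [NeZero N] {X : Type*} [MeasurableSpace X] {T : X → ℤ → ℤ → ℝ}
    (hT : ∀ u v, Measurable fun z => T z u v) (p : V N) :
    Measurable fun z => dec (T z) p :=
  measurable_pi_lambda _ fun x => by
    unfold H817.dec
    exact hT _ _

/-- the conditions of one torus are measurable -/
lemma meas_ClT {N : ℕ} [NeZero N] (hb : 0 < b) (ht : 0 < t) {r1 B1 : ℝ} {X : Type*}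
    [MeasurableSpace X] {T : X → ℤ → ℤ → ℝ} (hT : ∀ u v, Measurable fun z => T z u v) :
    MeasurableSet {z | T z ∈ ClT N b t a r1 B1} := by
  have h1 := meas_decT (N := N) hT 0
  have h2 : Measurable fun z => RF N b t ((3 : ℝ) • dec (T z) (0 : V N)) :=
    ((cont_RF hb ht).comp (continuous_const_smul (3 : ℝ))).measurable.comp h1
  have h3 : Measurable fun z => nS a t (dec (T z) (0 : V N)) := (cont_nS a t).measurable.comp h1
  exact (measurableSet_le h2 measurable_const).inter (measurableSet_le h3 measurable_const)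

/-- **the class of decorations is typical for every pair of the window**, from the own torus of
the pairs `2^k` -/
theorem ClD_prob {i k0 k1 l0 : ℕ} (hb : 0 < b) (ht : 0 < t) {h τ p r1 B1 : ℝ}
    {X : Type*} [MeasurableSpace X] {W : ∀ R, (V (sd i R) → ℝ) → X} (hh : h ≤ 1 / 40)
    (hW : ∀ R, Measurable (W R))
    (hc : ∀ R, 2 ^ k0 ≤ R → R ≤ 2 ^ k1 → Cmp (nuF b (sd i) t (2 ^ k0)) (nuF b (sd i) t R)
      (W (2 ^ k0)) (W R) h τ) {T : X → ℤ → ℤ → ℝ} (hT : ∀ u v, Measurable fun z => T z u v)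
    (s0 : ∀ z, SuppD l0 (T z)) (s1 : ∀ z, SuppD l0 (rfl2 (T z)))
    (own : ∀ k, k0 ≤ k → k ≤ k1 → (nuF b (sd i) t (2 ^ k)).real
      {F | ¬(RF (sd i (2 ^ k)) b t ((3 : ℝ) • dec (T (W (2 ^ k) F)) (0 : V (sd i (2 ^ k)))) ≤ r1 ∧
        nS a t (dec (T (W (2 ^ k) F)) (0 : V (sd i (2 ^ k)))) ≤ B1)} ≤ p) {R : ℕ}
    (h0 : 2 ^ k0 ≤ R) (h1 : R ≤ 2 ^ k1) :
    MeasurableSet {F : V (sd i R) → ℝ | T (W R F) ∈ ClD i b t a r1 B1 l0 k0 k1} ∧
    (nuF b (sd i) t R).real {F | T (W R F) ∈ ClD i b t a r1 B1 l0 k0 k1}ᶜ ≤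
      ((k1 : ℝ) - k0 + 1) * (2 * p + 4 * τ) := by
  set S : ℕ → Set X := fun k => {z | T z ∈ ClT (sd i (2 ^ k)) b t a r1 B1}ᶜ with hS
  have mS : ∀ k, MeasurableSet (S k) := fun k => (meas_ClT hb ht hT).compl
  have e : {F : V (sd i R) → ℝ | T (W R F) ∈ ClD i b t a r1 B1 l0 k0 k1}ᶜ =
      ⋃ k ∈ Finset.Icc k0 k1, W R ⁻¹' S k := by
    ext F
    simp only [Set.mem_compl_iff, Set.mem_setOf_eq, ClD, s0, s1, true_and, Set.mem_iUnion,
      Finset.mem_Icc, Set.mem_preimage, hS, exists_prop]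
    push Not
    constructor
    · rintro ⟨k, a1, a2, a3⟩
      exact ⟨k, ⟨a1, a2⟩, a3⟩
    · rintro ⟨k, ⟨a1, a2⟩, a3⟩
      exact ⟨k, a1, a2, a3⟩
  have mU : MeasurableSet (⋃ k ∈ Finset.Icc k0 k1, W R ⁻¹' S k) :=
    Finset.measurableSet_biUnion _ fun k _ => hW R (mS k)
  refine ⟨?_, ?_⟩
  · have := (e ▸ mU : MeasurableSet
      {F : V (sd i R) → ℝ | T (W R F) ∈ ClD i b t a r1 B1 l0 k0 k1}ᶜ).compl
    rwa [compl_compl] at this
  · rw [e]
    exact ev_win_all hh hW hc mS (fun k g0 g1 => own k g0 g1) h0 h1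

end prob

end

end Vale.Agent.P159.H773
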