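import Vale.Agent.P159.H773.Sk2

/-!
P159 (helper773), S skeleton, part 3: the fields `loc` and `stp` of a level in the letters of
883 (`Psi`, `nuM`, `stp_tor`), 708 (`wd`), from the concrete inputs: cut step, STATG, bad sets,
`Dom` of the level, `W ≤ 1 + η` off a bad set.
-/

open MeasureTheory Filter Topology Finset Matrix

set_option linter.all false

namespace Vale.Agent.P159.H773

open Vale.Agent.P159.TM.Spec (V)
open Vale.Agent.P159.TM.SpecC (wT)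
open Vale.Agent.P159.TM.H459 (sn)
open Vale.Agent.P159.H686 (Lcl Cmp Stp rho2)
open Vale.Agent.P159.H883 (nuM Psi BW Zp Wt)
open Vale.Agent.P159.H708 (Bx wd)
open Vale.Agent.P159.H462 (Dom)
open Vale.Agent.P159.H963 (Anm)

noncomputable section

lemma sn_ax0 {N R : ℕ} [NeZero N] (h : 2 * R ≤ N) : sn (ax0 N R) = R := by
  unfold sn ax0
  have h1 : (((R : ℕ) : ZMod N)).valMinAbs = R := by
    have h2 := ZMod.valMinAbs_natCast_of_le_half (n := N) (a := R) (by omega)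
    simpa using h2
  simp only
  rw [h1]
  simp

section fam

variable {b : ℝ} {Nf : ℕ → ℕ} [∀ R, NeZero (Nf R)]
variable {wD : ∀ R, (V (Nf R) → ℤ) → ℝ} {φ : ∀ R, V (Nf R) → ℝ} {e : ℕ → ℝ}

lemma prob_nuF (hb : 0 < b) {t : ℝ} (ht : 0 < t) (R : ℕ) :
    IsProbabilityMeasure (nuF b Nf t R) :=
  H883.prob_nuM (H963.gw_wT hb.le) (H883.bw_wT hb) (H883.mf_scalar ht) 0

/-- the fields of `Lcl` which do not depend on the level -/
lemma PsF_fields (hb : 0 < b) (hD : ∀ R, BW (wD R)) {t : ℝ} (ht : 0 < t) (R : ℕ) :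
    (∀ F, 0 < PsF b Nf wD φ t R F) ∧ Measurable (PsF b Nf wD φ t R) ∧
    Integrable (PsF b Nf wD φ t R) (nuF b Nf t R) ∧
    ∫ F, PsF b Nf wD φ t R F ∂(nuF b Nf t R) = cMn b Nf wD R := by
  obtain ⟨_, h2, h3, h4, _⟩ := H883.Psi_fields (H963.gw_wT hb.le) (H883.bw_wT hb) (hD R)
    (H883.mf_scalar ht) (0 : V (Nf R)) (φ R)
  exact ⟨fun F => H883.Psi_pos (H883.bw_wT hb) (hD R) (H883.mf_scalar ht) (φ R) F, h2, h3, h4⟩

/-- the common window functional of a level: the functional of the base pair at the decorated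
field, cut at `Λ` -/
def Gcut (b : ℝ) (Nf : ℕ → ℕ) [∀ R, NeZero (Nf R)] (wD : ∀ R, (V (Nf R) → ℤ) → ℝ)
    (φ : ∀ R, V (Nf R) → ℝ) (t : ℝ) (R0 D : ℕ) (dec : (Bx D ⊕ Bx D → ℝ) → V (Nf R0) → ℝ)
    (Λ : ℝ) (z : Bx D ⊕ Bx D → ℝ) : ℝ :=
  min Λ (PsF b Nf wD φ t R0 (dec z) / cMn b Nf wD R0)

/-- **`Lcl` of the pair `R` with the window functional of the base pair `R0`** -/
theorem lcl_F (hb : 0 < b) (hD : ∀ R, BW (wD R)) {t a : ℝ} (ht : 0 < t) {R0 R D : ℕ}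
    {dec : (Bx D ⊕ Bx D → ℝ) → V (Nf R0) → ℝ} (hdec : Measurable dec)
    {Gd : Set (V (Nf R) → ℝ)} (hGd : MeasurableSet Gd) {Λ s q bb : ℝ} (hΛ : 0 ≤ Λ)
    (hs1 : s ≤ 1)
    (st : ∀ F ∈ Gd, |Real.log (PsF b Nf wD φ t R F) -
      Real.log (PsF b Nf wD φ t R0 (dec (wdF Nf D R F))) + a / 2 * (e R - e R0)| ≤ s)
    (up : ∀ F ∈ Gd, PsF b Nf wD φ t R0 (dec (wdF Nf D R F)) ≤ Λ * cMn b Nf wD R0)
    (hQ : ∫ F in Gdᶜ, PsF b Nf wD φ t R F ∂(nuF b Nf t R) ≤ q * cMn b Nf wD R)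
    (hP : (nuF b Nf t R).real Gdᶜ ≤ bb) :
    Lcl (nuF b Nf t R) (PsF b Nf wD φ t R) (cMn b Nf wD R)
      (cMn b Nf wD R0 * Real.exp (-(a / 2 * (e R - e R0)))) (wdF Nf D R)
      (Gcut b Nf wD φ t R0 D dec Λ) Gd Λ (2 * s) q bb := by
  obtain ⟨f1, f2, f3, f4⟩ := PsF_fields (φ := φ) hb hD ht R
  obtain ⟨g1, g2, _, _⟩ := PsF_fields (φ := φ) hb hD ht R0
  have c0 := cMn_pos (Nf := Nf) hb hD R0
  refine ⟨cMn_pos hb hD R, mul_pos c0 (Real.exp_pos _), fun F => (f1 F).le, f2, f3, f4,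
    H708.measurable_wd _ _ _, ?_, fun z => ?_, fun z => min_le_left _ _, hGd, fun F hF => ?_,
    hQ, hP⟩
  · exact measurable_const.min ((g2.comp hdec).div_const _)
  · exact le_min hΛ (div_nonneg (g1 _).le c0.le)
  · have h1 := st F hF
    have h2 := up F hF
    obtain ⟨A, hA⟩ : ∃ A, A = PsF b Nf wD φ t R F := ⟨_, rfl⟩
    obtain ⟨B, hB⟩ : ∃ B, B = PsF b Nf wD φ t R0 (dec (wdF Nf D R F)) := ⟨_, rfl⟩
    have hA0 : 0 < A := hA ▸ f1 F
    have hB0 : 0 < B := hB ▸ g1 _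
    have e1 : Gcut b Nf wD φ t R0 D dec Λ (wdF Nf D R F) = B / cMn b Nf wD R0 := by
      unfold Gcut
      rw [← hB]
      refine min_eq_right ?_
      rw [div_le_iff₀ c0, hB]
      exact h2
    rw [e1, ← hA]
    rw [← hA, ← hB] at h1
    obtain ⟨u, hu⟩ : ∃ u, u = Real.log A - Real.log B + a / 2 * (e R - e R0) := ⟨_, rfl⟩
    rw [← hu] at h1
    have e2 : A / (cMn b Nf wD R0 * Real.exp (-(a / 2 * (e R - e R0)))) =
        B / cMn b Nf wD R0 * Real.exp u := by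
      rw [hu, Real.exp_add, Real.exp_sub, Real.exp_log hA0, Real.exp_log hB0, Real.exp_neg]
      have := Real.exp_pos (a / 2 * (e R - e R0))
      field_simp
    rw [e2]
    have e3 : B / cMn b Nf wD R0 * Real.exp u - B / cMn b Nf wD R0 =
        B / cMn b Nf wD R0 * (Real.exp u - 1) := by ring
    rw [e3, abs_mul, abs_of_pos (div_pos hB0 c0), mul_comm (2 * s)]
    refine mul_le_mul_of_nonneg_left ?_ (div_pos hB0 c0).le
    have h3 := Real.abs_exp_sub_one_le (x := u) (h1.trans hs1)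
    linarith

/-- cut step on the torus of `R` and STATG between the tori ⟹ hypothesis `st` -/
lemma st_of {t a : ℝ} {R0 R D : ℕ} {dec : (Bx D ⊕ Bx D → ℝ) → V (Nf R0) → ℝ}
    {decR : (Bx D ⊕ Bx D → ℝ) → V (Nf R) → ℝ} {Gd : Set (V (Nf R) → ℝ)} {s1 s2 : ℝ}
    (cut : ∀ F ∈ Gd, |Real.log (PsF b Nf wD φ t R F) -
      Real.log (PsF b Nf wD φ t R (decR (wdF Nf D R F)))| ≤ s1)
    (stat : ∀ F ∈ Gd, |Real.log (PsF b Nf wD φ t R (decR (wdF Nf D R F))) -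
      Real.log (PsF b Nf wD φ t R0 (dec (wdF Nf D R F))) + a / 2 * (e R - e R0)| ≤ s2) :
    ∀ F ∈ Gd, |Real.log (PsF b Nf wD φ t R F) -
      Real.log (PsF b Nf wD φ t R0 (dec (wdF Nf D R F))) + a / 2 * (e R - e R0)| ≤ s1 + s2 := by
  intro F hF
  have h1 := abs_le.1 (cut F hF)
  have h2 := abs_le.1 (stat F hF)
  rw [abs_le]
  constructor <;> linarith

/-- **`Stp` of the pair `R1`**: 883's window with the two core boxes of 708 -/
theorem stp_F (hb : 0 < b) (hD : ∀ R, BW (wD R)) {t t' c : ℝ} (ht' : 0 < t') (htt : t' < t)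
    {R1 D : ℕ} (hN : 2 * R1 ≤ Nf R1) (hR : 2 * D < R1) (hD1 : 1 ≤ D)
    (hA : Dom (Anm (Nf R1) b t) t c) (hs : 1 ≤ (1 / t' - 1 / t) * t)
    {Bd : Set (V (Nf R1) → ℝ)} (hBd : MeasurableSet Bd) {η : ℝ} (hη0 : 0 ≤ η)
    (hη : ∀ F, F ∉ Bd → Wt (wT b (Nf R1)) (t • 1) t 0 F ≤ 1 + η) {b' : ℝ}
    (hbd : (nuF b Nf t R1).real Bd ≤ b') :
    Stp (nuF b Nf t R1) (nuF b Nf t' R1) (PsF b Nf wD φ t R1) (PsF b Nf wD φ t' R1)
      (cMn b Nf wD R1) (wdF Nf D R1)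
      (√(Real.pi ^ 2 / 8) * rho2 2 D c t (1 / t' - 1 / t)) η b' := by
  have h1 : sn (ax0 (Nf R1) R1 - 0) = R1 := by rw [sub_zero]; exact sn_ax0 hN
  have h2 : ax0 (Nf R1) R1 ∉ H462.box (0 : V (Nf R1)) D := by
    intro h
    rw [H462.mem_box] at h
    have h3 : sn (ax0 (Nf R1) R1 - 0) ≤ D := by
      rw [H733.Torg.sn_eq]
      exact max_le h.1 h.2
    omega
  refine H883.stp_tor (S := H462.box (0 : V (Nf R1)) D ∪ H462.box (ax0 (Nf R1) R1) D)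
    (cen := H686.cen2 0 (ax0 (Nf R1) R1) D) (n := 2) hb ht' htt hA hs hD1 (by norm_num)
    (H686.cls_two h2) hBd hη0 hη (H708.measurable_wd _ _ _) ?_ (hD R1) (φ R1) hbd
  intro F G hFG
  refine H708.wd_loc (by omega) ?_
  funext y
  rw [H686.Dm_mulVec, H686.Dm_mulVec]
  split_ifs with hy
  · exact hFG y hy
  · rfl

end fam

end

end Vale.Agent.P159.H773
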