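import Vale.Agent.P159.H773.Sk3
import Vale.Agent.P159.H27.Cr2

/-!
P159 (helper773), S skeleton, part 4: the inputs of level `j` may be proved assuming the relation for
all pairs of the windows below (27's strong induction) — and the amplitude theorem from them.
-/

open MeasureTheory Filter Topology Finset Matrix

set_option linter.all false

namespace Vale.Agent.P159.H773

open Vale.Agent.P159.TM.Spec (V)
open Vale.Agent.P159.TM.SpecC (wT)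
open Vale.Agent.P159.H552.Dx7 (kk nx RawCc xy_amp_Cc)
open Vale.Agent.P159.H801 (itw T3 itw_succ)
open Vale.Agent.P159.H264 (kap)
open Vale.Agent.P159.H686 (Lcl Cmp Stp Sml Chain al)
open Vale.Agent.P159.H883 (nuM Psi BW Zp CT)
open Vale.Agent.P159.H708 (Bx wd)
open Vale.Agent.P159.H770 (wTD Ed)
open Vale.Agent.P159.H817 (eD)
open Vale.Agent.P159.H27 (Rb BelR LevR Lev Num er chain_of_belowR nx_itw)

noncomputable section

section chain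

variable {b : ℝ} {Nf : ℕ → ℕ} [∀ R, NeZero (Nf R)]
variable {wD : ∀ R, (V (Nf R) → ℤ) → ℝ} {φ : ∀ R, V (Nf R) → ℝ} {e a : ℕ → ℝ}
variable {k w : ℕ → ℕ} {n0 : ℕ} {t : ℕ → ℝ} {D : ℕ → ℕ}
variable {G : ∀ j, (Bx (D j) ⊕ Bx (D j) → ℝ) → ℝ} {ε δ q bb Λ h τ η κP bW : ℕ → ℝ}

/-- the relation for all pairs of the windows below the level `j` -/
def Blw (b : ℝ) (Nf : ℕ → ℕ) [∀ R, NeZero (Nf R)] (wD : ∀ R, (V (Nf R) → ℤ) → ℝ)
    (e a : ℕ → ℝ) (k w : ℕ → ℕ) (n0 : ℕ) (F : ℕ → ℝ) (j : ℕ) : Prop :=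
  BelR (fun R => Real.log (cMn b Nf wD R)) e a k w n0 F j

/-- **the relation at every level, from level-wise inputs which may use the relation below** -/
theorem stat_of_lvlB (hb : 0 < b) (ht : ∀ j, 0 < t j) (hD : ∀ R, BW (wD R))
    (hmono : ∀ j, Rb k w n0 j ≤ Rb k w n0 (j + 1))
    (hL : ∀ j, Blw b Nf wD e a k w n0 (ej ε h Λ) j →
      Lvl b Nf wD φ e (t j) (t (j + 1)) (a (itw w n0 j)) (Rb k w n0 j)
      (Rb k w n0 (j + 1)) (D j) (G j) (δ j) (q j) (bb j) (Λ j) (h j) (τ j) (η j)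
      (κP j) (bW j))
    (sml : ∀ i, Sml (ε i) (δ i) (q i) (bb i) (Λ i) (h i) (τ i) (η i) (κP i) (bW i)
      (Λ (i + 1)) (bb (i + 1)))
    (alp : ∀ i, 5 * al (κP i) (η i) + 4 * ε i ≤ 1 / 4)
    (slow : ∀ i, ε i ≤ 2 * ε (i + 1)) (j : ℕ) :
    Blw b Nf wD e a k w n0 (ej ε h Λ) j := by
  classical
  have hpr : ∀ (s : ℝ), 0 < s → ∀ R, IsProbabilityMeasure (nuF b Nf s R) := fun s hs R =>
    H883.prob_nuM (H963.gw_wT hb.le) (H883.bw_wT hb) (H883.mf_scalar hs) 0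
  set Rj : ℕ → ℕ := fun j => Rb k w n0 j with hRj
  have hcp := cMn_pos (b := b) (Nf := Nf) hb hD
  -- the good set of the pair `R` at level `j`
  let P : ∀ j R, Set (V (Nf R) → ℝ) → Prop := fun j R Gd =>
    Lcl (nuF b Nf (t j) R) (PsF b Nf wD φ (t j) R) (cMn b Nf wD R)
      (cMn b Nf wD (Rj j) * Real.exp (-(a (itw w n0 j) / 2 * (e R - e (Rj j)))))
      (wdF Nf (D j) R) (G j) Gd (Λ j) (δ j) (q j) (bb j)
  let Gd : ∀ j R, Set (V (Nf R) → ℝ) := fun j R =>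
    if hx : ∃ Gd, P j R Gd then Classical.choose hx else ∅
  have hGd : ∀ j R, (∃ Gd, P j R Gd) → P j R (Gd j R) := fun j R hx => by
    have : Gd j R = Classical.choose hx := dif_pos hx
    rw [this]
    exact Classical.choose_spec hx
  have N : Num (fun j => V (Nf (Rj j)) → ℝ) (fun j => V (Nf (Rj (j + 1))) → ℝ)
      (fun j => nuF b Nf (t j) (Rj j)) (fun j => nuF b Nf (t j) (Rj (j + 1)))
      ε δ q bb Λ h τ η κP bW :=
    ⟨fun i => hpr _ (ht i) _, fun i => hpr _ (ht i) _, sml, alp, slow⟩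
  have H : ∀ i, BelR (fun R => Real.log (cMn b Nf wD R)) e a k w n0 (er ε h Λ) i →
      LevR (fun j => V (Nf (Rj j)) → ℝ) (fun j => V (Nf (Rj (j + 1))) → ℝ)
      (fun j => Bx (D j) ⊕ Bx (D j) → ℝ) (fun j => nuF b Nf (t j) (Rj j))
      (fun j => nuF b Nf (t j) (Rj (j + 1))) (fun j => PsF b Nf wD φ (t j) (Rj j))
      (fun j => PsF b Nf wD φ (t j) (Rj (j + 1))) (fun j => cMn b Nf wD (Rj j))
      (fun j => cMn b Nf wD (Rj j) *
        Real.exp (-(a (itw w n0 j) / 2 * (e (Rj (j + 1)) - e (Rj j)))))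
      (fun j => wdF Nf (D j) (Rj j)) (fun j => wdF Nf (D j) (Rj (j + 1))) G
      (fun j => Gd j (Rj j)) (fun j => Gd j (Rj (j + 1)))
      δ q bb Λ h τ η κP bW (fun R => Real.log (cMn b Nf wD R)) e a k w n0 i := by
    intro i hB
    have hLi := hL i hB
    refine ⟨⟨?_, ?_, ?_, ?_⟩, fun R h1 h2 => ?_⟩
    · have h3 := hGd i (Rj i) (hLi.loc (Rj i) le_rfl (hmono i))
      have e1 : cMn b Nf wD (Rj i) * Real.exp (-(a (itw w n0 i) / 2 *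
          (e (Rj i) - e (Rj i)))) = cMn b Nf wD (Rj i) := by simp
      simp only [P] at h3
      rw [e1] at h3
      exact h3
    · exact hGd i (Rj (i + 1)) (hLi.loc (Rj (i + 1)) (hmono i) le_rfl)
    · exact hLi.cmp (Rj (i + 1)) (hmono i) le_rfl
    · exact hLi.stp
    · obtain ⟨GdR, hGR⟩ := hLi.loc R h1 h2
      refine ⟨_, _, nuF b Nf (t i) R, PsF b Nf wD φ (t i) R, wdF Nf (D i) R, GdR,
        hpr _ (ht i) R, ?_, hLi.cmp R h1 h2⟩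
      rw [Real.exp_log (hcp R), sub_eq_add_neg, Real.exp_add, Real.exp_log (hcp _)]
      exact hGR
  exact (chain_of_belowR N H).2 j

/-- **all inputs of S at one ratio**, with the relation below as knowledge -/
structure SInB (b : ℝ) (Nf : ℕ → ℕ) [∀ R, NeZero (Nf R)] (wD : ∀ R, (V (Nf R) → ℤ) → ℝ)
    (φ : ∀ R, V (Nf R) → ℝ) (e x y a : ℕ → ℝ) (k w : ℕ → ℕ) (n0 : ℕ) (c' : ℝ) : Prop where
  ex : ∃ (t : ℕ → ℝ) (D : ℕ → ℕ) (G : ∀ j, (Bx (D j) ⊕ Bx (D j) → ℝ) → ℝ)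
    (ε δ q bb Λ h τ η κP bW : ℕ → ℝ), (∀ j, 0 < t j) ∧
    (∀ j, Blw b Nf wD e a k w n0 (ej ε h Λ) j →
      Lvl b Nf wD φ e (t j) (t (j + 1)) (a (itw w n0 j)) (Rb k w n0 j)
      (Rb k w n0 (j + 1)) (D j) (G j) (δ j) (q j) (bb j) (Λ j) (h j) (τ j) (η j)
      (κP j) (bW j)) ∧
    (∀ i, Sml (ε i) (δ i) (q i) (bb i) (Λ i) (h i) (τ i) (η i) (κP i) (bW i)
      (Λ (i + 1)) (bb (i + 1))) ∧
    (∀ i, 5 * al (κP i) (η i) + 4 * ε i ≤ 1 / 4) ∧ (∀ i, ε i ≤ 2 * ε (i + 1)) ∧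
    Sma y w n0 c' ε h Λ
  bw : ∀ R, BW (wD R)
  c0 : 0 < c'
  mono : ∀ j, Rb k w n0 j ≤ Rb k w n0 (j + 1)
  kw : ∀ᶠ j in atTop, k (nx w (itw w n0 j)) ≤ 3 * w (itw w n0 j)
  av : ∀ᶠ n in atTop, |a n - H552.Dx7.invS x n| ≤ y n ^ (1 + c')

/-- the conditional inputs give the unconditional ones -/
theorem SInB.sin (hb : 0 < b) {x y : ℕ → ℝ} {c' : ℝ}
    (H : SInB b Nf wD φ e x y a k w n0 c') : SIn b Nf wD φ e x y a k w n0 c' := by
  obtain ⟨t, D, G, ε, δ, q, bb, Λ, h, τ, η, κP, bW, ht, hL, sml, alp, slow, hS⟩ := H.ex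
  have hst := stat_of_lvlB hb ht H.bw H.mono hL sml alp slow
  exact ⟨⟨t, D, G, ε, δ, q, bb, Λ, h, τ, η, κP, bW, ht, fun j => hL j (hst j), sml, alp, slow,
    hS⟩, H.bw, H.c0, H.mono, H.kw, H.av⟩

end chain

/-- **THE AMPLITUDE THEOREM FROM THE CONDITIONAL LEVEL-WISE INPUTS** (point cores) -/
theorem xy_amp_SInB {b : ℝ} (hb : 0 < b) {x y : ℕ → ℝ} {i1 : ℕ}
    (hF : ∀ i, i1 ≤ i → ∃ (c r q B A : ℝ) (w : ℕ → ℕ) (n1 n0 : ℕ) (a : ℕ → ℝ) (k : ℕ → ℕ)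
      (c' : ℝ) (η : ∀ R, Ed (sd i R) → ℤ) (φ : ∀ R, V (sd i R) → ℝ),
      T3 x y kap c r q B A w n1 ∧ n1 ≤ n0 ∧ Pth i η ∧
      SInB b (sd i) (fun R => wTD (sd i R) b (η R)) φ (fun R => eD (sd i R) R) x y a k w n0 c') :
    ∃ a : ℝ, 0 < a ∧ Tendsto (fun r : ℕ => corrInf b ((r : ℤ), 0) /
      ((r : ℝ) ^ (-(1 / 4) : ℝ) * Real.log r ^ (1 / 8 : ℝ))) atTop (𝓝 a) := by
  refine xy_amp_SIn hb (x := x) (y := y) (i1 := i1) fun i hi => ?_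
  obtain ⟨c, r, q, B, A, w, n1, n0, a, k, c', η, φ, hT, h01, hη, hS⟩ := hF i hi
  exact ⟨c, r, q, B, A, w, n1, n0, a, k, c', η, φ, hT, h01, hη, hS.sin hb⟩

end

end Vale.Agent.P159.H773
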