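import Vale.Agent.P159.H773.Twist
import Vale.Agent.P159.H773.Cur
import Vale.Agent.P159.H773.Pot
import Vale.Agent.P159.H770.DisT
import Vale.Agent.P159.TM.H331.Box

/-!
P159 (helper773): duality between the neutral massless torus with a dislocation (heights modulo
constants) and the XY model on the torus averaged over the two twists.
-/

open MeasureTheory Filter Topology
open scoped BigOperators

set_option linter.all false

namespace Vale.Agent.P159.H773

open Vale.Agent.P159 Vale.Agent.P159.H353 Vale.Agent.P159.T1.H42 Vale.Agent.P159.TM.H389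
open Vale.Agent.P159.TM.H331
open Vale.Agent.P159.H770 (wTD Ed)

variable {M : ℕ}

/-- the bonds of the torus of side `M + 2`: wrap around bonds and bonds of the box -/
abbrev BB (M : ℕ) : Type := (Fin (M + 2) ⊕ Fin (M + 2)) ⊕ Bd M

/-- first site of a wrap around bond -/
def ws : Fin (M + 2) ⊕ Fin (M + 2) → St M
  | Sum.inl j => (Fin.last (M + 1), j)
  | Sum.inr i => (i, Fin.last (M + 1))

/-- second site of a wrap around bond -/
def wt : Fin (M + 2) ⊕ Fin (M + 2) → St M
  | Sum.inl j => (0, j)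
  | Sum.inr i => (i, 0)

/-- label of a wrap around bond -/
def wu : Fin (M + 2) ⊕ Fin (M + 2) → Bool
  | Sum.inl _ => false
  | Sum.inr _ => true

/-- first site -/
def sA : BB M → St M := Sum.elim ws bs

/-- second site -/
def tA : BB M → St M := Sum.elim wt bt

/-- the bonds indexed by their second site and their direction -/
def eA : BB M ≃ (Fin (M + 2) × Fin (M + 2)) × Bool where
  toFun
    | Sum.inl (Sum.inl j) => ((0, j), false)
    | Sum.inl (Sum.inr i) => ((i, 0), true)
    | Sum.inr (Sum.inl p) => ((p.1.succ, p.2), false)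
    | Sum.inr (Sum.inr p) => ((p.1, p.2.succ), true)
  invFun
    | ((i, j), false) => Fin.cases (Sum.inl (Sum.inl j)) (fun i' => Sum.inr (Sum.inl (i', j))) i
    | ((i, j), true) => Fin.cases (Sum.inl (Sum.inr i)) (fun j' => Sum.inr (Sum.inr (i, j'))) j
  left_inv := by
    rintro ((j | i) | (⟨i, j⟩ | ⟨i, j⟩)) <;> rfl
  right_inv := by
    rintro ⟨⟨i, j⟩, (_ | _)⟩
    · refine Fin.cases ?_ (fun i' => ?_) i <;> rfl
    · refine Fin.cases ?_ (fun j' => ?_) j <;> rfl

/-- the direction of a bond -/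
def dir (c : Bool) : Fin (M + 2) × Fin (M + 2) := if c then (0, 1) else (1, 0)

lemma tA_eq (e : BB M) : tA e = (eA e).1 := by
  rcases e with (j | i) | (⟨i, j⟩ | ⟨i, j⟩) <;> rfl

lemma succ_eq (i : Fin (M + 1)) : i.succ = i.castSucc + 1 := Fin.coeSucc_eq_succ.symm

lemma last_add : (Fin.last (M + 1) : Fin (M + 2)) + 1 = 0 := Fin.last_add_one (M + 1)

lemma sA_eq (e : BB M) : sA e + dir (eA e).2 = (eA e).1 := by
  rcases e with (j | i) | (⟨i, j⟩ | ⟨i, j⟩)
  · show ((Fin.last (M + 1), j) : Fin (M + 2) × Fin (M + 2)) + (1, 0) = (0, j)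
    ext1
    · exact last_add
    · simp
  · show ((i, Fin.last (M + 1)) : Fin (M + 2) × Fin (M + 2)) + (0, 1) = (i, 0)
    ext1
    · simp
    · exact last_add
  · show ((i.castSucc, j) : Fin (M + 2) × Fin (M + 2)) + (1, 0) = (i.succ, j)
    ext1
    · exact (succ_eq i).symm
    · simp
  · show ((i, j.castSucc) : Fin (M + 2) × Fin (M + 2)) + (0, 1) = (i, j.succ)
    ext1
    · simp
    · exact (succ_eq j).symm

/-- the divergence in torus letters -/
lemma dvg_tor (m : (Fin (M + 2) × Fin (M + 2)) × Bool → ℤ) (v : St M) :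
    dvg sA tA (m ∘ eA) v = m (v + (1, 0), false) + m (v + (0, 1), true) - m (v, false) -
      m (v, true) := by
  unfold dvg
  have h1 : ∀ e : BB M, ((if sA e = v then (m ∘ eA) e else 0) -
      (if tA e = v then (m ∘ eA) e else 0)) =
      (fun c : (Fin (M + 2) × Fin (M + 2)) × Bool =>
        (if c.1 = v + dir c.2 then m c else 0) - (if c.1 = v then m c else 0)) (eA e) := by
    intro e
    have h2 := sA_eq e
    have h3 := tA_eq e
    show _ = (if (eA e).1 = v + dir (eA e).2 then m (eA e) else 0) -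
      (if (eA e).1 = v then m (eA e) else 0)
    rw [h3]
    congr 1
    refine if_congr ?_ rfl rfl
    rw [← h2]
    exact (add_left_inj _).symm
  rw [Finset.sum_congr rfl fun e _ => h1 e, Equiv.sum_comp eA
    (fun c : (Fin (M + 2) × Fin (M + 2)) × Bool =>
        (if c.1 = v + dir c.2 then m c else 0) - (if c.1 = v then m c else 0)),
    Fintype.sum_prod_type]
  simp only [Fintype.sum_bool]
  rw [Finset.sum_add_distrib, Finset.sum_sub_distrib, Finset.sum_sub_distrib,
    Finset.sum_ite_eq', Finset.sum_ite_eq', Finset.sum_ite_eq', Finset.sum_ite_eq']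
  simp only [Finset.mem_univ, if_true, dir, Bool.false_eq_true, if_false]
  ring

/-- the current of the heights `h` with the dislocation `η` -/
def cuT (η : (Fin (M + 2) × Fin (M + 2)) × Bool → ℤ) (h : Fin (M + 2) × Fin (M + 2) → ℤ)
    (c : (Fin (M + 2) × Fin (M + 2)) × Bool) : ℤ :=
  if c.2 then -(h (c.1 + (1, 0)) - h c.1 + η (c.1, false))
  else h (c.1 + (0, 1)) - h c.1 + η (c.1, true)

/-- the curl of the dislocation -/
def curl (η : (Fin (M + 2) × Fin (M + 2)) × Bool → ℤ) (v : Fin (M + 2) × Fin (M + 2)) : ℤ :=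
  η (v, false) + η (v + (1, 0), true) - η (v + (0, 1), false) - η (v, true)

lemma dvg_cuT (η : (Fin (M + 2) × Fin (M + 2)) × Bool → ℤ) (h : Fin (M + 2) × Fin (M + 2) → ℤ)
    (v : St M) : dvg sA tA (cuT η h ∘ eA) v = curl η v := by
  rw [dvg_tor]
  unfold cuT curl
  simp only [Bool.false_eq_true, if_false, if_true]
  have e : v + (0, 1) + (1, 0) = v + (1, 0) + (0, 1) := by abel
  rw [e]
  ring

/-- the totals over the wrap around bonds -/
lemma tot_cuT_false (η : (Fin (M + 2) × Fin (M + 2)) × Bool → ℤ)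
    (h : Fin (M + 2) × Fin (M + 2) → ℤ) :
    tot wu ((cuT η h ∘ eA) ∘ Sum.inl) false = ∑ j : Fin (M + 2), η ((0, j), true) := by
  unfold tot
  rw [Fintype.sum_sum_type]
  have e1 : ∀ j : Fin (M + 2), (if wu (Sum.inl j) = false then
      ((cuT η h ∘ eA) ∘ Sum.inl) (Sum.inl j : Fin (M + 2) ⊕ Fin (M + 2)) else 0) =
      h (0, j + 1) - h (0, j) + η ((0, j), true) := by
    intro j
    rw [if_pos (show wu (Sum.inl j : Fin (M + 2) ⊕ Fin (M + 2)) = false from rfl)]
    show h ((0, j) + (0, 1)) - h (0, j) + η ((0, j), true) = _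
    congr 3
  have e2 : ∀ i : Fin (M + 2), (if wu (Sum.inr i) = false then
      ((cuT η h ∘ eA) ∘ Sum.inl) (Sum.inr i : Fin (M + 2) ⊕ Fin (M + 2)) else 0) = 0 := by
    intro i
    rw [if_neg (by simp [wu])]
  rw [Finset.sum_congr rfl fun j _ => e1 j, Finset.sum_congr rfl fun j _ => e2 j,
    Finset.sum_const_zero, add_zero, Finset.sum_add_distrib, Finset.sum_sub_distrib]
  have e3 : ∑ j : Fin (M + 2), h (0, j + 1) = ∑ j : Fin (M + 2), h (0, j) :=
    Equiv.sum_comp (Equiv.addRight (1 : Fin (M + 2))) fun j => h (0, j)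
  rw [e3]
  ring

lemma tot_cuT_true (η : (Fin (M + 2) × Fin (M + 2)) × Bool → ℤ)
    (h : Fin (M + 2) × Fin (M + 2) → ℤ) :
    tot wu ((cuT η h ∘ eA) ∘ Sum.inl) true = -∑ i : Fin (M + 2), η ((i, 0), false) := by
  unfold tot
  rw [Fintype.sum_sum_type]
  have e1 : ∀ j : Fin (M + 2), (if wu (Sum.inl j) = true then
      ((cuT η h ∘ eA) ∘ Sum.inl) (Sum.inl j : Fin (M + 2) ⊕ Fin (M + 2)) else 0) = 0 := by
    intro i
    rw [if_neg (by simp [wu])]
  have e2 : ∀ i : Fin (M + 2), (if wu (Sum.inr i) = true then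
      ((cuT η h ∘ eA) ∘ Sum.inl) (Sum.inr i : Fin (M + 2) ⊕ Fin (M + 2)) else 0) =
      -(h (i + 1, 0) - h (i, 0) + η ((i, 0), false)) := by
    intro i
    rw [if_pos (show wu (Sum.inr i : Fin (M + 2) ⊕ Fin (M + 2)) = true from rfl)]
    show -(h ((i, 0) + (1, 0)) - h (i, 0) + η ((i, 0), false)) = _
    congr 4
  rw [Finset.sum_congr rfl fun j _ => e1 j, Finset.sum_congr rfl fun j _ => e2 j,
    Finset.sum_const_zero, zero_add, Finset.sum_neg_distrib, Finset.sum_add_distrib,
    Finset.sum_sub_distrib]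
  have e3 : ∑ i : Fin (M + 2), h (i + 1, 0) = ∑ i : Fin (M + 2), h (i, 0) :=
    Equiv.sum_comp (Equiv.addRight (1 : Fin (M + 2))) fun i => h (i, 0)
  rw [e3]
  ring

/-- the weight of the current is the weight of the heights -/
lemma wJ_cuT (b : ℝ) (η : (Fin (M + 2) × Fin (M + 2)) × Bool → ℤ)
    (h : Fin (M + 2) × Fin (M + 2) → ℤ) :
    wJ (fun _ : BB M => b) (cuT η h ∘ eA) = wTD (M + 2) b η h := by
  have h1 := Vale.Agent.P159.H770.wTD_eq (N := M + 2) b η h
  rw [h1]
  unfold wJ
  rw [show (∏ i : BB M, wI b ((cuT η h ∘ eA) i)) =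
    ∏ c : (Fin (M + 2) × Fin (M + 2)) × Bool, wI b (cuT η h c) from
      Equiv.prod_comp eA fun c => wI b (cuT η h c), Fintype.prod_prod_type]
  refine Finset.prod_congr rfl fun x _ => ?_
  rw [Fintype.prod_bool]
  unfold cuT
  simp only [Bool.false_eq_true, if_false, if_true]
  rw [wI_neg]
  rfl

lemma PhT_neg {ι : Type} [Fintype ι] (u : ι → Bool) (n : ι → ℤ) : PhT u (-n) = PhT u n := by
  have e : ∀ k, tot u (-n) k = -tot u n k := by
    intro k
    unfold tot
    rw [← Finset.sum_neg_distrib]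
    refine Finset.sum_congr rfl fun i _ => ?_
    simp only [Pi.neg_apply]
    split_ifs <;> ring
  have e2 : (∀ k, tot u (-n) k = 0) ↔ ∀ k, tot u n k = 0 :=
    forall_congr' fun k => by rw [e, neg_eq_zero]
  unfold PhT
  by_cases h : ∀ k, tot u n k = 0
  · rw [if_pos h, if_pos (e2.2 h)]
  · rw [if_neg h, if_neg fun h' => h (e2.1 h')]

/-- the weight of the spins of the neutral torus: wrap around bonds averaged over the twists -/
noncomputable def WT (M : ℕ) (b : ℝ) : C(St M → T, ℝ) :=
  DT (fun _ => b) (ws (M := M)) wt wu * cexp (EN (fun _ => b) bs bt)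

lemma WT_eq {b : ℝ} (hb : 0 ≤ b) :
    WT M b = UU (sA (M := M)) tA (fun _ => b) fun n => PhT wu (n ∘ Sum.inl) := by
  unfold WT
  rw [DT_eq (fun _ => hb)]
  have h := UU_mul (ws (M := M)) wt (bs (N := M)) bt (J := fun _ => b) (K := fun _ => b)
    (fun _ => hb) (fun _ => hb) (C := 1) (PhT_abs wu)
  rw [← h]
  unfold sA tA
  congr 1
  funext e
  rcases e with e | e <;> rfl

/-- potentials, in `Fin` letters -/
theorem fin_pot (A B : Fin (M + 2) × Fin (M + 2) → ℤ)
    (hc : ∀ x, A x + B (x + (1, 0)) - A (x + (0, 1)) - B x = 0)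
    (hA : ∑ i : Fin (M + 2), A (i, 0) = 0) (hB : ∑ j : Fin (M + 2), B (0, j) = 0) :
    ∃ h : Fin (M + 2) × Fin (M + 2) → ℤ,
      ∀ x, h (x + (1, 0)) - h x = A x ∧ h (x + (0, 1)) - h x = B x :=
  torus_pot (N := M + 2) A B hc hA hB

/-- constants, in `Fin` letters -/
theorem fin_const (h : Fin (M + 2) × Fin (M + 2) → ℤ) (h1 : ∀ x, h (x + (1, 0)) = h x)
    (h2 : ∀ x, h (x + (0, 1)) = h x) (x y : Fin (M + 2) × Fin (M + 2)) : h x = h y :=
  torus_const (N := M + 2) h h1 h2 x y

/-- neutral dislocations from `q` to `p` -/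
structure Dsl (η : (Fin (M + 2) × Fin (M + 2)) × Bool → ℤ) (p q : St M) : Prop where
  curl : ∀ v, curl η v = src p q v
  row : ∑ j : Fin (M + 2), η ((0, j), true) = 0
  col : ∑ i : Fin (M + 2), η ((i, 0), false) = 0

/-- **duality** -/
theorem tor_dual {b : ℝ} (hb : 0 ≤ b) {η : (Fin (M + 2) × Fin (M + 2)) × Bool → ℤ} {p q : St M}
    (hη : Dsl η p q) :
    HasSum (fun h : {h : Fin (M + 2) × Fin (M + 2) → ℤ // h 0 = 0} => wTD (M + 2) b η h.1)
      (∫ θ, cosT (θ p - θ q) * WT M b θ ∂(torusHaar (St M))) := by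
  rw [WT_eq hb]
  have h := UU_int_cos (sA (M := M)) tA (J := fun _ => b) (fun _ => hb) (C := 1)
    (Φ := fun n => PhT wu (n ∘ Sum.inl)) (fun n => PhT_abs wu _)
    (fun n => PhT_neg wu (n ∘ Sum.inl)) p q
  set φ : {h : Fin (M + 2) × Fin (M + 2) → ℤ // h 0 = 0} → (BB M → ℤ) :=
    fun h => cuT η h.1 ∘ eA with hφ
  have hinj : Function.Injective φ := by
    intro h h' hh
    have h1 : cuT η h.1 = cuT η h'.1 := by
      funext c
      have h2 := congrFun hh (eA.symm c)
      simpa [hφ] using h2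
    have h3 : ∀ x : Fin (M + 2) × Fin (M + 2), h.1 x - h'.1 x = h.1 0 - h'.1 0 := by
      intro x
      refine fin_const (fun x => h.1 x - h'.1 x) ?_ ?_ x 0
      · intro x
        have h4 := congrFun h1 (x, true)
        simp only [cuT, if_true] at h4
        linarith
      · intro x
        have h4 := congrFun h1 (x, false)
        simp only [cuT, Bool.false_eq_true, if_false] at h4
        linarith
    refine Subtype.ext (funext fun x => ?_)
    have h5 := h3 x
    rw [h.2, h'.2, sub_zero] at h5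
    linarith
  have hz : ∀ n, n ∉ Set.range φ →
      (if ∀ v, dvg (sA (M := M)) tA n v = src p q v then
        wJ (fun _ => b) n * PhT wu (n ∘ Sum.inl) else 0) = 0 := by
    intro n hn
    by_contra hne
    have h1 : ∀ v, dvg (sA (M := M)) tA n v = src p q v := by
      by_contra h2
      exact hne (if_neg h2)
    rw [if_pos h1] at hne
    have h2 : ∀ k, tot wu (n ∘ Sum.inl) k = 0 := by
      by_contra h3
      apply hne
      unfold PhT
      rw [if_neg h3, mul_zero]
    apply hn
    set m : (Fin (M + 2) × Fin (M + 2)) × Bool → ℤ := n ∘ eA.symm with hm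
    have hnm : n = m ∘ eA := by
      funext e
      simp [hm]
    have hcurl : ∀ x : Fin (M + 2) × Fin (M + 2),
        (-m (x, true) - η (x, false)) + (m (x + (1, 0), false) - η (x + (1, 0), true)) -
          (-m (x + (0, 1), true) - η (x + (0, 1), false)) - (m (x, false) - η (x, true)) = 0 := by
      intro x
      have h3 := h1 x
      rw [hnm, dvg_tor, ← hη.curl x] at h3
      unfold curl at h3
      linarith
    have hA : ∑ i : Fin (M + 2), (-m ((i, 0), true) - η ((i, 0), false)) = 0 := by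
      have h3 := h2 true
      unfold tot at h3
      rw [Fintype.sum_sum_type] at h3
      have e1 : ∀ j : Fin (M + 2), (if wu (Sum.inl j) = true then
          (n ∘ Sum.inl) (Sum.inl j : Fin (M + 2) ⊕ Fin (M + 2)) else 0) = 0 := by
        intro i
        rw [if_neg (by simp [wu])]
      have e2 : ∀ i : Fin (M + 2), (if wu (Sum.inr i) = true then
          (n ∘ Sum.inl) (Sum.inr i : Fin (M + 2) ⊕ Fin (M + 2)) else 0) = m ((i, 0), true) := by
        intro i
        rw [if_pos (show wu (Sum.inr i : Fin (M + 2) ⊕ Fin (M + 2)) = true from rfl), hnm]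
        rfl
      rw [Finset.sum_congr rfl fun j _ => e1 j, Finset.sum_congr rfl fun j _ => e2 j,
        Finset.sum_const_zero, zero_add] at h3
      have h4 : ∑ i : Fin (M + 2), (-m ((i, 0), true) - η ((i, 0), false)) = 0 := by
        rw [Finset.sum_sub_distrib, Finset.sum_neg_distrib, h3, hη.col]
        ring
      exact h4
    have hB : ∑ j : Fin (M + 2), (m ((0, j), false) - η ((0, j), true)) = 0 := by
      have h3 := h2 false
      unfold tot at h3
      rw [Fintype.sum_sum_type] at h3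
      have e1 : ∀ j : Fin (M + 2), (if wu (Sum.inl j) = false then
          (n ∘ Sum.inl) (Sum.inl j : Fin (M + 2) ⊕ Fin (M + 2)) else 0) = m ((0, j), false) := by
        intro i
        rw [if_pos (show wu (Sum.inl i : Fin (M + 2) ⊕ Fin (M + 2)) = false from rfl), hnm]
        rfl
      have e2 : ∀ i : Fin (M + 2), (if wu (Sum.inr i) = false then
          (n ∘ Sum.inl) (Sum.inr i : Fin (M + 2) ⊕ Fin (M + 2)) else 0) = 0 := by
        intro i
        rw [if_neg (by simp [wu])]
      rw [Finset.sum_congr rfl fun j _ => e1 j, Finset.sum_congr rfl fun j _ => e2 j,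
        Finset.sum_const_zero, add_zero] at h3
      have h4 : ∑ j : Fin (M + 2), (m ((0, j), false) - η ((0, j), true)) = 0 := by
        rw [Finset.sum_sub_distrib, h3, hη.row]
        ring
      exact h4
    obtain ⟨h0, hh0⟩ := fin_pot (fun x => -m (x, true) - η (x, false))
      (fun x => m (x, false) - η (x, true)) hcurl hA hB
    refine ⟨⟨fun x => h0 x - h0 0, sub_self _⟩, ?_⟩
    rw [hnm]
    simp only [hφ]
    congr 1
    funext c
    obtain ⟨x, k⟩ := c
    have h5 := hh0 x
    rcases k with _ | _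
    · simp only [cuT, Bool.false_eq_true, if_false]
      linarith [h5.2]
    · simp only [cuT, if_true]
      linarith [h5.1]
  have h1 := (hinj.hasSum_iff hz).2 h
  convert h1 using 1
  funext k
  simp only [Function.comp_apply, hφ]
  rw [if_pos fun v => by rw [dvg_cuT, hη.curl], wJ_cuT]
  have h2 : PhT wu ((cuT η k.1 ∘ eA) ∘ Sum.inl) = 1 := by
    unfold PhT
    rw [if_pos]
    rintro (_ | _)
    · rw [tot_cuT_false, hη.row]
    · rw [tot_cuT_true, hη.col, neg_zero]
  rw [h2, mul_one]

end Vale.Agent.P159.H773
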