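import Vale.Agent.P159.TM.H389.Rm
import Vale.Agent.P159.TM.H331.Dict

/-!
P159 (helper773), final transfer: couplings averaged over twists.  On a finite graph with bonds
`i : ι` from `s i` to `t i` and a label `u i : κ`, the weight
`∫ exp (∑ J i cos (θ (s i) - θ (t i) + α (u i))) dα` is ferromagnetic (`Fer`), and its Fourier
series is the sum over the currents with total `0` for every label.
-/

open MeasureTheory Filter Topology
open scoped BigOperators

set_option linter.all false

namespace Vale.Agent.P159.H773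

open Vale.Agent.P159 Vale.Agent.P159.H353 Vale.Agent.P159.T1.H42 Vale.Agent.P159.TM.H389
open Vale.Agent.P159.TM.H331

variable {V ι κ : Type} [Fintype V] [DecidableEq V] [Fintype ι] [Fintype κ] [DecidableEq κ]

/-- the twisted angle of a bond -/
noncomputable def ang (s t : ι → V) (u : ι → κ) (i : ι) (θ : V → T) (α : κ → T) : T :=
  θ (s i) - θ (t i) + α (u i)

omit [Fintype V] [DecidableEq V] [Fintype ι] [Fintype κ] [DecidableEq κ] in
lemma ang_cont (s t : ι → V) (u : ι → κ) (i : ι) :
    Continuous fun p : (V → T) × (κ → T) => ang s t u i p.1 p.2 := by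
  unfold ang
  exact ((((continuous_apply (s i)).comp continuous_fst).sub
    ((continuous_apply (t i)).comp continuous_fst)).add
      ((continuous_apply (u i)).comp continuous_snd))

/-- the twisted energy -/
noncomputable def ET (J : ι → ℝ) (s t : ι → V) (u : ι → κ) (θ : V → T) (α : κ → T) : ℝ :=
  ∑ i, J i * cosT (ang s t u i θ α)

omit [Fintype V] [DecidableEq V] [Fintype κ] [DecidableEq κ] in
lemma ET_cont (J : ι → ℝ) (s t : ι → V) (u : ι → κ) :
    Continuous fun p : (V → T) × (κ → T) => ET J s t u p.1 p.2 := by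
  unfold ET
  exact continuous_finsetSum _ fun i _ => continuous_const.mul (cont_cos.comp (ang_cont s t u i))

omit [Fintype V] [DecidableEq V] [Fintype κ] [DecidableEq κ] in
lemma ET_cont1 (J : ι → ℝ) (s t : ι → V) (u : ι → κ) (θ : V → T) :
    Continuous fun α : κ → T => ET J s t u θ α := by
  unfold ET ang
  exact continuous_finsetSum _ fun i _ => continuous_const.mul
    (cont_cos.comp (continuous_const.add (continuous_apply (u i))))

/-- the weight averaged over the twists -/
noncomputable def DT (J : ι → ℝ) (s t : ι → V) (u : ι → κ) : C(V → T, ℝ) where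
  toFun θ := ∫ α, Real.exp (ET J s t u θ α) ∂(torusHaar κ)
  continuous_toFun := by
    have h1 : Continuous (Function.uncurry fun (θ : V → T) (α : κ → T) =>
        Real.exp (ET J s t u θ α)) := Real.continuous_exp.comp (ET_cont J s t u)
    have h2 := continuous_parametric_integral_of_continuous (μ := torusHaar κ) h1
      (isCompact_univ (X := κ → T))
    simpa using h2

omit [DecidableEq V] [DecidableEq κ] in
lemma DT_apply (J : ι → ℝ) (s t : ι → V) (u : ι → κ) (θ : V → T) :
    DT J s t u θ = ∫ α, Real.exp (ET J s t u θ α) ∂(torusHaar κ) := rfl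

omit [DecidableEq V] [DecidableEq κ] in
lemma DT_pos (J : ι → ℝ) (s t : ι → V) (u : ι → κ) (θ : V → T) : 0 < DT J s t u θ := by
  rw [DT_apply]
  refine ipos ?_ fun α => Real.exp_pos _
  exact Real.continuous_exp.comp (ET_cont1 J s t u θ)

/-! ### the weight lies in Ginibre's class -/

/-- partial integration over the second components -/
noncomputable def LP (F : C(((V → T) × (κ → T)) × ((V → T) × (κ → T)), ℝ)) :
    C((V → T) × (V → T), ℝ) where
  toFun q := ∫ p : (κ → T) × (κ → T), F ((q.1, p.1), (q.2, p.2))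
    ∂((torusHaar κ).prod (torusHaar κ))
  continuous_toFun := by
    have h1 : Continuous (Function.uncurry fun (q : (V → T) × (V → T)) (p : (κ → T) × (κ → T)) =>
        F ((q.1, p.1), (q.2, p.2))) := by
      refine F.continuous.comp ?_
      exact ((continuous_fst.comp continuous_fst).prodMk
        (continuous_fst.comp continuous_snd)).prodMk
        ((continuous_snd.comp continuous_fst).prodMk (continuous_snd.comp continuous_snd))
    have h2 := continuous_parametric_integral_of_continuous
      (μ := (torusHaar κ).prod (torusHaar κ)) h1 (isCompact_univ (X := (κ → T) × (κ → T)))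
    simpa using h2

omit [DecidableEq V] [DecidableEq κ] in
lemma LP_apply (F : C(((V → T) × (κ → T)) × ((V → T) × (κ → T)), ℝ)) (q : (V → T) × (V → T)) :
    LP F q = ∫ p : (κ → T) × (κ → T), F ((q.1, p.1), (q.2, p.2))
      ∂((torusHaar κ).prod (torusHaar κ)) := rfl

omit [DecidableEq V] [DecidableEq κ] in
lemma LP_int (F : C(((V → T) × (κ → T)) × ((V → T) × (κ → T)), ℝ)) (q : (V → T) × (V → T)) :
    Integrable (fun p : (κ → T) × (κ → T) => F ((q.1, p.1), (q.2, p.2)))
      ((torusHaar κ).prod (torusHaar κ)) :=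
  cint (F.continuous.comp (by fun_prop))

omit [DecidableEq V] [DecidableEq κ] in
lemma LP_cont : Continuous (LP : C(((V → T) × (κ → T)) × ((V → T) × (κ → T)), ℝ) →
    C((V → T) × (V → T), ℝ)) := by
  refine LipschitzWith.continuous (K := 1) (LipschitzWith.of_dist_le_mul fun f g => ?_)
  rw [NNReal.coe_one, one_mul, ContinuousMap.dist_le dist_nonneg]
  intro q
  rw [Real.dist_eq, LP_apply, LP_apply, ← integral_sub (LP_int f q) (LP_int g q)]
  have h1 := norm_integral_le_of_norm_le_const (μ := (torusHaar κ).prod (torusHaar κ))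
    (f := fun p : (κ → T) × (κ → T) => f ((q.1, p.1), (q.2, p.2)) - g ((q.1, p.1), (q.2, p.2)))
    (C := dist f g) (Eventually.of_forall fun x => by
      rw [← dist_eq_norm]
      exact ContinuousMap.dist_apply_le_dist _)
  simpa using h1

omit [DecidableEq V] [DecidableEq κ] in
/-- partial integration preserves Ginibre's cone -/
theorem LP_mem {F : C(((V → T) × (κ → T)) × ((V → T) × (κ → T)), ℝ)}
    (hF : F ∈ (PG ((V → T) × (κ → T))).S) : LP F ∈ (PG (V → T)).S := by
  have hcl : IsClosed {f : C(((V → T) × (κ → T)) × ((V → T) × (κ → T)), ℝ) |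
      LP f ∈ (PG (V → T)).S} := (PG (V → T)).closed.preimage LP_cont
  have hsub : ((Subsemiring.closure (MG ((V → T) × (κ → T)) :
      Set C(((V → T) × (κ → T)) × ((V → T) × (κ → T)), ℝ)) : Subsemiring _) :
      Set C(((V → T) × (κ → T)) × ((V → T) × (κ → T)), ℝ)) ⊆ {f | LP f ∈ (PG (V → T)).S} := by
    intro g hg
    rw [SetLike.mem_coe, Subsemiring.mem_closure_iff, Submonoid.closure_eq] at hg
    induction hg using AddSubmonoid.closure_induction with
    | mem x hx =>
      obtain ⟨r, f, hr, h⟩ := hx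
      set f' : C(V → T, ℝ) :=
        { toFun := fun θ => ∫ α, f (θ, α) ∂(torusHaar κ)
          continuous_toFun := by
            have h1 : Continuous (Function.uncurry fun (θ : V → T) (α : κ → T) => f (θ, α)) :=
              f.continuous
            have h2 := continuous_parametric_integral_of_continuous (μ := torusHaar κ) h1
              (isCompact_univ (X := κ → T))
            simpa using h2 } with hf'
      refine mem_mkPos (hM := MG_const) ⟨r, f', hr, fun p => ?_⟩
      rw [LP_apply]
      simp_rw [h]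
      rw [integral_const_mul, integral_prod_mul (fun x => f (p.1, x)) (fun x => f (p.2, x))]
      rfl
    | zero =>
      show LP 0 ∈ (PG (V → T)).S
      have : LP (0 : C(((V → T) × (κ → T)) × ((V → T) × (κ → T)), ℝ)) = 0 := by
        ext q
        rw [LP_apply]
        simp
      rw [this]
      exact (PG (V → T)).S.zero_mem
    | add x y _ _ hx hy =>
      have : LP (x + y) = LP x + LP y := by
        ext q
        rw [ContinuousMap.add_apply, LP_apply, LP_apply, LP_apply,
          ← integral_add (LP_int x q) (LP_int y q)]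
        rfl
      show LP (x + y) ∈ (PG (V → T)).S
      rw [this]
      exact (PG (V → T)).S.add_mem hx hy
  exact closure_minimal hsub hcl hF

/-- the character of a twisted bond -/
noncomputable def chT (s t : ι → V) (u : ι → κ) (i : ι) : Chr ((V → T) × (κ → T)) where
  c p := cosT (ang s t u i p.1 p.2)
  s p := sinT (ang s t u i p.1 p.2)
  cont_c := cont_cos.comp (ang_cont s t u i)
  cont_s := cont_sin.comp (ang_cont s t u i)
  c_add x y := by
    have e : ang s t u i (x + y).1 (x + y).2 = ang s t u i x.1 x.2 + ang s t u i y.1 y.2 := by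
      unfold ang
      simp only [Prod.fst_add, Prod.snd_add, Pi.add_apply]
      abel
    rw [e]
    exact Real.Angle.cos_add _ _
  s_add x y := by
    have e : ang s t u i (x + y).1 (x + y).2 = ang s t u i x.1 x.2 + ang s t u i y.1 y.2 := by
      unfold ang
      simp only [Prod.fst_add, Prod.snd_add, Pi.add_apply]
      abel
    rw [e]
    exact Real.Angle.sin_add _ _
  norm_sq x := Real.Angle.cos_sq_add_sin_sq _

lemma cos_add_cos' (a c : T) : cosT (a + c) + cosT (a - c) = 2 * (cosT a * cosT c) := by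
  have h1 : cosT (a + c) = cosT a * cosT c - sinT a * sinT c := Real.Angle.cos_add _ _
  have h2 : cosT (a - c) = cosT a * cosT c + sinT a * sinT c := by
    rw [sub_eq_add_neg]
    have h3 : cosT (a + -c) = cosT a * cosT (-c) - sinT a * sinT (-c) := Real.Angle.cos_add _ _
    have h4 : cosT (-c) = cosT c := Real.Angle.cos_neg _
    have h5 : sinT (-c) = -sinT c := Real.Angle.sin_neg _
    rw [h3, h4, h5]
    ring
  rw [h1, h2]
  ring

/-- the duplicated energy -/
noncomputable def HT (J : ι → ℝ) (s t : ι → V) (u : ι → κ) :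
    C(((V → T) × (κ → T)) × ((V → T) × (κ → T)), ℝ) :=
  ∑ i, ContinuousMap.const (((V → T) × (κ → T)) × ((V → T) × (κ → T))) (J i) *
    (pl (cc (chT s t u i)) + mi (cc (chT s t u i)))

omit [DecidableEq V] [DecidableEq κ] in
lemma HT_apply (J : ι → ℝ) (s t : ι → V) (u : ι → κ) (x y : V → T) (p q : κ → T) :
    HT J s t u ((x, p), (y, q)) = ET J s t u (x + y) (p + q) + ET J s t u (x - y) (p - q) := by
  unfold HT ET
  rw [ContinuousMap.coe_sum, Finset.sum_apply, ← Finset.sum_add_distrib]
  refine Finset.sum_congr rfl fun i _ => ?_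
  show J i * (cosT (ang s t u i (x + y) (p + q)) + cosT (ang s t u i (x - y) (p - q))) = _
  ring

omit [DecidableEq V] [DecidableEq κ] in
lemma HT_mem {J : ι → ℝ} (hJ : ∀ i, 0 ≤ J i) (s t : ι → V) (u : ι → κ) :
    cexp (HT J s t u) ∈ (PG ((V → T) × (κ → T))).S := by
  refine exp_mem (PG ((V → T) × (κ → T))).closed (PG ((V → T) × (κ → T))).const ?_
  refine Subsemiring.sum_mem _ fun i _ => ?_
  refine Subsemiring.mul_mem _ ((PG ((V → T) × (κ → T))).const _ (hJ i)) ?_
  exact ((Pos.mem_cosS (PG ((V → T) × (κ → T)))).1 (PG_cos (chT s t u i))).1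

omit [DecidableEq V] [DecidableEq κ] in
lemma DT_dup (J : ι → ℝ) (s t : ι → V) (u : ι → κ) :
    pl (DT J s t u) * mi (DT J s t u) = LP (cexp (HT J s t u)) := by
  ext q
  obtain ⟨x, y⟩ := q
  rw [ContinuousMap.mul_apply, pl_apply, mi_apply, DT_apply, DT_apply, LP_apply]
  have h1 := integral_prod_mul (μ := torusHaar κ) (ν := torusHaar κ)
    (fun α => Real.exp (ET J s t u (x + y) α)) (fun α => Real.exp (ET J s t u (x - y) α))
  have hc : Continuous fun p : (κ → T) × (κ → T) =>
      Real.exp (ET J s t u (x + y) p.1) * Real.exp (ET J s t u (x - y) p.2) := by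
    have c1 := ET_cont1 J s t u (x + y)
    have c2 := ET_cont1 J s t u (x - y)
    exact (Real.continuous_exp.comp (c1.comp continuous_fst)).mul
      (Real.continuous_exp.comp (c2.comp continuous_snd))
  have h2 := integral_rot (torusHaar κ) pi_div2 hc
  rw [← h1, ← h2]
  refine integral_congr_ae (Eventually.of_forall fun p => ?_)
  show Real.exp (ET J s t u (x + y) (p.1 + p.2)) * Real.exp (ET J s t u (x - y) (p.1 - p.2)) =
    Real.exp (HT J s t u ((x, p.1), (y, p.2)))
  rw [HT_apply, Real.exp_add]

omit [DecidableEq V] [DecidableEq κ] in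
/-- **the averaged weight is in Ginibre's class** -/
theorem DT_wt {J : ι → ℝ} (hJ : ∀ i, 0 ≤ J i) (s t : ι → V) (u : ι → κ) :
    pl (DT J s t u) * mi (DT J s t u) ∈ (PG (V → T)).S := by
  rw [DT_dup]
  exact LP_mem (HT_mem hJ s t u)

/-! ### Fourier series -/

/-- total of a current over the bonds of a label -/
def tot (u : ι → κ) (n : ι → ℤ) (k : κ) : ℤ := ∑ i, if u i = k then n i else 0

/-- the currents with total `0` for every label -/
noncomputable def PhT (u : ι → κ) (n : ι → ℤ) : ℝ := if ∀ k, tot u n k = 0 then 1 else 0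

omit [Fintype V] [DecidableEq V] [Fintype κ] in
lemma PhT_abs [Fintype κ] (u : ι → κ) (n : ι → ℤ) : |PhT u n| ≤ 1 := by
  unfold PhT
  split_ifs <;> simp

lemma PhT_nonneg (u : ι → κ) (n : ι → ℤ) : 0 ≤ PhT u n := by
  unfold PhT
  split_ifs <;> simp

omit [Fintype V] [DecidableEq V] in
lemma fourier_tw (u : ι → κ) (n : ι → ℤ) (α : κ → T) :
    ∏ i, (fourier (n i) (α (u i)) : ℂ) = ∏ k, (fourier (tot u n k) (α k) : ℂ) := by
  have h0 : ∀ (x : κ) (m : ℤ), (fourier m (α x) : ℂ) =
      ∏ k, (fourier (if x = k then m else 0) (α k) : ℂ) := by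
    intro x m
    rw [Finset.prod_eq_single x]
    · simp
    · intro v _ hv
      rw [if_neg (Ne.symm hv)]
      simp
    · intro h
      exact absurd (Finset.mem_univ _) h
  rw [Finset.prod_congr rfl fun i _ => h0 (u i) (n i), Finset.prod_comm]
  refine Finset.prod_congr rfl fun k _ => ?_
  rw [fourier_sum_ix]
  rfl

lemma fourier_angs (s t : ι → V) (u : ι → κ) (n : ι → ℤ) (θ : V → T) (α : κ → T) :
    ∏ i, (fourier (n i) (ang s t u i θ α) : ℂ) =
      (fourier 1 (ph s t n θ) : ℂ) * ∏ k, (fourier (tot u n k) (α k) : ℂ) := by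
  rw [← fourier_tw, fourier_ph, ← Finset.prod_mul_distrib]
  refine Finset.prod_congr rfl fun i _ => ?_
  unfold ang
  rw [fourier_add_arg]

omit [Fintype V] [DecidableEq V] [DecidableEq κ] in
lemma exp_ET_hasSum {J : ι → ℝ} (hJ : ∀ i, 0 ≤ J i) (s t : ι → V) (u : ι → κ) (θ : V → T)
    (α : κ → T) :
    ((Real.exp (ET J s t u θ α) : ℝ) : ℂ) =
      ∑' n : ι → ℤ, (wJ J n : ℂ) * ∏ i, (fourier (n i) (ang s t u i θ α) : ℂ) := by
  have h := (prod_tsum_all ℤ ι (fun e n => (wI (J e) n : ℂ) *
      (fourier n (ang s t u e θ α) : ℂ)) fun e => by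
    refine (summable_wI (hJ e)).congr fun n => ?_
    rw [norm_mul, fourier_norm_one, mul_one, Complex.norm_real, Real.norm_eq_abs,
      abs_of_nonneg (wI_nonneg (hJ e) n)]).2
  have e1 : ∀ n : ι → ℤ, (wJ J n : ℂ) * ∏ i, (fourier (n i) (ang s t u i θ α) : ℂ) =
      ∏ e, ((wI (J e) (n e) : ℂ) * (fourier (n e) (ang s t u e θ α) : ℂ)) := by
    intro n
    rw [Finset.prod_mul_distrib, wJ, Complex.ofReal_prod]
  simp_rw [e1]
  rw [h]
  have e2 : ∀ e, ∑' k : ℤ, (wI (J e) k : ℂ) * (fourier k (ang s t u e θ α) : ℂ) =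
      Complex.exp (J e * cosT (ang s t u e θ α)) := fun e => (exp_hasSum (hJ e) _).tsum_eq
  rw [Finset.prod_congr rfl fun e _ => e2 e, ← Complex.exp_sum]
  unfold ET
  push_cast
  rfl

/-- **the Fourier series of the averaged weight** -/
theorem DT_eq {J : ι → ℝ} (hJ : ∀ i, 0 ≤ J i) (s t : ι → V) (u : ι → κ) :
    DT J s t u = UU s t J (PhT u) := by
  ext θ
  rw [UU_re s t hJ (C := 1) (PhT_abs u) θ]
  have h1 : ((DT J s t u θ : ℝ) : ℂ) =
      ∑' n : ι → ℤ, ((wJ J n * PhT u n : ℝ) : ℂ) * (fourier 1 (ph s t n θ) : ℂ) := by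
    rw [DT_apply]
    have e1 : ((∫ α, Real.exp (ET J s t u θ α) ∂(torusHaar κ) : ℝ) : ℂ) =
        ∫ α, ((Real.exp (ET J s t u θ α) : ℝ) : ℂ) ∂(torusHaar κ) := integral_ofReal.symm
    rw [e1]
    simp_rw [exp_ET_hasSum hJ s t u θ]
    have hc : ∀ n : ι → ℤ, Continuous fun α : κ → T =>
        (wJ J n : ℂ) * ∏ i, (fourier (n i) (ang s t u i θ α) : ℂ) := by
      intro n
      refine continuous_const.mul (continuous_finsetProd _ fun i _ => ?_)
      unfold ang
      exact (fourier (n i)).continuous.comp (continuous_const.add (continuous_apply (u i)))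
    have hn : ∀ (n : ι → ℤ) (α : κ → T),
        ‖(wJ J n : ℂ) * ∏ i, (fourier (n i) (ang s t u i θ α) : ℂ)‖ = wJ J n := by
      intro n α
      rw [norm_mul, norm_prod, Finset.prod_eq_one fun i _ => fourier_norm_one _ _, mul_one,
        Complex.norm_real, Real.norm_eq_abs, abs_of_nonneg (wJ_nonneg hJ n)]
    have hi := integral_tsum_of_summable_integral_norm (μ := torusHaar κ)
      (F := fun (n : ι → ℤ) (α : κ → T) =>
        (wJ J n : ℂ) * ∏ i, (fourier (n i) (ang s t u i θ α) : ℂ))
      (fun n => (hc n).integrable_of_hasCompactSupport (HasCompactSupport.of_compactSpace _)) (by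
        refine (wJ_summable hJ).congr fun n => ?_
        simp_rw [hn n]
        simp)
    rw [← hi]
    refine tsum_congr fun n => ?_
    simp_rw [fourier_angs]
    rw [integral_const_mul, integral_const_mul,
      Vale.Agent.P159.T1.H857.integral_prod_fourierA (fun k => tot u n k)]
    unfold PhT
    split_ifs with h
    · push_cast; ring
    · push_cast; ring
  rw [← h1, Complex.ofReal_re]

/-- **the averaged weight is ferromagnetic** -/
theorem DT_fer {J : ι → ℝ} (hJ : ∀ i, 0 ≤ J i) (s t : ι → V) (u : ι → κ) :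
    Fer (DT J s t u) where
  wt := DT_wt hJ s t u
  cos := by
    rw [DT_eq hJ]
    exact UU_mem s t hJ (C := 1) (PhT_abs u) (PhT_nonneg u)
  pos := DT_pos J s t u
  inv := by
    rw [DT_eq hJ]
    exact UU_inv s t hJ (C := 1) (PhT_abs u)

/-- the averaged weight depends only on the spins of its bonds -/
theorem DT_dep (J : ι → ℝ) (s t : ι → V) (u : ι → κ) :
    Dep {v | ∃ i, v = s i ∨ v = t i} (DT J s t u) := by
  intro θ θ' h
  rw [DT_apply, DT_apply]
  have e : ∀ α, ET J s t u θ α = ET J s t u θ' α := by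
    intro α
    unfold ET ang
    refine Finset.sum_congr rfl fun i _ => ?_
    rw [h (s i) ⟨i, Or.inl rfl⟩, h (t i) ⟨i, Or.inr rfl⟩]
  simp_rw [e]

end Vale.Agent.P159.H773
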