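import Vale.Agent.P159.H773.Link

/-!
P159 (helper773): upper bound of the correlations of the plane by those of the neutral torus:
plane ≤ wired block ≤ free box + charge two correlation of the wired block.
-/

open MeasureTheory Filter Topology
open scoped BigOperators

set_option linter.all false

namespace Vale.Agent.P159.H773

open Vale.Agent.P159 Vale.Agent.P159.H353 Vale.Agent.P159.T1.H42 Vale.Agent.P159.TM.H389
open Vale.Agent.P159.TM.H331

variable {M : ℕ} {b : ℝ}

lemma sum_adj {n : ℕ} (g : Fin (n + 1) → Fin (n + 1) → ℝ) :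
    ∑ a : Fin (n + 1), ∑ a' : Fin (n + 1), (if (a' : ℕ) = (a : ℕ) + 1 then g a a' else 0) =
      ∑ i : Fin n, g i.castSucc i.succ := by
  rw [Fin.sum_univ_castSucc]
  have h1 : ∑ a' : Fin (n + 1), (if (a' : ℕ) = ((Fin.last n : Fin (n + 1)) : ℕ) + 1 then
      g (Fin.last n) a' else 0) = 0 := by
    refine Finset.sum_eq_zero fun a' _ => if_neg ?_
    have := a'.2
    rw [Fin.val_last]
    omega
  rw [h1, add_zero]
  refine Finset.sum_congr rfl fun i _ => ?_
  rw [Finset.sum_eq_single i.succ]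
  · rw [if_pos]
    simp
  · intro a' _ ha
    refine if_neg fun h => ha ?_
    apply Fin.ext
    simpa using h
  · intro h
    exact absurd (Finset.mem_univ _) h

lemma nn_cv (b : ℝ) (u v : St M) :
    nn b (cv u) (cv v) = (if ((v.1 : ℕ) = u.1 + 1 ∧ v.2 = u.2) then b else 0) +
      (if (v.1 = u.1 ∧ (v.2 : ℕ) = u.2 + 1) then b else 0) := by
  obtain ⟨a, c⟩ := u
  obtain ⟨a', c'⟩ := v
  have e1 : cv (a', c') = cv (a, c) + (1, 0) ↔ ((a' : ℕ) = a + 1 ∧ c' = c) := by
    unfold cv
    simp only [Prod.mk_add_mk, Prod.mk.injEq, add_zero]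
    constructor
    · rintro ⟨h1, h2⟩
      exact ⟨by exact_mod_cast h1, Fin.ext (by exact_mod_cast h2)⟩
    · rintro ⟨h1, h2⟩
      exact ⟨by exact_mod_cast h1, by rw [h2]⟩
  have e2 : cv (a', c') = cv (a, c) + (0, 1) ↔ (a' = a ∧ (c' : ℕ) = c + 1) := by
    unfold cv
    simp only [Prod.mk_add_mk, Prod.mk.injEq, add_zero]
    constructor
    · rintro ⟨h1, h2⟩
      exact ⟨Fin.ext (by exact_mod_cast h1), by exact_mod_cast h2⟩
    · rintro ⟨h1, h2⟩
      exact ⟨by rw [h1], by exact_mod_cast h2⟩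
  unfold nn
  by_cases h1 : (a' : ℕ) = a + 1 ∧ c' = c
  · have h2 : ¬ (a' = a ∧ (c' : ℕ) = c + 1) := by
      rintro ⟨h3, h4⟩
      rw [h3] at h1
      omega
    rw [if_pos (Or.inl (e1.2 h1)), if_pos h1, if_neg h2, add_zero]
  · by_cases h2 : a' = a ∧ (c' : ℕ) = c + 1
    · rw [if_pos (Or.inr (e2.2 h2)), if_neg h1, if_pos h2, zero_add]
    · rw [if_neg, if_neg h1, if_neg h2, add_zero]
      rintro (h | h)
      · exact h1 (e1.1 h)
      · exact h2 (e2.1 h)

/-- sum over neighbours in terms of the bonds of the box -/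
lemma sum_nn_St (b : ℝ) (g : St M → St M → ℝ) :
    ∑ u, ∑ v, nn b (cv u) (cv v) * g u v = ∑ e : Bd M, b * g (bs e) (bt e) := by
  have h1 : ∀ u v : St M, nn b (cv u) (cv v) * g u v =
      (if (v.1 : ℕ) = u.1 + 1 then (if v.2 = u.2 then b * g u v else 0) else 0) +
        (if (v.2 : ℕ) = u.2 + 1 then (if v.1 = u.1 then b * g u v else 0) else 0) := by
    intro u v
    rw [nn_cv, add_mul]
    congr 1
    · by_cases h : (v.1 : ℕ) = u.1 + 1
      · by_cases h' : v.2 = u.2
        · rw [if_pos ⟨h, h'⟩, if_pos h, if_pos h']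
        · rw [if_neg (fun x => h' x.2), if_pos h, if_neg h', zero_mul]
      · rw [if_neg (fun x => h x.1), if_neg h, zero_mul]
    · by_cases h : (v.2 : ℕ) = u.2 + 1
      · by_cases h' : v.1 = u.1
        · rw [if_pos ⟨h', h⟩, if_pos h, if_pos h']
        · rw [if_neg (fun x => h' x.1), if_pos h, if_neg h', zero_mul]
      · rw [if_neg (fun x => h x.2), if_neg h, zero_mul]
  rw [Fintype.sum_sum_type]
  simp_rw [h1, Finset.sum_add_distrib]
  congr 1
  · simp only [Fintype.sum_prod_type]
    rw [Finset.sum_comm]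
    have h2 : ∀ (c : Fin (M + 2)), ∑ a : Fin (M + 2), ∑ a' : Fin (M + 2), ∑ c' : Fin (M + 2),
        (if ((a' : Fin (M + 2)) : ℕ) = (a : ℕ) + 1 then
          (if c' = c then b * g (a, c) (a', c') else 0) else 0) =
        ∑ i : Fin (M + 1), b * g (i.castSucc, c) (i.succ, c) := by
      intro c
      rw [← sum_adj (fun a a' => b * g (a, c) (a', c))]
      refine Finset.sum_congr rfl fun a _ => Finset.sum_congr rfl fun a' _ => ?_
      by_cases h : (a' : ℕ) = a + 1
      · simp only [if_pos h, Finset.sum_ite_eq', Finset.mem_univ, if_true]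
      · simp only [if_neg h, Finset.sum_const_zero]
    rw [Finset.sum_congr rfl fun c _ => h2 c, Finset.sum_comm]
    rfl
  · simp only [Fintype.sum_prod_type]
    have h2 : ∀ (a : Fin (M + 2)), ∑ c : Fin (M + 2), ∑ a' : Fin (M + 2), ∑ c' : Fin (M + 2),
        (if ((c' : Fin (M + 2)) : ℕ) = (c : ℕ) + 1 then
          (if a' = a then b * g (a, c) (a', c') else 0) else 0) =
        ∑ i : Fin (M + 1), b * g (a, i.castSucc) (a, i.succ) := by
      intro a
      rw [← sum_adj (fun c c' => b * g (a, c) (a, c'))]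
      refine Finset.sum_congr rfl fun c _ => ?_
      rw [Finset.sum_comm]
      refine Finset.sum_congr rfl fun c' _ => ?_
      by_cases h : (c' : ℕ) = c + 1
      · simp only [if_pos h, Finset.sum_ite_eq', Finset.mem_univ, if_true]
      · simp only [if_neg h, Finset.sum_const_zero]
    rw [Finset.sum_congr rfl fun a _ => h2 a]
    rfl

/-- the free box in the letters of `Bdl` -/
lemma cF_eq (b : ℝ) (p q : St M) :
    cF M b p q = XY.corr (fun u v : St M => nn b (cv u) (cv v)) p q := by
  unfold cF XY.corr XY.ev XY.un XY.part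
  have e : ∀ θ : St M → T, XY.energy (fun u v : St M => nn b (cv u) (cv v)) θ =
      EN (fun _ : Bd M => b) bs bt θ := by
    intro θ
    unfold XY.energy
    rw [sum_nn_St b (fun u v => XY.ct (θ u - θ v)), EN_apply]
    rfl
  simp_rw [e]
  rfl

/-- inner block without boundary conditions ≤ free box -/
lemma corr_mJ_le_cF (hb : 0 ≤ b) (p q : inner (M + 1)) :
    XY.corr (mJ (M + 1) b) p q ≤ cF M b (ci p) (ci q) := by
  rw [cF_eq]
  refine XY.corr_embed ci ci_inj (fun u v => mJ_nonneg _ hb u v)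
    (fun u v => XY.nn_nonneg hb _ _) (fun u v => ?_) p q
  rw [cv_ci, cv_ci]
  exact mJ_le _ hb u v

/-- transversal correlations of the wired block and the block without boundary conditions -/
lemma wired_sin_le (l : ℕ) (hb : 0 ≤ b) (x y : inner l) :
    expect (blockEnergy l b) (fun θ => sinT (θ x) * sinT (θ y)) ≤
      1 / 2 * XY.corr (mJ l b) x y := by
  have h1 := XY.field_bound (mJ l b) (mJ_nonneg l hb) (mh l b) (mh_nonneg l hb) x y
  have h3 : expect (blockEnergy l b) (fun θ => sinT (θ x) * sinT (θ y)) =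
      XY.unF (mJ l b) (mh l b) (fun θ => XY.st (θ x) * XY.st (θ y)) /
        XY.unF (mJ l b) (mh l b) (fun _ => 1) := by
    unfold expect XY.unF
    have e1 : ∀ θ : inner l → T, Real.exp (blockEnergy l b θ) =
        Real.exp (XY.energy (mJ l b) θ + ∑ x, mh l b x * XY.ct (θ x)) * Real.exp (mK l b) := by
      intro θ
      rw [blockEnergy_field, Real.exp_add]
    simp_rw [e1]
    have e2 : ∀ θ : inner l → T, sinT (θ x) * sinT (θ y) *
        (Real.exp (XY.energy (mJ l b) θ + ∑ x, mh l b x * XY.ct (θ x)) * Real.exp (mK l b)) =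
        (XY.st (θ x) * XY.st (θ y) *
        Real.exp (XY.energy (mJ l b) θ + ∑ x, mh l b x * XY.ct (θ x))) * Real.exp (mK l b) := by
      intro θ
      rw [← mul_assoc]
      rfl
    simp_rw [e2]
    rw [integral_mul_const, integral_mul_const, mul_div_mul_right _ _ (Real.exp_pos _).ne']
    simp only [one_mul]
    rfl
  rw [h3]
  linarith

/-- **wired ≤ neutral torus + charge two correlation** -/
theorem cW_le (hb : 0 ≤ b) (p q : inner (M + 1)) :
    cW M b (ci p) (ci q) ≤ cT M b (ci p) (ci q) +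
      expect (blockEnergy (M + 1) b) (fun θ => cosT (θ p + θ q)) := by
  rw [cW_eq, expect_cos_sub]
  have h1 := wired_sin_le (M + 1) hb p q
  have h2 := corr_mJ_le_cF (M := M) hb p q
  have h3 := cF_le_cT (M := M) hb (ci p) (ci q)
  linarith

/-! ### plane ≤ wired block -/

/-- integrals over a box with the spins off the inner sites pinned -/
lemma int_pin_box {l R : ℕ} (h : inner l ⊆ box R) {f : (box R → T) → ℝ} (hf : Continuous f) :
    ∫ θ, f (pin {v : box R | v.1 ∉ inner l} 0 θ) ∂(torusHaar (box R)) =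
      ∫ φ, f (fun v => ext φ v.1) ∂(torusHaar (inner l)) := by
  have hc : Continuous fun φ : inner l → T => (fun v : box R => ext φ v.1) :=
    continuous_pi fun v => (continuous_apply v.1).comp (ext_cont _)
  have hinj : Function.Injective (fun w : inner l => (⟨w.1, h w.2⟩ : box R)) := by
    intro w w' hw
    apply Subtype.ext
    simpa using hw
  have h1 := integral_relabel (fun w : inner l => (⟨w.1, h w.2⟩ : box R)) hinj
    (torusHaar (box R)) (torusHaar (inner l)) (f := fun φ => f (fun v => ext φ v.1))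
    (hf.comp hc)
  rw [← h1]
  refine integral_congr_ae (Eventually.of_forall fun θ => ?_)
  show f _ = f _
  congr 1
  funext v
  by_cases hv : v.1 ∈ inner l
  · have hv' : v ∉ {v : box R | v.1 ∉ inner l} := fun h2 =>
      absurd hv (show v.1 ∉ inner l from h2)
    rw [pin_notMem hv']
    unfold ext
    rw [dif_pos hv]
    rfl
  · rw [pin_mem (show v ∈ {v : box R | v.1 ∉ inner l} from hv)]
    unfold ext
    rw [dif_neg hv]
    rfl

/-- the sites of the closed block -/
noncomputable def QQ (M : ℕ) : Finset (ℤ × ℤ) := Finset.univ.image (cv : St M → ℤ × ℤ)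

lemma mem_QQ {z : ℤ × ℤ} :
    z ∈ QQ M ↔ (0 ≤ z.1 ∧ z.1 ≤ M + 1) ∧ (0 ≤ z.2 ∧ z.2 ≤ M + 1) := by
  unfold QQ
  rw [Finset.mem_image]
  constructor
  · rintro ⟨v, -, rfl⟩
    have h1 := v.1.2
    have h2 := v.2.2
    unfold cv
    simp only
    omega
  · rintro ⟨⟨h1, h2⟩, h3, h4⟩
    refine ⟨(⟨z.1.toNat, by omega⟩, ⟨z.2.toNat, by omega⟩), Finset.mem_univ _, ?_⟩
    unfold cv
    ext
    · simp only; omega
    · simp only; omega

lemma cos_term_zero {z z' : ℤ × ℤ} (b : ℝ) (ω : ℤ × ℤ → T)
    (h0 : ∀ z, z ∉ inner (M + 1) → ω z = 0) (h : z ∉ QQ M ∨ z' ∉ QQ M) :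
    nn b z z' * (cosT (ω z - ω z') - 1) = 0 := by
  by_cases hn : z' = z + (1, 0) ∨ z' = z + (0, 1)
  · have hz : z ∉ inner (M + 1) := by
      intro hz
      have h1 := mem_inner_iff.1 hz
      rcases h with h | h
      · exact h (mem_QQ.2 (by push_cast at h1; omega))
      · apply h
        rw [mem_QQ]
        push_cast at h1
        rcases hn with hn | hn
        · rw [hn]
          simp only [Prod.fst_add, Prod.snd_add]
          omega
        · rw [hn]
          simp only [Prod.fst_add, Prod.snd_add]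
          omega
    have hz' : z' ∉ inner (M + 1) := by
      intro hz'
      have h1 := mem_inner_iff.1 hz'
      rcases h with h | h
      · apply h
        rw [mem_QQ]
        push_cast at h1
        rcases hn with hn | hn
        · rw [hn] at h1
          simp only [Prod.fst_add, Prod.snd_add] at h1
          omega
        · rw [hn] at h1
          simp only [Prod.fst_add, Prod.snd_add] at h1
          omega
      · exact h (mem_QQ.2 (by push_cast at h1; omega))
    rw [h0 _ hz, h0 _ hz', sub_self, cosT_zero, sub_self, mul_zero]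
  · unfold nn
    rw [if_neg hn, zero_mul]

/-- energy of the box with pinned spins off the inner block -/
lemma box_energy {R : ℕ} (hR : QQ M ⊆ box R) (b : ℝ) (ω : ℤ × ℤ → T)
    (h0 : ∀ z, z ∉ inner (M + 1) → ω z = 0) :
    ∑ u : box R, ∑ v : box R, nn b u v * cosT (ω u - ω v) =
      horiz (M + 1) b cosT ω + vert (M + 1) b cosT ω + (2 * b * (M + 1) +
        ((∑ u : box R, ∑ v : box R, nn b u v) - ∑ e : Bd M, b)) := by
  have h1 : ∑ u : box R, ∑ v : box R, nn b u v * (cosT (ω u - ω v) - 1) =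
      ∑ u : St M, ∑ v : St M, nn b (cv u) (cv v) * (cosT (ω (cv u) - ω (cv v)) - 1) := by
    have e1 : ∀ u : ℤ × ℤ, ∑ v : box R, nn b u v * (cosT (ω u - ω v) - 1) =
        ∑ v ∈ QQ M, nn b u v * (cosT (ω u - ω v) - 1) := by
      intro u
      rw [Finset.sum_coe_sort (box R) (fun v => nn b u v * (cosT (ω u - ω v) - 1))]
      refine (Finset.sum_subset hR fun v _ hv => ?_).symm
      exact cos_term_zero b ω h0 (Or.inr hv)
    have e2 : ∑ u : box R, ∑ v ∈ QQ M, nn b u v * (cosT (ω u - ω v) - 1) =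
        ∑ u ∈ QQ M, ∑ v ∈ QQ M, nn b u v * (cosT (ω u - ω v) - 1) := by
      rw [Finset.sum_coe_sort (box R) (fun u => ∑ v ∈ QQ M, nn b u v * (cosT (ω u - ω v) - 1))]
      refine (Finset.sum_subset hR fun u _ hu => ?_).symm
      exact Finset.sum_eq_zero fun v _ => cos_term_zero b ω h0 (Or.inl hu)
    rw [Finset.sum_congr rfl fun u _ => e1 u.1, e2]
    unfold QQ
    rw [Finset.sum_image fun x _ y _ h => cv_inj h]
    refine Finset.sum_congr rfl fun u _ => ?_
    rw [Finset.sum_image fun x _ y _ h => cv_inj h]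
  rw [sum_nn_St b (fun u v => cosT (ω (cv u) - ω (cv v)) - 1)] at h1
  have h2 : ∑ u : box R, ∑ v : box R, nn b u v * cosT (ω u - ω v) =
      (∑ u : box R, ∑ v : box R, nn b u v * (cosT (ω u - ω v) - 1)) +
        ∑ u : box R, ∑ v : box R, nn b u v := by
    rw [← Finset.sum_add_distrib]
    refine Finset.sum_congr rfl fun u _ => ?_
    rw [← Finset.sum_add_distrib]
    refine Finset.sum_congr rfl fun v _ => ?_
    ring
  have h3 : ∑ e : Bd M, b * (cosT (ω (cv (bs e)) - ω (cv (bt e))) - 1) =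
      (∑ e : Bd M, b * cosT (ω (cv (bs e)) - ω (cv (bt e)))) - ∑ e : Bd M, b := by
    rw [← Finset.sum_sub_distrib]
    exact Finset.sum_congr rfl fun e _ => by ring
  have h4 := EN_block b ω h0
  rw [EN_apply] at h4
  rw [h2, h1, h3, h4]
  ring

/-- **plane ≤ wired block** -/
theorem KS_le_cW (hb : 0 ≤ b) {R : ℕ} (hR : QQ M ⊆ box R) (p q : inner (M + 1)) :
    XY.KS (box R) b p q ≤ expect (blockEnergy (M + 1) b) fun θ => cosT (θ p - θ q) := by
  have hin : inner (M + 1) ⊆ box R := by
    intro z hz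
    apply hR
    have h1 := mem_inner_iff.1 hz
    rw [mem_QQ]
    push_cast at h1
    omega
  rw [XY.KS_of_mem b (hin p.2) (hin q.2)]
  set p' : box R := ⟨p.1, hin p.2⟩ with hp'
  set q' : box R := ⟨q.1, hin q.2⟩ with hq'
  set J : box R × box R → ℝ := fun e => b * XY.A e.1 e.2 with hJ
  set w : C(box R → T, ℝ) := cexp (EN J Prod.fst Prod.snd) with hw
  have hfer : Fer w := Fer.EN (fun e => mul_nonneg hb (XY.A_nonneg _ _)) Prod.fst Prod.snd
  have h := pin_le (w := w) (U := cd p' q') hfer.wt (cd_cos p' q')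
    {v : box R | v.1 ∉ inner (M + 1)}
  have hE : ∀ θ : box R → T, EN J Prod.fst Prod.snd θ =
      XY.energy (fun u v : box R => b * XY.A u v) θ := by
    intro θ
    rw [EN_apply, Fintype.sum_prod_type]
    rfl
  have hw0 : ∀ θ : box R → T, w θ =
      Real.exp (XY.energy (fun u v : box R => b * XY.A u v) θ) := by
    intro θ
    rw [← hE]
    rfl
  set K : ℝ := 2 * b * (M + 1) + ((∑ u : box R, ∑ v : box R, nn b u v) - ∑ e : Bd M, b) with hK
  have hwp : ∀ φ : inner (M + 1) → T, w (fun v : box R => ext φ v.1) =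
      Real.exp (blockEnergy (M + 1) b φ) * Real.exp K := by
    intro φ
    rw [hw0, ← XY.boxEnergy_eq, ← Real.exp_add]
    congr 1
    have := box_energy hR b (ext φ) (fun z hz => by unfold ext; rw [dif_neg hz])
    exact this
  have e2 : ∫ θ, w (pin {v : box R | v.1 ∉ inner (M + 1)} 0 θ) ∂(torusHaar (box R)) =
      (∫ φ, Real.exp (blockEnergy (M + 1) b φ) ∂(torusHaar (inner (M + 1)))) * Real.exp K := by
    rw [int_pin_box hin (f := fun θ => w θ) w.continuous, ← integral_mul_const]
    exact integral_congr_ae (Eventually.of_forall fun φ => hwp φ)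
  have e3 : ∫ θ, w (pin {v : box R | v.1 ∉ inner (M + 1)} 0 θ) *
      cd p' q' (pin {v : box R | v.1 ∉ inner (M + 1)} 0 θ) ∂(torusHaar (box R)) =
      (∫ φ, cosT (φ p - φ q) * Real.exp (blockEnergy (M + 1) b φ)
        ∂(torusHaar (inner (M + 1)))) * Real.exp K := by
    rw [int_pin_box hin (f := fun θ => w θ * cd p' q' θ)
      (w.continuous.mul (cd p' q').continuous), ← integral_mul_const]
    refine integral_congr_ae (Eventually.of_forall fun φ => ?_)
    show w (fun v : box R => ext φ v.1) * cd p' q' (fun v : box R => ext φ v.1) = _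
    rw [hwp, cd_apply]
    have x1 : ext φ (p' : ℤ × ℤ) = φ p := by
      unfold ext
      rw [dif_pos p.2]
    have x2 : ext φ (q' : ℤ × ℤ) = φ q := by
      unfold ext
      rw [dif_pos q.2]
    rw [x1, x2]
    ring
  have e4 : ∫ θ, w θ * cd p' q' θ ∂(torusHaar (box R)) =
      ∫ θ, XY.ct (θ p' - θ q') * Real.exp (XY.energy (fun u v : box R => b * XY.A u v) θ)
        ∂(torusHaar (box R)) := by
    refine integral_congr_ae (Eventually.of_forall fun θ => ?_)
    show w θ * cd p' q' θ = _
    rw [hw0, cd_apply, mul_comm]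
    rfl
  have e5 : ∫ θ, w θ ∂(torusHaar (box R)) =
      ∫ θ, Real.exp (XY.energy (fun u v : box R => b * XY.A u v) θ) ∂(torusHaar (box R)) :=
    integral_congr_ae (Eventually.of_forall fun θ => hw0 θ)
  have p1 : 0 < ∫ θ, w θ ∂(torusHaar (box R)) := ipos w.continuous hfer.pos
  have p2 : 0 < ∫ φ, Real.exp (blockEnergy (M + 1) b φ) ∂(torusHaar (inner (M + 1))) :=
    ipos (Real.continuous_exp.comp (blockEnergy_cont _ b)) fun θ => Real.exp_pos _
  have goal : XY.corr (fun u v : box R => b * XY.A u v) p' q' =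
      (∫ θ, w θ * cd p' q' θ ∂(torusHaar (box R))) / ∫ θ, w θ ∂(torusHaar (box R)) := by
    rw [e4, e5]
    rfl
  rw [goal]
  unfold expect
  rw [div_le_div_iff₀ p1 p2]
  rw [e2, e3] at h
  have p3 : 0 < Real.exp K := Real.exp_pos K
  refine le_of_mul_le_mul_right ?_ p3
  calc _ = _ := by ring
    _ ≤ _ := h
    _ = _ := by ring

theorem C_le_cW (hb : 0 ≤ b) (p q : inner (M + 1)) :
    XY.C b ((q : ℤ × ℤ) - p) ≤ cW M b (ci p) (ci q) := by
  rw [cW_eq, ← XY.CI_eq hb]
  obtain ⟨R0, hR0⟩ := XY.exists_box (QQ M)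
  refine le_of_tendsto (XY.tendsto_KS hb p q) ?_
  filter_upwards [eventually_ge_atTop R0] with R hR
  exact KS_le_cW hb (hR0.trans (XY.box_mono hR)) p q

/-- **upper bound of the correlations of the plane by those of the neutral torus** -/
theorem C_le (hb : 0 ≤ b) (p q : inner (M + 1)) :
    XY.C b ((q : ℤ × ℤ) - p) ≤ cT M b (ci p) (ci q) +
      expect (blockEnergy (M + 1) b) (fun θ => cosT (θ p + θ q)) :=
  (C_le_cW hb p q).trans (cW_le hb p q)

/-- **plane versus neutral torus** -/
theorem C_sub_abs (hb : 0 ≤ b) (p q : inner (M + 1)) :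
    |XY.C b ((q : ℤ × ℤ) - p) - cT M b (ci p) (ci q)| ≤
      expect (blockEnergy (M + 1) b) (fun θ => cosT (θ p + θ q)) := by
  have h1 := C_le (M := M) hb p q
  have h2 := C_ge (M := M) hb p q
  rw [abs_le]
  constructor <;> linarith

end Vale.Agent.P159.H773
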